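import Vale.Agent.P014T.Mu.Lq
import Vale.Agent.P014U.Gn

/-! # P014U, block MU (odd prime): the tame towers (words) -/

set_option linter.all false

noncomputable section

namespace Vale.Agent.P014U.Mu

open NumberField
open Vale.Agent.P022 (Qb GQ IsConj)
open Vale.Agent.P027M.S (Inert)
open Vale.Agent.P022E.GW (Ov Fb)
open Vale.Agent.P004R (Fx)

variable [Pp]

/-- a cyclic layer of degree `pp ^ n` in `ℚ(ζ_c)`, totally ramified at the primes of `c`;
the primes of `S` have at most `pp` places above them -/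
structure Tq (S : Finset ℕ) (n c : ℕ) (e : GQ → ZMod (pp ^ n)) : Prop where
  add : ∀ g h, e (g * h) = e g + e h
  ker : ∀ g, Fx {1} c g → e g = 0
  cj : ∀ k, IsConj k → e k = 0
  sq : Squarefree c
  one : 1 < c
  cy : ∀ q : ℕ, q.Prime → q ∣ c → q % pp ^ (n + 1) = 1 ∧ q ∉ S
  ram : ∀ q P, Ov q P → q ∣ c → ∃ t, Inert P t ∧ e t = 1
  fro : ∀ p ∈ S, ∀ P φ, Ov p P → Fb p P φ → ¬ pp ^ 2 ∣ (e φ).val

variable {S : Finset ℕ} {n c q : ℕ} {e : GQ → ZMod (pp ^ n)} {P : Ideal (𝓞 Qb)}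

theorem Tq.zero (t : Tq S n c e) : e 1 = 0 := by simpa using t.add 1 1

theorem Tq.pow (t : Tq S n c e) (g : GQ) (j : ℕ) : e (g ^ j) = j * e g := by
  induction j with
  | zero => simpa using t.add 1 1
  | succ j ih => rw [pow_succ, t.add, ih]; push_cast; ring

theorem Tq.conj (t : Tq S n c e) (x g : GQ) : e (x * g * x⁻¹) = e g := by
  have := t.add (x * g * x⁻¹) x
  rw [inv_mul_cancel_right, t.add, add_comm] at this
  exact (add_right_cancel this).symm

theorem Tq.ine (t : Tq S n c e) (o : Ov q P) (d : ¬ q ∣ c) {g : GQ} (i : Inert P g) : e g = 0 :=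
  t.ker g (P014T.Mu.in_fx o d t.sq.ne_zero i)

end Vale.Agent.P014U.Mu
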