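import Vale.Agent.P014U.Mu.St
import Vale.Agent.P014U.Dr.Cy
import Vale.Agent.P022K.Cheb.Main
import Vale.Agent.P022K.CH.Exf

/-! # P014U, block MU: the supply of primes (row CHB; helper7) -/

set_option linter.all false

noncomputable section

namespace Vale.Agent.P014U.Mu

open NumberField Matrix
open Vale.Agent.P022 (Qb GQ)
open Vale.Agent.P027M.S (Inert)
open Vale.Agent.P022E.GW (Ov Fb)
open Vale.Agent.P022K.G2 (mem_Gz mem_Gz' zt_pow)
open Vale.Agent.P004F (M2)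
open Vale.Agent.P014T.Dr (root_cong ex_cy Hm_open Ha_le)
open X4S.Aq (cz cz_om om_oz)
open Dr (Hm Ha)

namespace Cb

variable {R : Type} [CommRing R] {U : M2 R}

theorem det_sub (M : M2 R) : (M - 1).det = 1 - M.trace + M.det := by
  simp [det_fin_two, trace_fin_two]; ring

theorem tr_rec (X : M2 R) (h : U.det = 1) (i : ℕ) :
    (X * U ^ (i + 2)).trace = U.trace * (X * U ^ (i + 1)).trace - (X * U ^ i).trace := by
  rw [pow_succ, pow_succ, ← mul_assoc, ← mul_assoc]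
  generalize X * U ^ i = Y
  simp only [det_fin_two] at h
  simp only [trace_fin_two, mul_apply, Fin.sum_univ_two]
  linear_combination (-(Y 0 0) - Y 1 1) * h

theorem tr_pow (h : U.det = 1) (n : ℕ) :
    ∃ t, 2 - (U ^ n).trace = (2 - U.trace) * (n ^ 2 + (2 - U.trace) * t) := by
  induction n using Nat.twoStepInduction with
  | zero => exact ⟨0, by simp⟩
  | one => exact ⟨0, by simp⟩
  | more n a b =>
    obtain ⟨s, a⟩ := a
    obtain ⟨t, b⟩ := b
    have := tr_rec 1 h n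
    simp only [one_mul] at this
    refine ⟨U.trace * t - (n + 1) ^ 2 - s, ?_⟩
    push_cast at b ⊢
    linear_combination -this + U.trace * b - a

theorem uni (h : U.det = 1) (t : U.trace = 2) : (U - 1) ^ 2 = 0 := by
  simp only [det_fin_two, trace_fin_two] at h t
  ext i j
  fin_cases i <;> fin_cases j <;> simp [pow_two, mul_apply, Fin.sum_univ_two]
  · linear_combination U 0 0 * t - h
  · linear_combination U 0 1 * t
  · linear_combination U 1 0 * t
  · linear_combination U 1 1 * t - h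

/-- two Frobenius elements -/
theorem fb_div {l : ℕ} {P : Ideal (𝓞 Qb)} {σ φ : GQ} (a : Fb l P σ) (b : Fb l P φ) :
    Inert P (σ * φ⁻¹) := fun x => by
  have := P.sub_mem (a (φ⁻¹ • x)) (b (φ⁻¹ • x))
  rwa [sub_sub_sub_cancel_right, smul_inv_smul, ← mul_smul] at this

variable [Pp]

theorem dvd_iff {n : ℕ} {x : ℤ_[pp]} : (pp : ℤ_[pp]) ^ n ∣ x ↔ PadicInt.toZModPow n x = 0 := by
  rw [← RingHom.mem_ker, PadicInt.ker_toZModPow, Ideal.mem_span_singleton]

theorem dvd_one {x : ℤ_[pp]} : (pp : ℤ_[pp]) ∣ x ↔ PadicInt.toZMod x = 0 := by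
  rw [← RingHom.mem_ker, PadicInt.ker_toZMod, PadicInt.maximalIdeal_eq_span_p,
    Ideal.mem_span_singleton]

theorem fb_mod {l n : ℕ} {P : Ideal (𝓞 Qb)} {φ : GQ} (o : Ov l P) (h : l ≠ pp) (f : Fb l P φ)
    (m : φ ∈ Hm (pp ^ (n + 1))) : l % pp ^ (n + 1) = 1 := by
  have := NeZero.mk (pow_ne_zero (n + 1) pp_ne)
  obtain ⟨ζ, χ, c1, -, c2, c3⟩ := ex_cy (pp ^ (n + 1))
  have := c3 φ l (root_cong o (Dr.nd_two o h _) f c1.pow_eq_one)
  rw [(c2 φ).1 m, Units.val_one, ← Nat.cast_one (R := ZMod _), ZMod.natCast_eq_natCast_iff'] at this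
  exact this.symm.trans (Nat.mod_eq_of_lt (Nat.one_lt_pow (by omega) one_lt))

end Cb

open Cb

variable [Pp]

/-- **the supply of primes** -/
theorem chb : CHB := fun r S pl h => by
  classical
  obtain ⟨u, hu, d, ⟨w, hw⟩, ne⟩ := h.big 3
  have p0 : (pp : ℤ_[pp]) ≠ 0 := Nat.cast_ne_zero.2 pp_ne
  have np : ¬ IsUnit (pp : ℤ_[pp]) := PadicInt.prime_p.not_unit
  have nv : 2 - (r (u ^ pp ^ 2)).trace ≠ 0 := by
    obtain ⟨t, e⟩ := tr_pow d (pp ^ 2)
    rw [map_pow, e]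
    refine mul_ne_zero (sub_ne_zero.2 ne.symm) fun c => np (.of_mul_eq_one (-(pp * w * t)) ?_)
    rw [hw] at c
    push_cast at c
    exact mul_left_cancel₀ (pow_ne_zero 4 p0) (by linear_combination -c)
  have dv : (r (u ^ pp ^ 2)).det = 1 := by rw [map_pow, det_pow, d, one_pow]
  have hv : u ^ pp ^ 2 ∈ Ha := pow_mem hu _
  obtain ⟨m, hm⟩ : ∃ m, ¬ (pp : ℤ_[pp]) ^ m ∣ 2 - (r (u ^ pp ^ 2)).trace := by
    by_contra! c
    exact nv (PadicInt.ext_of_toZModPow.1 fun n => (dvd_iff.1 (c n)).trans (map_zero _).symm)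
  refine ⟨u, hu, uni ?_ ?_, m, fun n E W nW oW iW g hg => ?_⟩
  · exact (RingHom.map_det _ _).symm.trans (by rw [d, map_one])
  · have := dvd_one.1 (show (pp : ℤ_[pp]) ∣ 2 - (r u).trace from ⟨pp ^ 5 * w, by rw [hw]; ring⟩)
    rw [map_sub, map_ofNat, sub_eq_zero, trace_fin_two, map_add] at this
    rw [trace_fin_two, this]; rfl
  generalize u ^ pp ^ 2 = v at *
  obtain ⟨i, hi⟩ : ∃ i : ℕ, Gq r m (g * v ^ i) := by
    by_contra! c
    simp only [Gq, not_not, det_sub, map_mul, map_pow, det_mul, det_pow, dv, one_pow, mul_one,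
      h.det] at c
    have u : IsUnit (1 + (cz g : ℤ_[pp])) := by
      by_contra k
      have := dvd_one.1 (Ideal.mem_span_singleton.1 (PadicInt.maximalIdeal_eq_span_p (p := pp) ▸
        (IsLocalRing.mem_maximalIdeal _).2 k))
      rw [map_add, map_one, cz_om, om_oz, mem_Gz.1 (mem_Gz'.2 (hg _ (by
        rw [pow_succ', pow_mul, zt_pow, one_pow])))] at this
      exact two_ne (by linear_combination this)
    refine hm (u.dvd_mul_right.1 ?_)
    have := ((c 0).add (c (0 + 2))).sub ((c (0 + 1)).mul_left (r v).trace)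
    rw [tr_rec _ dv] at this
    exact this.trans (Dvd.intro 1 (by ring))
  have hg' : g * v ^ i ∈ Hm (pp ^ (n + 1)) :=
    mul_mem hg (pow_mem (Ha_le (pow_ne_zero _ pp_ne) hv) i)
  generalize hg0 : g * v ^ i = g' at *
  obtain ⟨l, φ, hl, hT, ⟨Q, p1, p2, f⟩, ⟨b1, b2⟩, b3⟩ := P022K.Cheb.exists_fr (g := g')
    (((oW.inter (h.lc m)).inter (Hm_open (pow_ne_zero (n + 1) pp_ne))).preimage
      (continuous_mul_left g'⁻¹)) (by simp [-map_mul, one_mem]) (E ∪ S)
  rw [Finset.mem_union, not_or] at hT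
  have o : Ov l Q := ⟨hl, p1, p2⟩
  obtain ⟨s, hs⟩ := P022E.GW.Tg.trans o (pl.ov l hl)
  have j := fb_div (pl.fb l hl) (hs ▸ P022K.CH.Sy.fb_smul f s)
  refine ⟨l, hl, hT.1, fb_mod o (fun e => hT.2 (e ▸ h.two)) f
    (mul_inv_cancel_left g' φ ▸ mul_mem hg' b3), fun c => hi ?_, s, i, (s * g' * s⁻¹)⁻¹ * pl.σ l, ?_, ?_⟩
  · have e := h.unr l _ _ (pl.ov l hl) hT.2 j
    rw [← inv_mul_cancel_right (pl.σ l) (s * φ * s⁻¹), map_mul, e, one_mul, det_sub, h.det, map_mul,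
      trace_mul_comm, ← map_mul, ← mul_assoc, inv_mul_cancel, one_mul, map_mul, map_mul,
      map_inv, mul_inv_cancel_comm, ← h.det, ← det_sub, ← mul_inv_cancel_left g' φ, map_mul] at c
    rw [dvd_iff, RingHom.map_det, map_sub, map_one] at c ⊢
    rwa [map_mul, show RingHom.mapMatrix _ (r (g'⁻¹ * φ)) = 1 from b2, mul_one] at c
  · have := mul_mem (nW.conj_mem _ (iW ⟨l, hT.1, _, pl.ov l hl, j⟩) (s * g' * s⁻¹)⁻¹)
      (nW.conj_mem _ b1 s)
    rwa [show ∀ a : GQ, (s * g' * s⁻¹)⁻¹ * (a * (s * φ * s⁻¹)⁻¹) * (s * g' * s⁻¹)⁻¹⁻¹ *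
      (s * (g'⁻¹ * φ) * s⁻¹) = (s * g' * s⁻¹)⁻¹ * a from fun _ => by group] at this
  · rw [hg0, mul_inv_cancel_left]

end Vale.Agent.P014U.Mu
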