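import Vale.Agent.P014U.Dr.Cy
import Vale.Agent.P014U.G2.Dim
import Vale.Agent.P022K.CH.Mink
import Vale.Agent.P022K.G2.Lpc
import Vale.Agent.P004R.Mu0

/-! # P014U, block MU: characters, Kummer classes, layers of prime conductor (helper99) -/

set_option linter.all false

noncomputable section

namespace Vale.Agent.P014U.Mu.Ei

open NumberField
open Vale.Agent.P022 (Qb GQ GK IsConj IsFrob)
open Vale.Agent.P022.H443 (inP)
open Vale.Agent.P027M.S (Inert)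
open Vale.Agent.P027M.S.Loc (jQ mem_GK belowQ ordvQ)
open Vale.Agent.P022D.W (dec conj_inP phi_mem inP_le_dec)
open Vale.Agent.P022E.GW (Ov Fb Op)
open Vale.Agent.P022K.G2 hiding Hm
open Vale.Agent.P004S (Un ex_conj ov_dvd)
open Vale.Agent.P004R.Mu (ex_k kk ex_pl vq)
open Vale.Agent.P014T.Dr (Hm root_cong ex_cy)

variable [Pp]

abbrev F : Type := ZMod pp

variable {l q n : ℕ} {P : Ideal (𝓞 Qb)} {g σ τ k : GQ} {x y z θ κ χ : GQ → F}

theorem op_lv (h : Op x) : ∃ W, Lv ∅ W ∧ ∀ w ∈ W, x w = 0 := by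
  obtain ⟨U, o, e⟩ := h
  obtain ⟨W, a, b⟩ := ex_lv' o
  exact ⟨W, a, fun w m => e w (b m)⟩

theorem op2 (h : Op x) (h' : Op y) (e : ∀ g, x g = 0 → y g = 0 → z g = 0) : Op z := by
  obtain ⟨U, a, b⟩ := h
  obtain ⟨V, c, d⟩ := h'
  exact ⟨U ⊓ V, a.inter c, fun u m => e u (b u m.1) (d u m.2)⟩

theorem op_ka (h : l ≠ 0) : Op (ka pp l) := by
  obtain ⟨W, a, b⟩ := ka_lv (p := pp) (b := l) (Nat.cast_ne_zero.2 h)
  exact ⟨W, a.opn, fun w m => (b w m).2⟩

/-- additive on the inertia group -/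
def Ai (P : Ideal (𝓞 Qb)) (x : GQ → F) : Prop :=
  ∀ g j, Inert P g → Inert P j → x (g * j) = x g + x j

theorem tame (o : Ov l P) (h : l ≠ pp) (ad : Ai P x) (op : Op x) :
    ∃ n, ∀ g, Inert P g → x g = ka pp l g * n := by
  obtain ⟨W, a, b⟩ := op_lv op
  obtain ⟨n, e⟩ := (tam pp l P o h).2.2 F F x ad ⟨W, a, fun w m _ => b w m⟩
  exact ⟨n, fun g i => by rw [e g i, ZMod.castHom_self, RingHom.id_apply, smul_eq_mul]⟩

theorem tame0 (o : Ov l P) (h : l ≠ pp) (ad : Ai P x) (op : Op x) (t : Gn l P τ) (e : x τ = 0)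
    (i : Inert P g) : x g = 0 := by
  obtain ⟨n, hn⟩ := tame o h ad op
  rw [hn τ t.1, t.2, one_mul] at e
  rw [hn g i, e, mul_zero]

theorem ka_cj (h : l ≠ 0) (σ : GQ) (i : τ ∈ Gz pp) :
    ka pp l (σ * τ * σ⁻¹) = oz pp σ * ka pp l τ := by
  have := ka_conj (p := pp) (Nat.cast_ne_zero.2 h) σ i (map_natCast τ l)
  rwa [map_natCast] at this

/-- **LEMMA H** -/
theorem lem (o : Ov l P) (h : l ≠ pp) (hσ : σ ∈ dec P) (hz : σ ∈ Gz pp) (hτ : Inert P τ)
    (a1 : ∀ g j, θ (g * j) = θ g + θ j) (a2 : ∀ g ∈ dec P, ∀ j ∈ dec P, x (g * j) = x g + x j)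
    (a3 : ∀ g ∈ dec P, ∀ j ∈ dec P, y (g * j) = y g + y j + θ g * x j) (o1 : Op θ) (o2 : Op x)
    (o3 : Op y) : θ σ * x τ = θ τ * x σ := by
  have d : ∀ {g}, Inert P g → g ∈ dec P := fun i => inP_le_dec i
  obtain ⟨a, ha⟩ := tame o h (fun g j _ _ => a1 g j) o1
  obtain ⟨b, hb⟩ := tame o h (fun g j u v => a2 g (d u) j (d v)) o2
  obtain ⟨c, hc⟩ := tame (x := fun g => 2 * y g - θ g * x g) o h (fun g j u v => by
    simp only [a1, a2 g (d u) j (d v), a3 g (d u) j (d v), ha g u, ha j v, hb g u, hb j v]; ring)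
    (op2 o1 o3 fun g u v => by simp [u, v])
  have i : Inert P (σ * τ * σ⁻¹) := conj_inP hσ hτ
  have e := ka_cj o.1.ne_zero σ (inert_gz o h hτ)
  rw [mem_Gz.1 hz, one_mul] at e
  have e1 := hc _ i
  have e2 := a3 _ (d i) σ hσ
  rw [inv_mul_cancel_right, a3 σ hσ τ (d hτ), ha _ i, e, ← ha τ hτ] at e2
  rw [ha _ i, hb _ i, e, ← hc τ hτ, ← ha τ hτ, ← hb τ hτ] at e1
  exact mul_left_cancel₀ two_ne (by linear_combination 2 * e2 + e1)

theorem ust (o : Ov l P) (h : l ≠ pp) {c t : F} (c0 : c ≠ 0) (t0 : t ≠ 0) (a1 : Ai P x)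
    (a2 : Ai P y) (o1 : Op x) (o2 : Op y) (hσ : σ ∈ dec P)
    (e1 : ∀ i, Inert P i → x (σ * i * σ⁻¹) = c * x i)
    (e2 : ∀ i, Inert P i → y (σ * i * σ⁻¹) = c * (y i + t * x i)) (i : Inert P g) : x g = 0 := by
  obtain ⟨τ, u⟩ := ex_gn o h
  obtain ⟨a, ha⟩ := tame o h a1 o1
  obtain ⟨b, hb⟩ := tame o h a2 o2
  have j : Inert P (σ * τ * σ⁻¹) := conj_inP hσ u.1
  have e := ka_cj o.1.ne_zero σ (inert_gz o h u.1)
  have b1 := e1 τ u.1
  have b2 := e2 τ u.1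
  rw [ha _ j, ha _ u.1, e, u.2] at b1
  rw [hb _ j, hb _ u.1, ha _ u.1, e, u.2] at b2
  have : a = 0 := by
    by_cases w : oz pp σ = c
    · rw [w] at b2
      exact (mul_eq_zero.1 (show c * t * a = 0 by linear_combination -b2)).resolve_left
        (mul_ne_zero c0 t0)
    · exact (mul_eq_zero.1 (show (oz pp σ - c) * a = 0 by linear_combination b1)).resolve_left
        (sub_ne_zero.2 w)
  rw [ha g i, this, mul_zero]

/-- cocycles of a character -/
structure Co (χ x : GQ → F) : Prop where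
  co : ∀ g h, x (g * h) = x g + χ g * x h
  op : Op x

theorem Co.lin (h : Co χ x) (h' : Co χ y) (a b : F) : Co χ fun g => a * x g + b * y g :=
  ⟨fun g j => by simp only [h.co, h'.co]; ring, op2 h.op h'.op fun g u v => by simp [u, v]⟩

theorem Co.cj (h : Co χ x) (t : GQ) (e : χ (t * g * t⁻¹) = 1) : x (t * g * t⁻¹) = χ t * x g := by
  have := h.co (t * g * t⁻¹) t
  rw [inv_mul_cancel_right, h.co t g, e] at this
  linear_combination -this

theorem Co.all (h : Co χ x) (o : Ov l P) (e : ∀ g, Inert P g → x g = 0) {P' : Ideal (𝓞 Qb)}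
    (o' : Ov l P') (i : Inert P' g) (c : χ g = 1) : x g = 0 := by
  obtain ⟨t, a, -⟩ := ex_conj o o'
  have b : t * (t⁻¹ * g * t) * t⁻¹ = g := by group
  have := h.cj (g := t⁻¹ * g * t) t (b.symm ▸ c)
  rwa [b, e _ (a g i), mul_zero] at this

theorem Co.add (h : Co 1 x) (g j : GQ) : x (g * j) = x g + x j := by simpa using h.co g j

theorem Co.ch (h : Co 1 x) (A : Subgroup GQ) : Ch A x := by
  obtain ⟨W, a, b⟩ := op_lv h.op
  exact ⟨fun g _ j _ => h.add g j, W, a, fun w _ m => b w m⟩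

theorem Co.pow (h : Co 1 x) (g : GQ) (n : ℕ) : x (g ^ n) = n * x g := (h.ch ⊤).pow trivial n

theorem Co.inv (h : Co 1 x) (g : GQ) : x g⁻¹ = -x g := (h.ch ⊤).inv trivial

theorem Co.conj (h : Co 1 x) (t g : GQ) : x (t * g * t⁻¹) = x g := by simpa using h.cj t rfl

/-- the kernel -/
def Co.ker (h : Co 1 x) : Subgroup GQ := (h.ch ⊤).ker

theorem Co.mem (h : Co 1 x) : g ∈ h.ker ↔ x g = 0 := and_iff_right trivial

theorem Co.opn (h : Co 1 x) : IsOpen (h.ker : Set GQ) := (h.ch ⊤).le_ker.isOpen isOpen_univ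

theorem Co.mink (h : Co 1 x) (u : Un (fun _ => True) x) (g : GQ) : x g = 0 :=
  h.mem.1 ((P022K.CH.mink_top h.ker h.opn fun l P o g i => h.mem.2 (u l P o trivial g i)).ge trivial)

theorem co_ka (h : l ≠ 0) : Co (oz pp) (ka pp l) :=
  ⟨fun g j => ka_coc (Nat.cast_ne_zero.2 h) (map_natCast g l) (map_natCast j l), op_ka h⟩

theorem oz_k (hk : IsConj k) : oz pp k = -1 := by
  obtain ⟨φ, e⟩ := hk
  have n : ‖φ (zt pp)‖ = 1 :=
    Complex.norm_eq_one_of_pow_eq_one (by rw [← map_pow, zt_pow, map_one]) pp_ne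
  have : k (zt pp) * zt pp = 1 := φ.injective (by
    rw [map_mul, e, mul_comm, Complex.mul_conj', n, map_one]; simp)
  have := Fact.mk one_lt
  refine eq_neg_of_add_eq_zero_left (pw_inj ?_)
  rwa [pw_add, ← oz_spec, ZMod.val_one, pow_one, ZMod.val_zero, pow_zero]

theorem neg_ne : (-1 : F) ≠ 1 := fun h => two_ne (by linear_combination -h)

theorem Co.cjz (h : Co 1 x) (hk : IsConj k) : x k = 0 := by
  have := h.add k k
  rw [kk hk, (h.ch ⊤).one] at this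
  exact (mul_eq_zero.1 (show 2 * x k = 0 by linear_combination -this)).resolve_left two_ne

theorem ram_p (o : Ov pp P) : ∃ g, Inert P g ∧ oz pp g ≠ 1 := by
  by_contra! c
  obtain ⟨k, hk⟩ := ex_k
  refine neg_ne ((oz_k hk).symm.trans (mem_Gz.1 ((P022K.CH.mink_top (Gz pp) Gz_open
    fun l Q o' g i => ?_).ge trivial)))
  by_cases e : l = pp
  · subst e
    obtain ⟨t, a, -⟩ := ex_conj o o'
    have := Gz_normal.conj_mem _ (mem_Gz.2 (c _ (a g i))) t
    rwa [show t * (t⁻¹ * g * t) * t⁻¹ = g by group] at this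
  · exact inert_gz o' e i

/-- **the characters which are unramified outside the prime** -/
theorem kw : ∃ κ, Co 1 κ ∧ Un (· ≠ pp) κ ∧
    ∀ x, Co 1 x → Un (· ≠ pp) x → ∃ a, ∀ g, x g = a * κ g := by
  by_cases h : ∀ x : GQ → F, Co 1 x → Un (· ≠ pp) x → ∀ g, x g = 0
  · exact ⟨0, ⟨by simp, ⊤, isOpen_univ, fun _ _ => rfl⟩, fun _ _ _ _ _ _ => rfl,
      fun x a b => ⟨0, fun g => by rw [h x a b, zero_mul]⟩⟩
  push Not at h
  obtain ⟨κ, k1, k2, g₀, k3⟩ := h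
  refine ⟨κ, k1, k2, fun x x1 x2 => ?_⟩
  obtain ⟨P, o⟩ := ex_pl pp_prime
  obtain ⟨u, u1, u2, σ, s1, s2⟩ := uch pp ⊤ pp P isOpen_univ o
  have e := lpc pp F F ⊤ (Gz pp) pp P (tr GQ F) isOpen_univ Gz_open le_rfl o ⟨inferInstance,
    rp_tr _ _, pr0 GQ F F ∅ _ _ _ (rp_tr _ _) (fun c => Gz_index
      (((ZMod.natCast_eq_zero_iff _ _).1 c).trans (Subgroup.relIndex_dvd_index_of_normal _ _))),
    fun g _ u m => Gz_normal.conj_mem u m g, le_of_open Gz_open _, fun _ _ _ => rfl, mu_om F _,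
    fun u _ m => (om_eq_one F).2 m⟩
  have z : P022K.G2.Hm (⊤ ⊓ dec P) (tr GQ F) (om pp F) = ⊥ := (Submodule.eq_bot_iff _).2 fun f hf => by
    obtain ⟨g, i, c⟩ := ram_p o
    refine LinearMap.ext fun n => ?_
    have := hf g ⟨trivial, inP_le_dec i⟩ n
    rw [om, ZMod.castHom_self, RingHom.id_apply, tr_apply] at this
    exact (mul_eq_zero.1 (show (oz pp g - 1) * f n = 0 by linear_combination -this)).resolve_left
      (sub_ne_zero.2 c)
  rw [z, if_pos rfl, Subgroup.relIndex_top_left] at e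
  let v : Fin 3 → Z1 ∅ (⊤ ⊓ dec P) (tr GQ F) := ![⟨_, u1.z1⟩, ⟨_, (k1.ch _).z1⟩, ⟨_, (x1.ch _).z1⟩]
  have nl : ¬ LinearIndependent F v := fun c => by
    have := c.cardinal_le_rank
    rw [show Module.rank F (Z1 ∅ (⊤ ⊓ dec P) (tr GQ F)) = _ from e] at this
    simp at this
    norm_cast at this
  obtain ⟨c, c1, c2⟩ := Fintype.not_linearIndependent_iff.1 nl
  have c3 : ∀ g ∈ (⊤ ⊓ dec P : Subgroup GQ), c 0 * u g + (c 1 * κ g + c 2 * x g) = 0 := fun g m => by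
    have := congrFun (congrArg Subtype.val c1) g
    simpa [v, Fin.sum_univ_three, Set.indicator_of_mem (s := (dec P : Set GQ)) m.2,
      add_assoc] using this
  have w := k1.lin x1 (c 1) (c 2)
  have c4 := w.mink fun l Q o' _ g i => by
    by_cases a : l = pp
    · subst a
      exact w.all o (fun g i => by
        simpa [u2 g trivial i] using c3 g ⟨trivial, inP_le_dec i⟩) o' i rfl
    · simp [k2 l Q o' a g i, x2 l Q o' a g i]
  by_cases a : c 2 = 0
  · have b : c 1 = 0 := by simpa [a, k3] using c4 g₀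
    have d : c 0 = 0 := by simpa [a, b, s2] using c3 σ s1
    obtain ⟨i, hi⟩ := c2
    fin_cases i <;> simp_all
  · exact ⟨-c 1 / c 2, fun g => by
      have := c4 g
      field_simp
      linear_combination this⟩

/-! ### Kummer classes -/

theorem h9 {H : Subgroup GQ} (co : ∀ g ∈ H, ∀ h ∈ H, x (g * h) = x g + oz pp g * x h) (op : Op x) :
    ∃ δ : Qb, δ ≠ 0 ∧ ∀ g ∈ H, g δ = zt pp ^ (x g).val * δ := by
  obtain ⟨W, a, b⟩ := op_lv op
  obtain ⟨δ, d0, e⟩ := G2.Gy.h90 (A := H) a (f := fun g => zt pp ^ (-x g).val)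
    (fun _ _ => pow_ne_zero _ zt_ne) (fun g m j n => by
      rw [oz_pw, ← pw_add, co g m j n]; congr 2; ring)
    fun g m w n c => by rw [co g m w n, b w c, mul_zero, add_zero]
  refine ⟨δ, d0, fun g m => ?_⟩
  conv_rhs => rw [← e g m, ← mul_assoc, ← pw_add, add_neg_cancel, ZMod.val_zero, pow_zero, one_mul]

/-- `n` is a Kummer generator of `x` -/
def Kg (x : GQ → F) (n : ℕ) : Prop :=
  n ≠ 0 ∧ ∃ δ : Qb, δ ^ pp = n ∧ ∀ g : GQ, g δ = zt pp ^ (x g).val * δ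

theorem kum0 (h : Co (oz pp) x) : ∃ n, Kg x n := by
  obtain ⟨δ, d0, e⟩ := h9 (H := ⊤) (fun g _ j _ => h.co g j) h.op
  obtain ⟨b, hb⟩ := P022.H916.fixed jQ (x := δ ^ pp) fun g => by
    rw [map_pow, e g trivial, mul_pow, pw_pow, one_mul]
  obtain ⟨t, ht⟩ := Nat.exists_eq_succ_of_ne_zero pp_ne
  have e1 : (b.den * δ) ^ pp = (b.num * b.den ^ t : ℤ) := by
    rw [mul_pow, ← hb, ht, pow_succ, mul_assoc, ← map_natCast jQ b.den, ← map_mul jQ,
      Rat.den_mul_eq_num]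
    simp [mul_comm]
  have n0 : (b.num * b.den ^ t : ℤ) ≠ 0 := fun c => by
    rw [c, Int.cast_zero] at e1
    exact pow_ne_zero _ (mul_ne_zero (Nat.cast_ne_zero.2 b.den_nz) d0) e1
  generalize (b.num * b.den ^ t : ℤ) = m at e1 n0
  have e2 : ∀ g : GQ, g (b.den * δ) = zt pp ^ (x g).val * (b.den * δ) := fun g => by
    rw [map_mul, map_natCast, e g trivial]; ring
  obtain ⟨n, rfl | rfl⟩ := m.eq_nat_or_neg
  · exact ⟨n, by simpa using n0, _, by simpa using e1, e2⟩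
  · exact ⟨n, by simpa using n0, -(b.den * δ), by rw [pp_odd.neg_pow, e1]; simp,
      fun g => by rw [map_neg, e2, mul_neg]⟩

theorem Kg.eq (h : Kg x n) (m : g ∈ Gz pp) : ka pp n g = x g := by
  obtain ⟨n0, δ, a, b⟩ := h
  exact ka_eq (Nat.cast_ne_zero.2 n0) a m (b g)

theorem ordn (o : Ov l P) (h : n ≠ 0) : P022.C.ordv (vq o) (n : ℚ) = padicValNat l n := by
  have := ordvQ (vq o) o.1 (belowQ o.2.1 o.1 o.2.2) (Int.natCast_ne_zero.2 h)
  rwa [Int.cast_natCast, padicValInt.of_nat] at this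

theorem Kg.dvd (h : Kg x n) (o : Ov l P) (hl : l ≠ pp) (u : ∀ g, Inert P g → x g = 0) :
    pp ∣ padicValNat l n := by
  have := dvd_ordv (p := pp) jQ o (v := vq o) rfl (a := n) (Nat.cast_ne_zero.2 h.1) fun g _ i =>
    ⟨inert_gz o hl i, by rw [map_natCast, h.eq (inert_gz o hl i), u g i]⟩
  rw [ordn o h.1] at this
  exact_mod_cast this

/-- a class which lifts is a unit at the places which are inert in the layer -/
theorem Kg.dvd' (h : Kg x n) (o : Ov l P) (t : Co 1 θ) (u : ∀ g, Inert P g → θ g = 0)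
    (hσ : σ ∈ dec P) (s : θ σ ≠ 0)
    (a0 : ∀ g j, x (g * j) = x g + oz pp g * x j)
    (a1 : ∀ g j, y (g * j) = y g + oz pp g * (y j + θ g * x j)) (op : Op y) :
    pp ∣ padicValNat l n := by
  obtain ⟨n0, δ, d1, d2⟩ := h
  obtain ⟨ε, e0, e1⟩ := h9 (H := t.ker) (x := y) (fun g m j _ => by
    rw [a1, t.mem.1 m, zero_mul, add_zero]) op
  have nm : ∀ g : GQ, ∀ u ∈ t.ker, g * u * g⁻¹ ∈ t.ker := fun g u m =>
    t.mem.2 ((t.conj g u).trans (t.mem.1 m))
  obtain ⟨M, _, _, _, _, jM, ρ, D, hM, hker⟩ := P022.H916.exists_fld jQ t.ker t.opn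
    (fun g _ => mem_GK g) fun g _ => nm g
  obtain ⟨a, ha⟩ := P022.H916.fixed jM (x := ε ^ pp) fun g => by
    rw [map_pow, e1 g (hM ▸ g.2), mul_pow, pw_pow, one_mul]
  obtain ⟨w, hw⟩ := P022.H916.fixed jM
      (x := σ ε * σ δ ^ (θ σ).val / (ε * zt pp ^ (y σ).val)) fun g => by
    have m : g.1 ∈ t.ker := hM ▸ g.2
    generalize g.1 = g at m
    have m' := nm σ⁻¹ g m
    have c : ∀ v, g (σ v) = σ ((σ⁻¹ * g * σ⁻¹⁻¹) v) := fun v => by
      rw [← AlgEquiv.mul_apply, ← AlgEquiv.mul_apply]; congr 1; group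
    have c1 := a1 σ (σ⁻¹ * g * σ⁻¹⁻¹)
    rw [show σ * (σ⁻¹ * g * σ⁻¹⁻¹) = g * σ by group, a1, t.mem.1 m] at c1
    rw [map_div₀, map_mul, map_mul, map_pow, c, c, e1 _ m', d2, map_mul, map_mul, oz_pw, oz_pw,
      oz_pw, e1 g m, mul_pow, ← pw_mul, div_eq_div_iff (mul_ne_zero (mul_ne_zero
        (pow_ne_zero _ zt_ne) e0) (pow_ne_zero _ zt_ne)) (mul_ne_zero e0 (pow_ne_zero _ zt_ne))]
    have c2 := congrArg (fun a : F => zt pp ^ a.val) (show oz pp σ * y (σ⁻¹ * g * σ⁻¹⁻¹) +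
      oz pp σ * x (σ⁻¹ * g * σ⁻¹⁻¹) * θ σ + y σ = y g + oz pp g * y σ by linear_combination -c1)
    simp only [pw_add] at c2
    linear_combination (σ ε * σ δ ^ (θ σ).val * ε) * c2
  have a0' : a ≠ 0 := (map_ne_zero jM).1 (ha ▸ pow_ne_zero _ e0)
  have e2 : w ^ pp * a = ρ ⟨σ, mem_GK σ⟩ a * algebraMap ℚ M n ^ (θ σ).val := jM.injective (by
    rw [map_mul, map_mul, map_pow, map_pow, hw, ← D.act, ha, D.comp, map_natCast, div_pow, mul_pow,
      mul_pow, pw_pow, mul_one, div_mul_cancel₀ _ (pow_ne_zero _ e0), ← pow_mul, mul_comm _ pp,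
      pow_mul, ← map_pow σ δ, d1, map_natCast, map_pow])
  have key := P022.H269.UNRV ℚ M (vq o) (blw jM o) (D.below_comap P)
    (fun g hg => D.inertia_eq_bot o.2.1 (fun g hg => (hker g).2 (t.mem.2 (u g hg))) hg) (n : ℚ)
  have e3 := congrArg ((blw jM o).valuation M) e2
  rw [map_mul, map_mul, G2.Dm.val_act D o _ hσ, mul_comm, mul_right_inj'
    ((Valuation.ne_zero_iff _).2 a0')] at e3
  have e4 : P022.C.ordv (blw jM o) (w ^ pp) =
      P022.C.ordv (blw jM o) (algebraMap ℚ M n ^ (θ σ).val) := by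
    unfold P022.C.ordv; rw [e3]
  rw [G2.Dm.ord_pow, G2.Dm.ord_pow, key, ordn o n0] at e4
  have e5 : pp ∣ (θ σ).val * padicValNat l n := by exact_mod_cast Dvd.intro _ e4
  exact (pp_prime.dvd_mul.1 e5).resolve_left fun c =>
    s (by rw [← ZMod.natCast_zmod_val (θ σ), (ZMod.natCast_eq_zero_iff _ _).2 c])

theorem Kg.zero (h : Kg x n) (c : Co (oz pp) x) (hk : IsConj k) (xk : x k = 0)
    (d : ∀ l, l.Prime → l ≠ q → pp ∣ padicValNat l n) (m : σ ∈ Gz pp) (s : ka pp q σ ≠ 0)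
    (e : x σ = 0) (g : GQ) : x g = 0 := by
  have a : ∀ g ∈ Gz pp, x g = n.factorization q * ka pp q g := fun g m => by
    have p0 : ∀ l ∈ n.primeFactors, (l : Qb) ≠ 0 := fun l a =>
      Nat.cast_ne_zero.2 (Nat.prime_of_mem_primeFactors a).ne_zero
    rw [← h.eq m]
    conv_lhs => rw [← Nat.factorization_prod_pow_eq_self h.1, Finsupp.prod, Nat.cast_prod]
    rw [ka_prod _ m fun l a => ⟨by rw [Nat.cast_pow]; exact pow_ne_zero _ (p0 l a),
      map_natCast _ _⟩, Finset.sum_congr rfl fun l a => by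
        rw [Nat.cast_pow, ka_pow (p0 l a) m (map_natCast _ _)]]
    refine Finset.sum_eq_single q (fun l a b => ?_) fun a => by
      rw [Finsupp.notMem_support_iff.1 a, Nat.cast_zero, zero_mul]
    have p := Nat.prime_of_mem_primeFactors a
    rw [Nat.factorization_def n p, (ZMod.natCast_eq_zero_iff _ _).2 (d l p b), zero_mul]
  have b := (mul_eq_zero.1 ((a σ m).symm.trans e)).resolve_right s
  have m : k * g * (g * k)⁻¹ ∈ Gz pp := mem_Gz.2 (by
    rw [oz_mul, oz_mul, mul_comm (oz pp k), ← oz_mul, ← oz_mul, mul_inv_cancel, oz_one])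
  have := c.co (k * g * (g * k)⁻¹) (g * k)
  rw [inv_mul_cancel_right, a _ m, b, mem_Gz.1 m, c.co, c.co, xk, oz_k hk] at this
  exact (mul_eq_zero.1 (show 2 * x g = 0 by linear_combination -this)).resolve_left two_ne

theorem oz_cm (a b : GQ) : a * b * a⁻¹ * b⁻¹ ∈ Gz pp := by
  show om0 pp _ = 1
  simp only [map_mul, map_inv, mul_inv_cancel_comm, mul_inv_cancel]

/-- a commutator which moves the roots of a prime -/
theorem ex_gp (hl : l.Prime) : ∃ a b : GQ, ka pp l (a * b * a⁻¹ * b⁻¹) ≠ 0 := by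
  by_contra! c
  obtain ⟨k, hk⟩ := ex_k
  obtain ⟨P, o⟩ := ex_pl hl
  have h := co_ka hl.ne_zero
  obtain ⟨b, hb⟩ := P022.H916.fixed jQ (x := zt pp ^ (ka pp l k / 2).val * rt pp l) fun g => by
    generalize g.1 = g
    have := h.co (k * g * k⁻¹ * g⁻¹) (g * k)
    rw [c, mem_Gz.1 (oz_cm k g), show k * g * k⁻¹ * g⁻¹ * (g * k) = k * g by group, h.co, h.co,
      oz_k hk] at this
    rw [map_mul, oz_pw, ka_spec (map_natCast g l), ← mul_assoc, ← pw_add]
    congr 3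
    have := two_ne
    field_simp
    linear_combination -‹_ = _›
  have e : b ^ pp = l := jQ.injective (by
    rw [map_pow, hb, mul_pow, pw_pow, one_mul, rt_pow, map_natCast])
  haveI := Fact.mk hl
  have := G2.Dm.ord_pow (vq o) b pp
  rw [e, ordn o hl.ne_zero, padicValNat_self] at this
  exact G2.Dm.not_one (p := pp) ⟨_, by exact_mod_cast this⟩

/-! ### the layers of prime conductor -/

/-- reduction modulo the prime -/
def rd {n : ℕ} (a : ZMod (pp ^ n)) : F := a.val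

theorem rd_eq (h : n ≠ 0) (a : ZMod (pp ^ n)) :
    rd a = ZMod.castHom (dvd_pow_self pp h) F a := by
  have := NeZero.mk (pow_ne_zero n pp_ne)
  simp [rd]

/-- the layer of prime conductor `q = pp * m + 1` -/
structure Lq (q m n : ℕ) (e : GQ → ZMod (pp ^ n)) : Prop where
  add : ∀ g h, e (g * h) = e g + e h
  ker : ∀ g ∈ Hm q, e g = 0
  res : ∀ (g : GQ) (a : ℕ), (∀ z : Qb, z ^ q = 1 → g z = z ^ a) →
    (rd (e g) = 0 ↔ (a : ZMod q) ^ m = 1)

theorem ex_lq (hq : q.Prime) {m : ℕ} (hm : q = pp * m + 1) (h : pp ^ n ∣ pp * m) (hn : n ≠ 0) :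
    ∃ e, Lq q m n e := by
  haveI := Fact.mk hq
  obtain ⟨ζ, χ, h1, -, h3, h4⟩ := ex_cy q
  obtain ⟨γ, hγ⟩ := IsCyclic.exists_monoid_generator (α := (ZMod q)ˣ)
  choose j hj using hγ
  replace hj : ∀ x, γ ^ j x = x := hj
  have m0 : 0 < m := Nat.pos_of_ne_zero fun e => hq.ne_one (by simpa [e] using hm)
  have o : orderOf γ = pp * m := by
    rw [orderOf_eq_card_of_forall_mem_powers fun x => ⟨j x, hj x⟩, Nat.card_eq_fintype_card,
      ZMod.card_units, hm, Nat.add_sub_cancel]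
  have e : ∀ a : ℕ, (j (γ ^ a) : ZMod (pp ^ n)) = a := fun a =>
    (ZMod.natCast_eq_natCast_iff _ _ _).2 ((pow_eq_pow_iff_modEq.1 (hj _)).of_dvd (o ▸ h))
  refine ⟨fun g => j (χ g), fun g k => by
    simpa only [pow_add, hj, Nat.cast_add, map_mul] using e (j (χ g) + j (χ k)),
    fun g a => by simpa [(h3 g).1 a] using e 0, fun g a b => ?_⟩
  rw [← h4 g a (b ζ h1.pow_eq_one), rd_eq hn, map_natCast, ZMod.natCast_eq_zero_iff,
    ← Units.val_pow_eq_pow_val, Units.val_eq_one, ← Nat.mul_dvd_mul_iff_right m0, ← o,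
    orderOf_dvd_iff_pow_eq_one, pow_mul, hj]

variable {m : ℕ} {e : GQ → ZMod (pp ^ n)}

theorem Lq.co (h : Lq q m n e) (hq : q ≠ 0) (hn : n ≠ 0) : Co 1 fun g => rd (e g) :=
  ⟨fun g j => by simp only [rd_eq hn, h.add, map_add, Pi.one_apply, one_mul],
    Hm q, P014T.Dr.Hm_open hq, fun g a => by simp only [rd_eq hn, h.ker g a, map_zero]⟩

theorem Lq.fb (h : Lq q m n e) (hq : q.Prime) (o : Ov l P) (ne : l ≠ q) (f : Fb l P σ) :
    rd (e σ) = 0 ↔ (l : ZMod q) ^ m = 1 :=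
  h.res σ l fun _ a => root_cong o (fun d => ne ((Nat.prime_dvd_prime_iff_eq o.1 hq).1 d)) f a

theorem Lq.un (h : Lq q m n e) (hq : q.Prime) (o : Ov l P) (ne : l ≠ q) (i : Inert P g) : e g = 0 :=
  h.ker g (P014T.Dr.inert_Hm o (fun d => ne ((Nat.prime_dvd_prime_iff_eq o.1 hq).1 d)) i)

theorem Lq.gn (h : Lq q m n e) (o : Ov q P) (hm : q = pp * m + 1) (t : Gn q P τ) : rd (e τ) ≠ 0 := by
  have := NeZero.mk o.1.ne_zero
  obtain ⟨ζ, χ, h1, h2, -, -⟩ := ex_cy q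
  refine fun c => t.pow o hm h1 (h2 τ) ((h.res τ _ fun z a => ?_).1 c)
  obtain ⟨i, -, rfl⟩ := h1.eq_pow_of_pow_eq_one a
  rw [map_pow, h2, ← pow_mul, ← pow_mul, mul_comm]

/-- the power residue symbol -/
theorem ka_fb (o : Ov q P) (hm : q = pp * m + 1) (f : Fb q P σ) (d : ¬ q ∣ l) :
    ka pp l σ = 0 ↔ (l : ZMod q) ^ m = 1 := by
  let b : 𝓞 Qb := ⟨rt pp l, IsIntegral.of_pow pp_pos (by rw [rt_pow]; exact isIntegral_natCast l)⟩
  let ζ : 𝓞 Qb := ⟨zt pp, (zt_prim pp).isIntegral pp_pos⟩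
  have b4 : b ^ pp = l :=
    RingOfIntegers.ext ((rt_pow pp l).trans (map_natCast (algebraMap (𝓞 Qb) Qb) l).symm)
  have nm : ∀ {c : ℕ}, ¬ q ∣ c → (c : 𝓞 Qb) ∉ P := fun h k =>
    h (by exact_mod_cast ov_dvd o (a := (_ : ℕ)) (by exact_mod_cast k))
  have k := f b
  rw [show σ • b = ζ ^ (ka pp l σ).val * b from RingOfIntegers.ext (ka_spec (map_natCast σ l)),
    show b ^ q = (b ^ pp) ^ m * b by rw [← pow_mul, ← pow_succ, ← hm], b4, ← sub_mul] at k
  replace k := (o.2.1.mem_or_mem k).resolve_right fun c =>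
    nm d (b4 ▸ P.pow_mem_of_mem c pp pp_pos)
  have e : (l : ZMod q) ^ m = 1 ↔ (q : ℤ) ∣ 1 - l ^ m := by
    rw [← ZMod.intCast_eq_intCast_iff_dvd_sub]; push_cast; rfl
  rw [e]
  refine ⟨fun c => ov_dvd o (by simpa [c] using k), fun ⟨t, c⟩ => pw_inj ?_⟩
  have c' := congrArg (Int.cast : ℤ → 𝓞 Qb) c
  push_cast at c'
  have := P022E.GW.Unr.root_inj o.2.1 (m := pp) (nm fun a => by
      have := Nat.le_of_dvd pp_pos a
      have : m ≠ 0 := fun e => o.1.ne_one (by simpa [e] using hm)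
      nlinarith [Nat.pos_of_ne_zero this])
    (RingOfIntegers.ext (pw_pow (ka pp l σ))) (one_pow pp) (x := ζ ^ (ka pp l σ).val) (by
      have := P.sub_mem k (P.mul_mem_right (t : 𝓞 Qb) o.2.2)
      rwa [← c', show ∀ a b : 𝓞 Qb, a - b - (1 - b) = a - 1 from fun _ _ => by ring] at this)
  rw [ZMod.val_zero, pow_zero]
  exact congrArg Subtype.val this

end Vale.Agent.P014U.Mu.Ei
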