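import Vale.Agent.P014U.Mu.St
import Vale.Agent.P014U.Mu.Eis0

/-! # P014U, block MU: the rows TOW and FST (helper99) -/

set_option linter.all false

noncomputable section

namespace Vale.Agent.P014U.Mu

open NumberField
open Vale.Agent.P022 (Qb GQ)
open Vale.Agent.P027M.S (Inert)
open Vale.Agent.P022E.GW (Ov Fb)
open Vale.Agent.P022K.G2 hiding Hm
open Vale.Agent.P004S (Un ov_dvd)
open Vale.Agent.P004R.Mu (ex_pl)
open Vale.Agent.P014T.Dr (Hm ex_cy inert_Hm Hm_le)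

variable [Pp] {l v n : ℕ} {P : Ideal (𝓞 Qb)} {g : GQ}

theorem tow : TOW := fun l n hl md hn => by
  have d : pp ^ (n + 1) ∣ l - 1 := (Nat.modEq_iff_dvd' hl.pos).1
    ((Nat.mod_eq_of_lt (Nat.one_lt_pow n.succ_ne_zero one_lt)).trans md.symm)
  obtain ⟨m, hm⟩ := (dvd_pow_self pp n.succ_ne_zero).trans d
  have e : l = pp * m + 1 := by have := hl.pos; omega
  obtain ⟨e', h⟩ := Ei.ex_lq hl e (hm ▸ (pow_dvd_pow pp n.le_succ).trans d) hn.ne'
  exact ⟨e', h.add, h.ker, fun P t o u => h.gn o e u, fun v P φ Q ψ o f o' f' ne =>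
    (h.fb hl o ne f).trans (Ei.ka_fb o' e f' fun c =>
      ne ((Nat.prime_dvd_prime_iff_eq hl o.1).1 c).symm).symm⟩

theorem Ei.hm_gz (h : n ≠ 0) : Hm (pp ^ n) ≤ Gz pp := fun g m =>
  mem_Gz'.2 (Hm_le (dvd_pow_self pp h) m _ zt_pow)

theorem Ei.cm_hm {M : ℕ} (h : M ≠ 0) (a b : GQ) : a * b * a⁻¹ * b⁻¹ ∈ Hm M := by
  have := NeZero.mk h
  obtain ⟨ζ, χ, -, -, e, -⟩ := ex_cy M
  exact (e _).2 (by simp only [map_mul, map_inv, mul_inv_cancel_comm, mul_inv_cancel])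

theorem Ei.ka_un (o : Ov l P) (h : l ≠ pp) (d : ¬ l ∣ v) (i : Inert P g) : ka pp v g = 0 :=
  ka_int (x := v) o h (fun k => d (by exact_mod_cast ov_dvd o (a := v) (by exact_mod_cast k))) i
    (map_natCast g v)

/-- all primes of `S` can be inert, without moving the cyclotomic tower -/
theorem Ei.fst' (S : Finset ℕ) (n : ℕ) (h : ∀ l ∈ S, l.Prime) : ∃ g ∈ Hm (pp ^ (n + 1)),
    (ka pp pp g ≠ 0 ∧ ∀ v ∈ S, ka pp v g ≠ 0) ∧
      ∀ x, Ei.Co 1 x → Un (· ≠ pp) x → x g = 0 := by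
  induction S using Finset.induction_on with
  | empty =>
    obtain ⟨a, b, e⟩ := Ei.ex_gp pp_prime
    exact ⟨_, cm_hm (pow_ne_zero _ pp_ne) a b, ⟨e, by simp⟩, fun x c _ => by
      simp only [c.add, c.inv]; ring⟩
  | insert l S m ih =>
    obtain ⟨g, a, ⟨b, c⟩, d⟩ := ih fun v m => h v (Finset.mem_insert_of_mem m)
    by_cases e : ka pp l g = 0
    · have pl := h l (Finset.mem_insert_self _ _)
      have ne : l ≠ pp := fun k => b (k ▸ e)
      obtain ⟨P, o⟩ := ex_pl pl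
      obtain ⟨t, u⟩ := ex_gn o ne
      have k : ∀ v : ℕ, v.Prime → ka pp v (g * t) = ka pp v g + ka pp v t := fun v p =>
        ka_add (Nat.cast_ne_zero.2 p.ne_zero) (hm_gz n.succ_ne_zero a) (map_natCast _ _)
          (map_natCast _ _)
      have z : ∀ v : ℕ, v.Prime → l ≠ v → ka pp v (g * t) = ka pp v g := fun v p w => by
        rw [k v p, ka_un o ne (fun c => w ((Nat.prime_dvd_prime_iff_eq pl p).1 c)) u.1, add_zero]
      refine ⟨g * t, mul_mem a (inert_Hm o (Dr.nd_two o ne _) u.1), ⟨by rwa [z _ pp_prime ne],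
        Finset.forall_mem_insert _ _ _ |>.2 ⟨by rw [k l pl, e, u.2, zero_add]; exact one_ne_zero,
          fun v w => ?_⟩⟩, fun x y s => by rw [y.add, d x y s, s l P o ne t u.1, add_zero]⟩
      rw [z v (h v (Finset.mem_insert_of_mem w)) fun c => m (c ▸ w)]
      exact c v w
    · exact ⟨g, a, ⟨b, Finset.forall_mem_insert _ _ _ |>.2 ⟨e, c⟩⟩, d⟩

theorem fst : FST := fun S n h => (Ei.fst' S n h).imp fun _ a => ⟨a.1, a.2.1.2⟩

end Vale.Agent.P014U.Mu
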