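import Vale.Agent.P014U.Mu.Add
import Vale.Agent.P014U.Mu.Tow
import Vale.Agent.P014U.Mu.Chb

/-! # P014U, block MU: the second tower (helper86) -/

set_option linter.all false

noncomputable section

namespace Vale.Agent.P014U.Mu

open NumberField Matrix
open Vale.Agent.P022 (Qb GQ IsConj)
open Vale.Agent.P027M.S (Inert)
open Vale.Agent.P022D.W (dec phi_mem)
open Vale.Agent.P022E.GW (Ov Fb)
open Vale.Agent.P022K.G2 (In Gz mem_Gz' zt_pow)
open Vale.Agent.P004F (M2)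
open Vale.Agent.P004R.Mu (ex_pl kk)
open Vale.Agent.P014T.Dr (Hm Hm_open Hm_le inert_Hm root_cong)
open X4S (Pl)

variable [Pp] {r : GQ →* M2 ℤ_[pp]} {S : Finset ℕ} {k : GQ} {n c l m m' : ℕ}
  {e : GQ → ZMod (pp ^ n)} {g : GQ}

namespace Se

theorem gq_mono (h : Gq r m g) (le : m ≤ m') : Gq r m' g := fun d => h ((pow_dvd_pow _ le).trans d)

theorem eb_eq (h : n ≠ 0) (g : GQ) : eb e g = ZMod.castHom (dvd_pow_self pp h) F (e g) :=
  Ei.rd_eq h _

theorem unit (h : eb e g ≠ 0) : IsUnit (e g) := by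
  have := NeZero.mk (pow_ne_zero n pp_ne)
  rw [← ZMod.natCast_zmod_val (e g), ZMod.isUnit_iff_coprime]
  exact ((pp_prime.coprime_iff_not_dvd.2 fun d =>
    h ((ZMod.natCast_eq_zero_iff _ _).2 d)).symm).pow_right n

theorem ne_pp (md : l % pp ^ (n + 1) = 1) : l ≠ pp := by
  rintro rfl
  have := Nat.mod_mod_of_dvd pp (dvd_pow_self pp n.succ_ne_zero)
  rw [md, Nat.mod_self, Nat.mod_eq_of_lt one_lt] at this
  exact one_ne_zero this

/-- the layer of prime conductor is a tower -/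
theorem tq0 (hl : l.Prime) (md : l % pp ^ (n + 1) = 1) (h : Lq l n e) : Tq ∅ n l e := by
  have := NeZero.mk (pow_ne_zero n pp_ne)
  have e1 : e 1 = 0 := by simpa using h.add 1 1
  have pw : ∀ g (j : ℕ), e (g ^ j) = j * e g := fun g j => by
    induction j with
    | zero => simpa using e1
    | succ j ih => rw [pow_succ, h.add, ih]; push_cast; ring
  refine ⟨h.add, h.ker, fun k a => ?_, hl.prime.squarefree, hl.one_lt, fun q a d => ⟨by
    rwa [(Nat.prime_dvd_prime_iff_eq a hl).1 d], by simp⟩, fun q P o d => ?_, by simp⟩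
  · have := pw k 2
    rw [pow_two, kk a, e1, eq_comm] at this
    exact ((ZMod.isUnit_iff_coprime 2 _).2
      ((pp_prime.coprime_iff_not_dvd.2 not_dvd_two).symm.pow_right n)).mul_right_eq_zero.1 this
  · obtain rfl := (Nat.prime_dvd_prime_iff_eq o.1 hl).1 d
    obtain ⟨t, u⟩ := ex_gn o (ne_pp md)
    obtain ⟨w, hw⟩ := (unit (h.ram P t o u)).exists_left_inv
    exact ⟨t ^ w.val, (P022.H443.inP P).pow_mem u.1 _, by rw [pw, ZMod.natCast_zmod_val, hw]⟩

theorem rb_open (h : Rep r S) : IsOpen ((rb r).ker : Set GQ) :=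
  Subgroup.isOpen_mono (H₁ := ((PadicInt.toZModPow 1).mapMatrix.toMonoidHom.comp r).ker)
    (fun g a => Matrix.ext fun i j => by
      have : r g i j - (1 : M2 ℤ_[pp]) i j ∈ RingHom.ker (PadicInt.toZModPow 1) := by
        rw [RingHom.mem_ker, map_sub, sub_eq_zero]
        exact (congrFun (congrFun a i) j).trans
          (congrFun (congrFun (map_one (PadicInt.toZModPow 1).mapMatrix).symm i) j)
      rw [PadicInt.ker_toZModPow, pow_one, ← PadicInt.maximalIdeal_eq_span_p, ← PadicInt.ker_toZMod,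
        RingHom.mem_ker, map_sub, sub_eq_zero] at this
      exact this.trans (congrFun (congrFun (map_one PadicInt.toZMod.mapMatrix) i) j)) (h.lc 1)

theorem rb_in (h : Rep r S) {P : Ideal (𝓞 Qb)} (o : Ov l P) (m : l ∉ S) (i : Inert P g) :
    rb r g = 1 := by
  show PadicInt.toZMod.mapMatrix (r g) = 1
  rw [h.unr l P g o m i, map_one]

theorem uni {A : M2 F} (h : (A - 1) ^ 2 = 0) : A ^ pp = 1 := by
  have : ∀ j : ℕ, A ^ j = 1 + (j : F) • (A - 1) := fun j => by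
    induction j with
    | zero => simp
    | succ j ih =>
      have e : A = 1 + (A - 1) := by abel
      generalize A - 1 = N at h ih e
      rw [pow_succ, ih, e, Nat.cast_succ, add_smul, one_smul, mul_add, add_mul, add_mul, smul_mul_assoc,
        smul_mul_assoc, ← pow_two N, h]
      simp [add_assoc]
  rw [this, ZMod.natCast_self, zero_smul, add_zero]

end Se

open Se

/-- the second tower: one prime, inert in the first tower and split in the residual field -/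
theorem sec3 (h : Rep r S) (pl : Pl) : ∃ m, ∀ (n c : ℕ) (e : GQ → ZMod (pp ^ n)),
    Tq S n c e → 0 < n → ∀ E : Finset ℕ, ∃ (q : ℕ) (e' : GQ → ZMod (pp ^ n)), q.Prime ∧ q ∉ E ∧
      q ∉ S ∧ ¬ q ∣ c ∧ Tq ∅ n q e' ∧ (∀ g ∈ dec (pl.P q), rb r g = 1) ∧
      eb e (pl.σ q) = 1 ∧ Gq r m (pl.σ q) := by
  obtain ⟨u, -, u1, m, a⟩ := chb r S pl h
  refine ⟨m, fun n c e t hn E => ?_⟩
  obtain ⟨l, hl, d⟩ := Nat.exists_prime_and_dvd t.one.ne'
  obtain ⟨Q, o⟩ := ex_pl hl
  obtain ⟨s, s1, s2⟩ := t.ram l Q o d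
  have c0 := t.sq.ne_zero
  obtain ⟨q, hq, qT, md, gq, x, i, w, ⟨w1, w2⟩, f⟩ := a n (E ∪ S ∪ c.primeFactors)
    ((rb r).ker ⊓ Hm c) inferInstance ((rb_open h).inter (Hm_open c0)) (by
      rintro g ⟨v, b, P, o, i⟩
      simp only [Finset.coe_union, Set.mem_union, Finset.mem_coe, not_or] at b
      exact ⟨rb_in h o b.1.2 i, inert_Hm o (fun d => b.2 (Nat.mem_primeFactors.2 ⟨o.1, d, c0⟩)) i⟩)
    s (inert_Hm o (Dr.nd_two o (ne_pp (t.cy l hl d).1) _) s1)
  simp only [Finset.mem_union, not_or] at qT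
  obtain ⟨e', t'⟩ := tow q n hq md hn
  refine ⟨q, e', hq, qT.1.1, qT.1.2, fun d => qT.2 (Nat.mem_primeFactors.2 ⟨hq, d, c0⟩),
    tq0 hq md t', fun g b => P004S.lt.dec_le (pl.ov q hq) (pl.fb q hq) (rb_open h) ?_
      (fun j b => rb_in h (pl.ov q hq) qT.1.2 b) b, ?_, gq⟩
  · rw [MonoidHom.mem_ker, f]
    simp only [map_mul, map_pow, rb_in h o (t.cy l hl d).2 s1, MonoidHom.mem_ker.1 w1, pow_two,
      pow_mul, uni u1, one_pow, mul_one]
    rw [← map_mul, mul_inv_cancel, map_one]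
  · rw [eb_eq hn.ne', f, t.add, t.conj, t.add, t.pow, t.pow, s2, t.ker w w2]
    simp only [map_add, map_mul, map_natCast, map_one, map_zero]
    simp [pow_two]

/-- **the export with two good towers** -/
theorem muq3 (H' : MUQ) (h : Rep r S) (pl : Pl) (hk : IsConj k) :
    ∃ m B : ℕ, ∀ (n : ℕ) (E : Finset ℕ), 3 ≤ n → ∃ (c q : ℕ) (e e' : GQ → ZMod (pp ^ n)),
      Tq S n c e ∧ Tq ∅ n q e' ∧ (c * q).primeFactors.card ≤ m ∧
      (∀ l ∈ (c * q).primeFactors, l ∉ E ∧ l ∉ S ∧ Gq r m (pl.σ l)) ∧ q.Prime ∧ ¬ q ∣ c ∧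
      (∀ g ∈ dec (pl.P q), rb r g = 1) ∧ eb e (pl.σ q) = 1 ∧
      Bd (rb r) k (S ∪ (c * q).primeFactors) (fun g => (e g).val) B := by
  obtain ⟨m, B, a⟩ := H' r S pl k h hk
  obtain ⟨m', a'⟩ := sec3 h pl
  refine ⟨max (m + 1) m', B + Fintype.card (Fin 2), fun n E hn => ?_⟩
  obtain ⟨c, e, t, a1, a2, a3⟩ := a n E hn
  obtain ⟨q, e', b1, b2, b3, b4, b5, b6, b7, b8⟩ := a' n c e t (by omega) E
  have o := pl.ov q b1
  have md := (b5.cy q b1 dvd_rfl).1
  have pf : (c * q).primeFactors = insert q c.primeFactors := by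
    rw [Nat.primeFactors_mul t.sq.ne_zero b1.ne_zero, b1.primeFactors, Finset.union_comm]; rfl
  refine ⟨c, q, e, e', t, b5, ?_, fun l a => ?_, b1, b4, b6, b7, ?_⟩ <;> rw [pf] at *
  · exact (Finset.card_insert_le _ _).trans (by omega)
  · rcases Finset.mem_insert.1 a with rfl | a
    · exact ⟨b2, b3, gq_mono b8 (le_max_right _ _)⟩
    · obtain ⟨p, d, -⟩ := Nat.mem_primeFactors.1 a
      exact ⟨(a2 l p d).1, (t.cy l p d).2, gq_mono (a2 l p d).2 (by omega)⟩
  have f := phi_mem o.1 o.2.1 (pl.fb q b1)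
  rw [Finset.union_insert]
  refine a3.add o (ne_pp md) f (mem_Gz'.2 (Hm_le (dvd_pow_self pp n.succ_ne_zero)
    (fun z b => ?_) _ zt_pow)) (b6 _ f) (fun d => ?_)
    fun P o g i => ⟨rb_in h o b3 i, by rw [t.ine o b4 i, ZMod.val_zero]⟩
  · rw [root_cong o (Dr.nd_two o (ne_pp md) _) (pl.fb q b1) b, pow_eq_pow_mod _ b, md, pow_one]
  · exact one_ne_zero (b7.symm.trans ((ZMod.natCast_eq_zero_iff _ _).2 d))

end Vale.Agent.P014U.Mu
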