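import Vale.Agent.P014U.Mu.Sah
import Vale.Agent.P014T.Dr.Cy

/-! # P014 U, block MU: the group which fixes the roots (helper46) -/

set_option autoImplicit false
set_option linter.all false

open Matrix

namespace Vale.Agent.P014U.Mu.Sa

open Vale.Agent.P022 (Qb GQ IsConj)
open Vale.Agent.P014T.Dr (Hm Hm_le ex_cy Hm_open)

/-- the group which fixes the roots of unity of order `N` and the roots of order `M` of `A` -/
def Uu (N M : ℕ) (A : Set Qb) : Subgroup GQ where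
  carrier := {g | ∀ y : Qb, y ^ N = 1 ∨ y ^ M ∈ A → g y = y}
  mul_mem' {g h} hg hh z hz := by rw [AlgEquiv.mul_apply, hh z hz, hg z hz]
  one_mem' _ _ := rfl
  inv_mem' {g} hg z hz := g.symm_apply_eq.2 (hg z hz).symm

variable {p n m N M : ℕ} {A : Set Qb} {g : GQ} {y : Qb}

theorem Uu_le : Uu N M A ≤ Hm N := fun _ h z e => h z (.inl e)

theorem Uu_nrm (hA : ∀ a ∈ A, ∀ g : GQ, g a = a) : (Uu N M A).Normal := ⟨fun g hg k z hz => by
  rw [AlgEquiv.mul_apply, AlgEquiv.mul_apply, hg _ (hz.imp (fun e => by rw [← map_pow, e, map_one])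
    fun e => by rwa [← map_pow, hA _ e]), ← AlgEquiv.mul_apply, mul_inv_cancel, AlgEquiv.one_apply]⟩

theorem Uu_open (hN : N ≠ 0) (hM : M ≠ 0) (f : A.Finite) : IsOpen (Uu N M A : Set GQ) := by
  have e : (Uu N M A : Set GQ) = ⋂ y ∈ {y : Qb | y ^ N = 1 ∨ y ^ M ∈ A}, MulAction.stabilizer GQ y := by
    ext g; simp only [Set.mem_iInter]; rfl
  have k {K : ℕ} (h : K ≠ 0) (a : Qb) : {y : Qb | y ^ K = a}.Finite :=
    (Polynomial.nthRoots K a).finite_toSet.subset fun y e =>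
      (Polynomial.mem_nthRoots (Nat.pos_of_ne_zero h)).2 e
  rw [e]
  exact ((k hN 1).union ((f.biUnion fun a _ => k hM a).subset fun y e =>
    Set.mem_iUnion₂.2 ⟨y ^ M, e, rfl⟩)).isOpen_biInter fun y _ => P022E.GW.Kc.stab_open y

theorem ex_eta (hM : M ≠ 0) (h : g (y ^ M) = y ^ M) : ∃ η : Qb, η ^ M = 1 ∧ g y = η * y := by
  by_cases y0 : y = 0
  · exact ⟨1, one_pow _, by simp [y0]⟩
  · exact ⟨g y / y, by rw [div_pow, ← map_pow, h, div_self (pow_ne_zero _ y0)], by field_simp⟩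

theorem it {η : Qb} (h : g η = η) (e : g y = η * y) (i : ℕ) : (g ^ i) y = η ^ i * y := by
  induction i with
  | zero => simp
  | succ i ih => rw [pow_succ', AlgEquiv.mul_apply, ih, map_mul, map_pow, h, e, pow_succ, mul_assoc]

theorem pow_fix (hM : M ≠ 0) (m : g ∈ Hm M) (h : g (y ^ M) = y ^ M) : (g ^ M) y = y := by
  obtain ⟨η, a, b⟩ := ex_eta hM h
  rw [it (m η a) b, a, one_mul]

theorem hm_pow (p0 : p ≠ 0) (h : g ∈ Hm p) (k : ℕ) : g ^ p ^ k ∈ Hm (p ^ (k + 1)) := by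
  induction k with
  | zero => simpa using h
  | succ k ih =>
    intro z e
    rw [pow_succ p k, pow_mul]
    exact pow_fix p0 (pow_mem h _) (ih _ (by rw [← pow_mul, ← pow_succ', e]))

theorem uu_pow (hM : M ≠ 0) (d : M ∣ N) (hA : ∀ a ∈ A, ∀ g : GQ, g a = a) (h : g ∈ Hm N) :
    g ^ M ∈ Uu N M A := fun z e =>
  e.elim (pow_mem h _ z) fun e => pow_fix hM (Hm_le d h) (hA _ e g)

theorem uu_pw (p0 : p ≠ 0) (le : m ≤ n) (hA : ∀ a ∈ A, ∀ g : GQ, g a = a) (h : g ∈ Hm p) :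
    g ^ p ^ (n + m) ∈ Uu (p ^ n) (p ^ m) A := by
  rw [pow_add, pow_mul]
  exact uu_pow (pow_ne_zero _ p0) (pow_dvd_pow _ le) hA (Hm_le (pow_dvd_pow _ n.le_succ) (hm_pow p0 h n))

variable [Fact p.Prime]

/-- the hypotheses for planes -/
theorem ok {a : GQ →* Matrix (Fin 2) (Fin 2) (ZMod p)} {c : GQ} (p2 : p ≠ 2) (i : Irr a)
    (d : ∀ g, (a g).det = 1 → g ∈ Hm p) (cc : c * c = 1) (dc : (a c).det = -1) (le : m ≤ n)
    (hA : ∀ a ∈ A, ∀ g : GQ, g a = a) : Ok a (Uu (p ^ n) (p ^ m) A) c :=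
  ⟨p2, i, Uu_nrm hA, fun g e => ⟨_, uu_pw (Fact.out : p.Prime).ne_zero le hA (d g e)⟩, cc, dc⟩

/-- the hypotheses for lines -/
theorem ol {ω : GQ → ZMod p} (hω : ∀ g (e : ℕ), (∀ z : Qb, z ^ p = 1 → g z = z ^ e) → (e : ZMod p) = ω g)
    (n0 : n ≠ 0) (le : m ≤ n) (hA : ∀ a ∈ A, ∀ g : GQ, g a = a) :
    Ol ω (Uu (p ^ n) (p ^ m) A) (Hm (p ^ n)) := by
  have p0 := (Fact.out : p.Prime).ne_zero
  have := NeZero.mk (pow_ne_zero n p0)
  obtain ⟨ζ, χ, h1, h2, h3, -⟩ := ex_cy (p ^ n)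
  have d := pow_dvd_pow p le
  refine ⟨Uu_nrm hA, Uu_le, fun g h => (h3 _).2 (by rw [map_mul, map_inv, map_mul, map_mul, mul_comm (χ h), inv_mul_cancel]),
    fun g h => ⟨m, uu_pow (pow_ne_zero _ p0) d hA h⟩, fun g u h => ?_⟩
  have k (z : Qb) (e : z ^ p ^ n = 1) : g z = z ^ (χ g : ZMod (p ^ n)).val := by
    obtain ⟨i, -, rfl⟩ := h1.eq_pow_of_pow_eq_one e
    rw [map_pow, h2, pow_right_comm]
  have k' {z : Qb} {K : ℕ} (d : K ∣ p ^ n) (e : z ^ K = 1) : z ^ p ^ n = 1 := by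
    obtain ⟨i, q⟩ := d
    rw [q, pow_mul, e, one_pow]
  refine ⟨_, hω g _ fun z e => k z (k' (dvd_pow_self p n0) e), fun z e => e.elim
    (mul_mem (inv_mem (pow_mem h _)) (Subgroup.Normal.conj_mem inferInstance _ h g) z) fun e => ?_⟩
  obtain ⟨η, a1, a2⟩ := ex_eta (pow_ne_zero _ p0) (hA _ e u)
  obtain ⟨θ, b1, b2⟩ := ex_eta (pow_ne_zero _ p0) (hA _ e g⁻¹)
  rw [AlgEquiv.mul_apply, AlgEquiv.aut_inv, AlgEquiv.symm_apply_eq,
    it (h η (k' d a1)) a2, AlgEquiv.mul_apply, AlgEquiv.mul_apply, b2, map_mul u, h θ (k' d b1), a2,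
    mul_left_comm, ← b2, map_mul, k η (k' d a1), ← AlgEquiv.mul_apply, mul_inv_cancel,
    AlgEquiv.one_apply]

end Vale.Agent.P014U.Mu.Sa
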