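import Vale.Agent.P014U.Mu.Cnt
import Vale.Agent.P014U.Mu.Sau
import Vale.Agent.P014U.Mu.Eis0
import Vale.Agent.P004S.Lt

/-! # P014U, block MU: new primes and new layers (helper21) -/

set_option linter.all false

noncomputable section

namespace Vale.Agent.P014U.Mu

open NumberField Matrix Module
open Vale.Agent.P022 (Qb GQ IsConj)
open Vale.Agent.P027M.S (Inert)
open Vale.Agent.P022D.W (dec phi_mem inP_le_dec)
open Vale.Agent.P022E.GW (Ov Fb)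
open Vale.Agent.P022K.G2 (In ka oz Gz rt rt_pow ka_eq_zero ka_int ka_add inert_gz mem_Gz' zt_pow)
open Vale.Agent.P004F (M2)
open Vale.Agent.P004S (lt)
open Vale.Agent.P014T.Dr (Hm_le inert_Hm Hm_open)
open X4S (Pl)
open Dr (Hm Ha)

variable [Pp] {ι : Type} [Fintype ι] [DecidableEq ι] {n c l : ℕ} {S T T' E : Finset ℕ}
  {g k : GQ} {pl : Pl} {P : Ideal (𝓞 Qb)}

theorem uu_eq : Uu n T = Sa.Uu (pp ^ (n + 1)) pp (Nat.cast '' (T : Set ℕ)) :=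
  Subgroup.ext fun _ => ⟨fun h y e => e.elim (h.1 y) (h.2 y),
    fun h => ⟨fun y e => h y (.inl e), fun y e => h y (.inr e)⟩⟩

theorem nat_fix : ∀ a ∈ (Nat.cast '' (T : Set ℕ) : Set Qb), ∀ g : GQ, g a = a := by
  rintro _ ⟨v, -, rfl⟩ g; exact map_natCast g v

instance uu_nrm : (Uu n T).Normal := uu_eq ▸ Sa.Uu_nrm nat_fix

theorem uu_open : IsOpen (Uu n T : Set GQ) :=
  uu_eq ▸ Sa.Uu_open (pow_ne_zero _ pp_ne) pp_ne (T.finite_toSet.image _)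

theorem hm_gz (h : g ∈ Hm (pp ^ (n + 1))) : g ∈ Gz pp :=
  mem_Gz'.2 (Hm_le (dvd_pow_self pp n.succ_ne_zero) h _ zt_pow)

theorem uu_ka (h : g ∈ Uu n T) {v : ℕ} (m : v ∈ T) (v0 : v ≠ 0) : ka pp v g = 0 :=
  (ka_eq_zero (Nat.cast_ne_zero.2 v0) (rt_pow pp _) (hm_gz h.1) (map_natCast g v)).2
    (h.2 _ ⟨v, m, (rt_pow pp _).symm⟩)

theorem ha_hm {M : ℕ} (h : g ∈ Ha) (e : M ≠ 0) : g ∈ Hm M := by
  obtain ⟨M, rfl⟩ := Nat.exists_eq_succ_of_ne_zero e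
  exact Subgroup.mem_iInf.1 h M

theorem uu_ha (h : g ∈ Ha) : g ^ pp ∈ Uu n T :=
  uu_eq ▸ Sa.uu_pow pp_ne (dvd_pow_self pp n.succ_ne_zero) nat_fix (ha_hm h (pow_ne_zero _ pp_ne))

theorem uu_in (h : pp ∈ T) (pr : ∀ l ∈ T, l.Prime) (m : g ∈ In T) : g ∈ Uu n T := by
  obtain ⟨l, a, P, o, i⟩ := m
  have lp : l ≠ pp := fun e => a (e ▸ h)
  refine ⟨inert_Hm o (fun d => lp ((Nat.prime_dvd_prime_iff_eq o.1 pp_prime).1
    (o.1.dvd_of_dvd_pow d))) i, fun y ⟨v, b, e⟩ => ?_⟩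
  refine (ka_eq_zero (Nat.cast_ne_zero.2 (pr v b).ne_zero) e.symm (inert_gz o lp i)
    (map_natCast g v)).1 ?_
  exact ka_int (x := (v : 𝓞 Qb)) o lp (fun d => a ((Nat.prime_dvd_prime_iff_eq o.1 (pr v b)).1
    (by exact_mod_cast X4S.ov_dvd o (a := v) (by exact_mod_cast d)) ▸ b)) i (map_natCast g v)

theorem in_mono (h : S ⊆ T) : In T ⊆ In S := fun _ ⟨l, a, b⟩ => ⟨l, fun m => a (h m), b⟩

theorem Ga.mono {a : GQ →* Matrix ι ι F} (h : Ga a S) (e : S ⊆ T) : Ga a T :=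
  ⟨h.opn, fun g m => h.unr g (in_mono e m)⟩

theorem z0_mono {a : GQ → Matrix ι ι F} (e : S ⊆ T) : Z0 a S k ≤ Z0 a T k :=
  fun _ h => ⟨h.1, h.2.1, fun g m => h.2.2.1 g (in_mono e m), h.2.2.2⟩

section
variable {a : GQ →* Matrix ι ι F} {x : GQ → ι → F} (h : ∀ g j, x (g * j) = x g + a g *ᵥ x j)
include h

theorem co_cj (e : a g = 1) (s : GQ) : x (s * g * s⁻¹) = a s *ᵥ x g := by
  have := h (s * g * s⁻¹) s
  rw [inv_mul_cancel_right, h s g, map_mul, map_mul, e, mul_one, ← map_mul, mul_inv_cancel, map_one,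
    one_mulVec, add_comm] at this
  exact (add_right_cancel this).symm

theorem co_one : x 1 = 0 := by simpa using h 1 1

theorem co_pow (e : a g = 1) (i : ℕ) : x (g ^ i) = (i : F) • x g := by
  induction i with
  | zero => simpa using co_one h
  | succ i ih => rw [pow_succ', h, e, one_mulVec, ih, Nat.cast_succ, add_smul, one_smul, add_comm]

end

theorem Pl.sd (hl : l.Prime) : pl.σ l ∈ dec (pl.P l) := phi_mem hl (pl.ov l hl).2.1 (pl.fb l hl)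

/-- the data of the supply -/
def Sy (r : GQ →* M2 ℤ_[pp]) (pl : Pl) (u : GQ) (m : ℕ) : Prop := ∀ n (E : Finset ℕ)
  (W : Subgroup GQ), W.Normal → IsOpen (W : Set GQ) → In E ⊆ W → ∀ g ∈ Hm (pp ^ (n + 1)),
  ∃ l : ℕ, l.Prime ∧ l ∉ E ∧ l % pp ^ (n + 1) = 1 ∧ Gq r m (pl.σ l) ∧
    ∃ s i, ∃ w ∈ W, pl.σ l = s * (g * (u ^ pp ^ 2) ^ (i : ℕ)) * s⁻¹ * w

variable {r : GQ →* M2 ℤ_[pp]} {u : GQ} {m : ℕ}

/-- a new prime -/
structure Nw (r : GQ →* M2 ℤ_[pp]) (pl : Pl) (m n : ℕ) (E : Finset ℕ) (l : ℕ) : Prop where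
  pr : l.Prime
  out : l ∉ E
  md : l % pp ^ (n + 1) = 1
  gq : Gq r m (pl.σ l)

theorem md_one (h : l % pp ^ (n + 1) = 1) : l % pp = 1 := by
  rw [← Nat.mod_mod_of_dvd l (dvd_pow_self pp n.succ_ne_zero), h, Nat.mod_eq_of_lt one_lt]

/-- split primes with given values of finitely many cocycles -/
theorem Sy.nw (y : Sy r pl u m) (hu : u ∈ Ha) (h2 : pp ∈ T) (pr : ∀ l ∈ T, l.Prime) {I : Type}
    [Finite I] {a : I → GQ →* Matrix ι ι F} {x : I → GQ → ι → F} (ga : ∀ i, Ga (a i) T)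
    (au : ∀ i, a i (u ^ pp) = 1) (hx : ∀ i, x i ∈ Z0 (a i) T k) (m1 : g ∈ Uu n T)
    (m2 : ∀ i, a i g = 1) (E : Finset ℕ) : ∃ l, Nw r pl m n (E ∪ T) l ∧ (∀ i, Sp (a i) pl l) ∧
      pl.σ l ∈ Uu n T ∧ ∃ s, ∀ i, x i (pl.σ l) = a i s *ᵥ x i g := by
  let W : Subgroup GQ :=
    { carrier := {w | w ∈ Uu n T ∧ ∀ i, a i w = 1 ∧ x i w = 0}
      mul_mem' := fun p q => ⟨mul_mem p.1 q.1, fun i => by
        simp [(hx i).1, (p.2 i).1, (p.2 i).2, (q.2 i).1, (q.2 i).2]⟩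
      one_mem' := ⟨one_mem _, fun i => ⟨map_one _, co_one (hx i).1⟩⟩
      inv_mem' := fun {w} p => ⟨inv_mem p.1, fun i => by
        have b : a i w⁻¹ = 1 := inv_mem (show w ∈ (a i).ker from (p.2 i).1)
        have := (hx i).1 w⁻¹ w
        rw [inv_mul_cancel, co_one (hx i).1, (p.2 i).2, mulVec_zero, add_zero] at this
        exact ⟨b, this.symm⟩⟩ }
  choose U o hU using fun i => (hx i).2.1
  obtain ⟨l, l1, l2, l3, l4, s, j, w, w1, e⟩ := y n (E ∪ T) W ⟨fun w p s =>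
      ⟨uu_nrm.conj_mem w p.1 s, fun i => ⟨(a i).normal_ker.conj_mem w (p.2 i).1 s, by
        rw [co_cj (hx i).1 (p.2 i).1, (p.2 i).2, mulVec_zero]⟩⟩⟩
    (Subgroup.isOpen_mono (H₁ := Uu n T ⊓ ⨅ i, (a i).ker ⊓ U i)
      (fun w p => ⟨p.1, fun i => ⟨(Subgroup.mem_iInf.1 p.2 i).1,
        hU i w (Subgroup.mem_iInf.1 p.2 i).2⟩⟩)
      (uu_open.inter (show IsOpen ((⨅ i, (a i).ker ⊓ U i : Subgroup GQ) : Set GQ) by
        rw [Subgroup.coe_iInf]; exact isOpen_iInter_of_finite fun i => (ga i).opn.inter (o i))))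
    (fun w p => have p := in_mono Finset.subset_union_right p
      ⟨uu_in h2 pr p, fun i => ⟨(ga i).unr w p, (hx i).2.2.1 w p⟩⟩) g m1.1
  have e2 : (u ^ pp ^ 2) ^ j = (u ^ pp) ^ (pp * j) := by rw [← pow_mul, ← pow_mul]; congr 1; ring
  have t1 i : a i (g * (u ^ pp ^ 2) ^ j) = 1 := by rw [e2, map_mul, map_pow, au, m2, one_pow, one_mul]
  have t2 i : a i (s * (g * (u ^ pp ^ 2) ^ j) * s⁻¹) = 1 := (a i).normal_ker.conj_mem _ (t1 i) s
  have ov := pl.ov l l1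
  refine ⟨l, ⟨l1, l2, l3, l4⟩, fun i => ⟨l1, md_one l3, lt.dec_le ov (pl.fb l l1) (ga i).opn
    (by rw [e]; exact mul_mem (t2 i) (w1.2 i).1) fun t b => (ga i).unr t
      ⟨l, fun d => l2 (Finset.mem_union_right _ d), _, ov, b⟩⟩, ?_, s, fun i => ?_⟩
  · rw [e, e2]
    exact mul_mem (uu_nrm.conj_mem _ (mul_mem m1 (pow_mem (uu_ha hu) _)) s) w1.1
  · rw [e, (hx i).1, (w1.2 i).2, mulVec_zero, add_zero, co_cj (hx i).1 (t1 i), (hx i).1, m2, e2,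
      co_pow (hx i).1 (au i)]
    simp

/-! ### layers -/

variable {e e' : GQ → ZMod (pp ^ n)}

theorem eb_eq (h : n ≠ 0) (g : GQ) : eb e g = ZMod.castHom (dvd_pow_self pp h) F (e g) :=
  Ei.rd_eq h _

theorem eb_add (h : n ≠ 0) (g : GQ) : eb (e + e') g = eb e g + eb e' g := by
  simp only [eb_eq h, Pi.add_apply, map_add]

theorem ad_of (h : n ≠ 0) (a : ∀ g j, e (g * j) = e g + e j) (c0 : c ≠ 0)
    (b : ∀ g, P004R.Fx {1} c g → e g = 0) : Ad (eb e) :=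
  ⟨fun g j => by simp only [eb_eq h, a, map_add], Hm c, Hm_open c0, fun w m => by
    rw [eb_eq h, b w m, map_zero]⟩

theorem Tq.ad (t : Tq S n c e) (h : n ≠ 0) : Ad (eb e) := ad_of h t.add t.sq.ne_zero t.ker

theorem Ad.co {ε : GQ → F} (h : Ad ε) : Ei.Co 1 ε := ⟨fun g j => by simpa using h.add g j, h.opn⟩

theorem add_pow' (a : ∀ g j, e (g * j) = e g + e j) (g : GQ) (i : ℕ) : e (g ^ i) = i * e g := by
  induction i with
  | zero => simpa using a 1 1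
  | succ j ih => rw [pow_succ, a, ih]; push_cast; ring

theorem ex_one (h : n ≠ 0) (a : ∀ g j, e (g * j) = e g + e j) (i : Inert P g) (b : eb e g ≠ 0) :
    ∃ t, Inert P t ∧ e t = 1 := by
  have := NeZero.mk (pow_ne_zero n pp_ne)
  obtain ⟨v, hv⟩ := (ZMod.isUnit_iff_coprime (e g).val (pp ^ n)).2 (Nat.Coprime.pow_right _
    ((pp_prime.coprime_iff_not_dvd.2 fun d => b ((ZMod.natCast_eq_zero_iff _ _).2 d)).symm))
  rw [ZMod.natCast_zmod_val] at hv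
  refine ⟨g ^ (v⁻¹ : (ZMod _)ˣ).val.val, ?_, by
    rw [add_pow' a, ZMod.natCast_zmod_val, ← hv, Units.inv_mul]⟩
  generalize (v⁻¹ : (ZMod _)ˣ).val.val = j
  induction j with
  | zero => exact pow_zero g ▸ P004S.inert_one P
  | succ j ih => exact pow_succ g j ▸ P004S.inert_mul ih i

theorem cj_of (a : ∀ g j, e (g * j) = e g + e j) (hk : IsConj k) : e k = 0 := by
  have := a k k
  rw [P004R.Mu.kk hk, show e 1 = 0 by simpa using a 1 1, ← two_mul] at this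
  exact (unit_two' n).mul_right_eq_zero.1 this.symm

theorem fro_of (b : eb e g ≠ 0) : ¬ pp ^ 2 ∣ (e g).val := fun d =>
  b ((ZMod.natCast_eq_zero_iff _ _).2 ((dvd_pow_self pp two_ne_zero).trans d))

theorem ne_pp (h : l % pp ^ (n + 1) = 1) : l ≠ pp := fun e => by
  have := md_one h
  simp [e] at this

theorem Lq.ine (q : Lq l n e) (hl : l.Prime) {v : ℕ} (o : Ov v P) (ne : v ≠ l) (i : Inert P g) :
    e g = 0 := q.ker g (P014T.Mu.in_fx o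
      (fun d => ne ((Nat.prime_dvd_prime_iff_eq o.1 hl).1 d)) hl.ne_zero i)

/-- the first layer -/
theorem Lq.tu (q : Lq l n e) (h : n ≠ 0) (hl : l.Prime) (md : l % pp ^ (n + 1) = 1) (lS : l ∉ S)
    (b : ∀ v ∈ S, ka pp v (pl.σ l) ≠ 0) : Tu S n l e := by
  have un : ∀ p ∈ S, ∀ P φ, Ov p P → Fb p P φ → eb e φ ≠ 0 := fun p m P φ o f z =>
    b p m ((q.fro p P φ _ _ o f (pl.ov l hl) (pl.fb l hl) fun c => lS (c ▸ m)).1 z)
  refine ⟨⟨q.add, q.ker, fun k => cj_of q.add, hl.prime.squarefree, hl.one_lt, fun x a d => ?_,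
    fun x P o d => ?_, fun p m P φ o f => fro_of (un p m P φ o f)⟩, un⟩
  · obtain rfl := (Nat.prime_dvd_prime_iff_eq a hl).1 d
    exact ⟨md, lS⟩
  · obtain rfl := (Nat.prime_dvd_prime_iff_eq o.1 hl).1 d
    obtain ⟨τ, t⟩ := ex_gn o (ne_pp md)
    exact ex_one h q.add t.1 (q.ram P τ o t)

theorem mem_T (t : Tq S n c e) : l ∈ S ∪ c.primeFactors ↔ l ∈ S ∨ l.Prime ∧ l ∣ c := by
  simp [t.sq.ne_zero]

theorem Lq.dec0 (q : Lq l n e) (h : n ≠ 0) (hl : l.Prime) {v : ℕ} (o : Ov v P) (ne : v ≠ l)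
    (b : ka pp v (pl.σ l) = 0) (m : g ∈ dec P) : eb e g = 0 := by
  have a := (ad_of h q.add hl.ne_zero q.ker).co
  obtain ⟨φ, f⟩ := P022D.W.exists_phi o.1 o.2.1 o.2.2
  exact a.mem.1 (lt.dec_le o f a.opn (a.mem.2 ((q.fro v P φ _ _ o f (pl.ov l hl) (pl.fb l hl)
    ne).2 b)) (fun i b => a.mem.2 (by rw [eb, q.ine hl o ne b]; simp)) m)

/-- one more layer -/
theorem Tu.step (t : Tu S n c e) (q : Lq l n e') (h : n ≠ 0) (hl : l.Prime)
    (md : l % pp ^ (n + 1) = 1) (lT : l ∉ S ∪ c.primeFactors)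
    (b : ∀ v ∈ S, ka pp v (pl.σ l) = 0) :
    Tu S n (c * l) (e + e') ∧ eb (e + e') (pl.τ l) ≠ 0 := by
  rw [mem_T t.toTq, not_or, not_and] at lT
  have lc := lT.2 hl
  have ad : ∀ g j, (e + e') (g * j) = (e + e') g + (e + e') j := fun g j => by
    simp only [Pi.add_apply, t.add, q.add]; ring
  have un : ∀ p ∈ S, ∀ P φ, Ov p P → Fb p P φ → eb (e + e') φ ≠ 0 := fun p m P φ o f => by
    rw [eb_add h, q.dec0 h hl o (fun c => lT.1 (c ▸ m)) (b p m) (phi_mem o.1 o.2.1 f), add_zero]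
    exact t.uni p m P φ o f
  have rm : ∀ P τ, Ov l P → Gn l P τ → eb (e + e') τ ≠ 0 := fun P τ o i => by
    rw [eb_add h, eb, t.ine o lc i.1, ZMod.val_zero, Nat.cast_zero, zero_add]
    exact q.ram P τ o i
  refine ⟨⟨⟨ad, fun g m => ?_, fun k => cj_of ad, (Nat.squarefree_mul
    ((hl.coprime_iff_not_dvd.2 lc).symm)).2 ⟨t.sq, hl.prime.squarefree⟩,
    t.one.trans_le (Nat.le_mul_of_pos_right _ hl.pos), fun x a d => ?_, fun x P o d => ?_,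
    fun p m P φ o f => fro_of (un p m P φ o f)⟩, un⟩, rm _ _ (pl.ov l hl) (pl.gn l hl (ne_pp md))⟩
  · rw [Pi.add_apply, t.ker g (Hm_le (dvd_mul_right _ _) m), q.ker g (Hm_le (dvd_mul_left _ _) m),
      add_zero]
  · refine (a.dvd_mul.1 d).elim (t.cy x a) fun d => ?_
    obtain rfl := (Nat.prime_dvd_prime_iff_eq a hl).1 d
    exact ⟨md, lT.1⟩
  · by_cases z : x = l
    · subst z
      obtain ⟨τ, i⟩ := ex_gn o (ne_pp md)
      exact ex_one h ad i.1 (rm P τ o i)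
    · obtain ⟨s, s1, s2⟩ := t.ram x P o ((o.1.dvd_mul.1 d).resolve_right fun d =>
        z ((Nat.prime_dvd_prime_iff_eq o.1 hl).1 d))
      exact ⟨s, s1, by rw [Pi.add_apply, s2, q.ine hl o z s1, add_zero]⟩

/-- all places of the tower are good -/
theorem Tu.good (t : Tu S n c e) (h : n ≠ 0) (pr : ∀ l ∈ S, l.Prime) :
    ∀ v ∈ S ∪ c.primeFactors, ∃ g ∈ dec (pl.P v), eb e g ≠ 0 := fun v m => by
  rcases (mem_T t.toTq).1 m with m | ⟨a, d⟩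
  · exact ⟨_, Pl.sd (pr v m), t.uni v m _ _ (pl.ov v (pr v m)) (pl.fb v (pr v m))⟩
  · obtain ⟨s, s1, s2⟩ := t.ram v _ (pl.ov v a) d
    exact ⟨s, inP_le_dec s1, by rw [eb_eq h, s2, map_one]; exact one_ne_zero⟩

end Vale.Agent.P014U.Mu
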