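import Vale.Agent.P014U.Mu.Tow
import Vale.Agent.P014U.Mu.Bas
import Vale.Agent.P022K.G2.Rec

/-! # P014U, block MU: the case of Eisenstein (helper99) -/

set_option linter.all false

noncomputable section

namespace Vale.Agent.P014U.Mu.Ei

open NumberField Matrix Module
open Vale.Agent.P022 (Qb GQ IsConj)
open Vale.Agent.P027M.S (Inert)
open Vale.Agent.P022D.W (dec phi_mem inP_le_dec exists_phi)
open Vale.Agent.P022E.GW (Ov Fb Op)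
open Vale.Agent.P022K.G2 hiding Hm
open Vale.Agent.P004S (Un ex_conj lt)
open Vale.Agent.P004R.Mu (ex_pl)
open Vale.Agent.P014T.Dr (Hm Ha)
open X4S (Pl)

variable [Pp] {l q q₁ q₂ n : ℕ} {P : Ideal (𝓞 Qb)} {g σ τ k u : GQ} {x y z θ θ₁ ε κ χ w : GQ → F}
  {S E : Finset ℕ} {pl : Pl}

/-! ### cochains of Heisenberg type -/

structure He (θ x y : GQ → F) : Prop where
  co : ∀ g h, y (g * h) = y g + y h + θ g * x h
  op : Op y

theorem He.cj (h : He θ x y) (a : Co 1 θ) (t g : GQ) :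
    y (t * g * t⁻¹) = y g + θ t * x g - θ g * x t := by
  have := h.co (t * g * t⁻¹) t
  rw [inv_mul_cancel_right, h.co t g, a.conj] at this
  linear_combination -this

theorem He.ch (h : He θ x y) (a : Co 1 θ) : Ch a.ker y := by
  obtain ⟨W, b, c⟩ := op_lv h.op
  exact ⟨fun g m j _ => by rw [h.co, a.mem.1 m, zero_mul, add_zero], W, b, fun w _ m => c w m⟩

/-- cocycles modulo the cube -/
structure T3 (ε x y z : GQ → F) : Prop where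
  c0 : Co 1 x
  c1 : He ε x y
  c2 : ∀ g h, z (g * h) = z g + z h + 2 * ε g * y h + ε g ^ 2 * x h
  op : Op z

theorem T3.lin {x' y' z' : GQ → F} (h : T3 ε x y z) (h' : T3 ε x' y' z') (a b : F) :
    T3 ε (fun g => a * x g + b * x' g) (fun g => a * y g + b * y' g) fun g => a * z g + b * z' g :=
  ⟨h.c0.lin h'.c0 a b, ⟨fun g j => by simp only [h.c1.co, h'.c1.co]; ring,
    op2 h.c1.op h'.c1.op fun g u v => by simp [u, v]⟩, fun g j => by simp only [h.c2, h'.c2]; ring,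
    op2 h.op h'.op fun g u v => by simp [u, v]⟩

theorem co0 : Co χ 0 := ⟨by simp, ⊤, isOpen_univ, fun _ _ => rfl⟩

theorem t3_sh (t : Co 1 ε) : T3 ε 0 ε fun g => ε g ^ 2 :=
  ⟨co0, ⟨fun g j => by simp [t.add], t.op⟩, fun g j => by simp only [t.add, Pi.zero_apply]; ring,
    op2 t.op t.op fun g a _ => by simp [a]⟩

def cu (a : ℤ) : ℤ := (a ^ 3 - a) / 3

theorem cu3 (a : ℤ) : 3 * cu a = a ^ 3 - a := Int.mul_ediv_cancel'
  ((ZMod.intCast_zmod_eq_zero_iff_dvd _ 3).1 (by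
    push_cast
    generalize (a : ZMod 3) = b
    revert b
    decide))

theorem cu_add (a b : ℤ) : cu (a + b) = cu a + cu b + a ^ 2 * b + a * b ^ 2 :=
  mul_left_cancel₀ three_ne_zero (by linear_combination cu3 (a + b) - cu3 a - cu3 b)

theorem cu_mul (a b : ℤ) : cu (a * b) = a ^ 3 * cu b + b * cu a :=
  mul_left_cancel₀ three_ne_zero (by linear_combination cu3 (a * b) - a ^ 3 * cu3 b - b * cu3 a)

/-- the class of the tower -/
theorem t3_tw {e : GQ → ZMod (pp ^ n)} (hn : 2 ≤ n) (a : ∀ g j, e (g * j) = e g + e j)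
    (o : ∃ U : Subgroup GQ, IsOpen (U : Set GQ) ∧ ∀ w ∈ U, e w = 0) (t : Co 1 (eb e)) :
    ∃ w, T3 (eb e) (eb e) (fun g => eb e g ^ 2 / 2) w := by
  have := NeZero.mk (pow_ne_zero n pp_ne)
  have := two_ne
  refine ⟨fun g => (cu (e g).val : ℤ), t, ⟨fun g j => by rw [t.add]; field_simp; ring,
    op2 t.op t.op fun g a _ => by simp [a]⟩, fun g j => ?_,
    o.imp fun U b => ⟨b.1, fun w m => by simp [b.2 w m, cu]⟩⟩
  obtain ⟨m, rfl⟩ := Nat.exists_eq_add_of_le hn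
  have b := congrArg (Nat.cast : ℕ → ℤ) (Nat.mod_add_div ((e g).val + (e j).val) (pp ^ (2 + m)))
  rw [← ZMod.val_add, ← a] at b
  generalize ((e g).val + (e j).val) / pp ^ (2 + m) = s at b
  have c := congrArg (fun v => ((cu v : ℤ) : F)) (show ((e (g * j)).val : ℤ) + pp * (pp * (pp ^ m * s)) =
    (e g).val + (e j).val by push_cast at b; linear_combination b)
  simp only [cu_add, cu_mul pp (pp * _)] at c
  push_cast at c
  simp only [ZMod.natCast_self, zero_mul, mul_zero, add_zero, zero_pow three_ne_zero,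
    zero_pow two_ne_zero] at c
  rw [c, eb, eb]
  field_simp
  ring

/-- no ramification at the inert primes -/
theorem T3.un (h : T3 ε x y z) (t : Co 1 ε) (o : Ov l P) (ne : l ≠ pp)
    (u : ∀ g, Inert P g → ε g = 0) (hσ : σ ∈ dec P) (s : ε σ ≠ 0) (i : Inert P g) :
    x g = 0 ∧ y g = 0 := by
  have a : Ai P y := fun g j b _ => by rw [h.c1.co, u g b, zero_mul, add_zero]
  have b : ∀ g, Inert P g → x g = 0 := fun g => ust o ne one_ne_zero s (fun g j _ _ => h.c0.add g j) a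
    h.c0.op h.c1.op hσ (fun i _ => by rw [h.c0.conj, one_mul])
    fun i b => by rw [h.c1.cj t, u i b]; ring
  refine ⟨b g i, ust o ne one_ne_zero (mul_ne_zero two_ne s) a (fun g j c _ => by
    rw [h.c2, u g c]; ring) h.c1.op h.op hσ (fun i c => by rw [h.c1.cj t, u i c, b i c]; ring)
    (fun i c => ?_) i⟩
  have := h.c2 (σ * i * σ⁻¹) σ
  rw [inv_mul_cancel_right, h.c2 σ i, t.conj, u i c, b i c] at this
  linear_combination -this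

theorem Co.drop (h : Co χ x) (c : ∀ g ∈ Gz pp, χ g = 1) (o : Ov q P) (ne : q ≠ pp) (t : Gn q P τ)
    (e : x τ = 0) {Q : ℕ → Prop} (u : Un (fun l => Q l ∧ l ≠ q) x) : Un Q x := fun l P' o' a g i => by
  by_cases b : l = q
  · subst b
    exact h.all o (fun g => tame0 o ne (fun g j a _ => by rw [h.co, c g (inert_gz o ne a), one_mul])
      h.op t e) o' i (c g (inert_gz o' ne i))
  · exact u l P' o' ⟨a, b⟩ g i

/-- the two primes -/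
structure Tw (S : Finset ℕ) (pl : Pl) (q₁ q₂ : ℕ) (κ θ₁ : GQ → F) : Prop where
  pS : pp ∈ S
  p1 : q₁.Prime
  p2 : q₂.Prime
  n1 : q₁ ∉ S
  n2 : q₂ ∉ S
  z1 : pl.σ q₁ ∈ Gz pp
  z2 : pl.σ q₂ ∈ Gz pp
  kc : Co 1 κ
  ku : Un (· ≠ pp) κ
  kw : ∀ x, Co 1 x → Un (· ≠ pp) x → ∃ a, ∀ g, x g = a * κ g
  k1 : κ (pl.σ q₁) = 0
  k2 : κ (pl.σ q₂) = 0
  tc : Co 1 θ₁
  tu : Un (· ≠ q₁) θ₁
  t1 : θ₁ (pl.τ q₁) ≠ 0
  kq : ka pp q₁ (pl.σ q₂) ≠ 0
  he : ∀ y, He θ₁ κ y → Un (fun l => l ≠ pp ∧ l ≠ q₁) y → y (pl.σ q₂) = 0 → ∀ g, κ g = 0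

/-- the residue of a tower -/
structure Ep (S : Finset ℕ) (pl : Pl) (q₁ q₂ : ℕ) (θ₁ ε : GQ → F) : Prop where
  co : Co 1 ε
  un : Un (fun l => l ≠ q₁ ∧ l ≠ q₂) ε
  fr : ∀ l ∈ S, ∀ P φ, Ov l P → Fb l P φ → ε φ ≠ 0
  t1 : ε (pl.τ q₁) = θ₁ (pl.τ q₁)
  s1 : ε (pl.σ q₁) ≠ θ₁ (pl.σ q₁)
  t2 : ε (pl.τ q₂) ≠ 0
  tw : ∃ w, T3 ε ε (fun g => ε g ^ 2 / 2) w

/-- the obstruction -/
def Ob (pl : Pl) (q₁ q₂ : ℕ) (κ ε : GQ → F) : Prop := ∃ y, He ε κ y ∧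
  Un (fun l => (l ≠ pp ∧ l ≠ q₁) ∧ l ≠ q₂) y ∧ y (pl.τ q₂) = 0 ∧ y (pl.σ q₂) = 0 ∧ ∃ g, κ g ≠ 0

section
variable (d : Tw S pl q₁ q₂ κ θ₁) (e : Ep S pl q₁ q₂ θ₁ ε)
include d

theorem Tw.ne1 : q₁ ≠ pp := fun c => d.n1 (c ▸ d.pS)

theorem Tw.ne2 : q₂ ≠ pp := fun c => d.n2 (c ▸ d.pS)

/-- the two signs -/
theorem Tw.sign {ε' : GQ → F} (s : ∀ g, ε g + ε' g = 2 * θ₁ g) (ne : q₂ ≠ q₁)
    (a : Ob pl q₁ q₂ κ ε) (b : Ob pl q₁ q₂ κ ε') : False := by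
  obtain ⟨y, a1, a2, a3, a4, g, hg⟩ := a
  obtain ⟨y', b1, b2, b3, b4, -⟩ := b
  have := two_ne
  have h : He θ₁ κ fun g => (y g + y' g) / 2 := ⟨fun g j => by
    rw [a1.co, b1.co]; field_simp; linear_combination κ j * s g,
    op2 a1.op b1.op fun g u v => by simp [u, v]⟩
  refine hg (d.he _ h (fun l P o c g i => ?_) (by simp [a4, b4]) g)
  by_cases m : l = q₂
  · subst m
    obtain ⟨t, a, -⟩ := ex_conj (pl.ov l d.p2) o
    have v := h.cj d.tc t (t⁻¹ * g * t)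
    rw [d.ku _ _ (pl.ov l d.p2) c.1 _ (a g i), d.tu _ _ (pl.ov l d.p2) c.2 _ (a g i),
      tame0 (pl.ov l d.p2) c.1 (fun g j _ b => by
        rw [h.co, d.ku _ _ (pl.ov l d.p2) c.1 _ b, mul_zero, add_zero]) h.op (pl.gn l d.p2 c.1)
        (by simp [a3, b3]) (a g i), show t * (t⁻¹ * g * t) * t⁻¹ = g by group] at v
    simpa using v
  · simp [a2 l P o ⟨c, m⟩ g i, b2 l P o ⟨c, m⟩ g i]

include e

/-- the trivial line -/
theorem Tw.triv (h : T3 ε x y z)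
    (u : ∀ l P, Ov l P → l ∉ S → l ≠ q₁ → l ≠ q₂ → ∀ g, Inert P g → x g = 0 ∧ y g = 0) :
    (∃ a, ∀ g, x g = a * ε g) ∨ Ob pl q₁ q₂ κ ε := by
  have o1 := pl.ov _ d.p1
  have o2 := pl.ov _ d.p2
  have g1 := pl.gn _ d.p1 d.ne1
  have g2 := pl.gn _ d.p2 d.ne2
  have u' : ∀ l P, Ov l P → (l ≠ pp ∧ l ≠ q₁) ∧ l ≠ q₂ → ∀ g, Inert P g →
      x g = 0 ∧ y g = 0 ∧ ε g = 0 := fun l P o c g i => by
    have b := e.un l P o ⟨c.1.2, c.2⟩
    refine and_assoc.1 ⟨?_, b g i⟩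
    by_cases m : l ∈ S
    · obtain ⟨φ, f⟩ := exists_phi o.1 o.2.1 o.2.2
      exact h.un e.co o c.1.1 b (phi_mem o.1 o.2.1 f) (e.fr l m P φ o f) i
    · exact u l P o m c.1.2 c.2 g i
  obtain ⟨w, hw⟩ := e.tw
  have t2 := e.t2
  have t1 := d.t1
  obtain ⟨a, ha⟩ : ∃ a, 1 * x (pl.τ q₂) + a * ε (pl.τ q₂) = 0 :=
    ⟨-x (pl.τ q₂) / ε (pl.τ q₂), by field_simp; ring⟩
  have h1 := h.lin hw 1 a
  have u1 : ∀ l P, Ov l P → (l ≠ pp ∧ l ≠ q₁) ∧ l ≠ q₂ → ∀ g, Inert P g →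
      1 * x g + a * ε g = 0 ∧ 1 * y g + a * (ε g ^ 2 / 2) = 0 := fun l P o c g i => by
    simp [u' l P o c g i]
  have r : ∀ {f : GQ → F}, (∀ g, 1 * x g + a * ε g = f g) → (∀ g, f g = 0) →
      ∃ a, ∀ g, x g = a * ε g := fun b c => ⟨-a, fun g => by linear_combination b g + c g⟩
  generalize hx : (fun g => 1 * x g + a * ε g) = x' at h1
  generalize hy : (fun g => 1 * y g + a * (ε g ^ 2 / 2)) = y' at h1
  generalize (fun g => 1 * z g + a * w g) = z' at h1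
  replace hx := congrFun hx
  replace hy := congrFun hy
  simp only [hx, hy] at u1 ha
  replace r := r hx
  have u2 := h1.c0.drop (fun _ _ => rfl) o2 d.ne2 g2 ha fun l P o c g i => (u1 l P o c g i).1
  obtain ⟨b, hb⟩ : ∃ b, 1 * x' (pl.τ q₁) + b * θ₁ (pl.τ q₁) = 0 :=
    ⟨-x' (pl.τ q₁) / θ₁ (pl.τ q₁), by field_simp; ring⟩
  obtain ⟨c, hc⟩ := d.kw _ (h1.c0.lin d.tc 1 b) ((h1.c0.lin d.tc 1 b).drop (fun _ _ => rfl) o1 d.ne1 g1
    hb fun l P o c g i => by simp [u2 l P o c g i, d.tu l P o c.2 g i])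
  have l1 := lem o1 d.ne1 (Pl.sd d.p1) d.z1 g1.1 e.co.add (fun g _ j _ => h1.c0.add g j)
    (fun g _ j _ => h1.c1.co g j) e.co.op h1.c0.op h1.c1.op
  have b0 : b = 0 := by
    have s := hc (pl.σ q₁)
    rw [d.k1] at s
    rw [e.t1] at l1
    exact (mul_eq_zero.1 (show b * ((ε (pl.σ q₁) - θ₁ (pl.σ q₁)) * θ₁ (pl.τ q₁)) = 0 by
      linear_combination ε (pl.σ q₁) * hb - l1 - θ₁ (pl.τ q₁) * s)).resolve_right
        (mul_ne_zero (sub_ne_zero.2 e.s1) t1)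
  simp only [b0, one_mul, zero_mul, add_zero] at hc
  by_cases v : ∀ g, x' g = 0
  · exact .inl (r v)
  push Not at v
  obtain ⟨g, hg⟩ := v
  rw [hc, mul_ne_zero_iff] at hg
  have c0 := hg.1
  obtain ⟨s, hs⟩ : ∃ s, c⁻¹ * y' (pl.τ q₂) + s * ε (pl.τ q₂) = 0 :=
    ⟨-(c⁻¹ * y' (pl.τ q₂)) / ε (pl.τ q₂), by field_simp; ring⟩
  have h2 := h1.lin (t3_sh e.co) c⁻¹ s
  rw [show (fun g => c⁻¹ * x' g + s * (0 : GQ → F) g) = κ from funext fun g => by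
    rw [hc, Pi.zero_apply]; field_simp; ring] at h2
  have k0 : ∀ g ∈ dec (pl.P q₂), κ g = 0 := fun g =>
    Hb.unr_zero o2 (pl.fb _ d.p2) (d.kc.ch _) (d.ku _ _ o2 d.ne2) d.k2
  have l2 := lem (θ := fun g => 2 * ε g) o2 d.ne2 (Pl.sd d.p2) d.z2 g2.1
    (fun g j => by rw [e.co.add, mul_add]) (fun g _ j m => by rw [h2.c1.co, k0 j m, mul_zero, add_zero])
    (fun g _ j m => by rw [h2.c2, k0 j m, mul_zero, add_zero]) (op2 e.co.op e.co.op fun g a _ => by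
      simp [a]) h2.c1.op h2.op
  rw [hs, mul_zero] at l2
  exact .inr ⟨_, h2.c1, fun l P o c g i => by simp [(u1 l P o c g i).2, (u' l P o c g i).2.2], hs,
    (mul_eq_zero.1 l2.symm).resolve_left (mul_ne_zero two_ne t2), g, hg.2⟩

/-- the cyclotomic line -/
theorem Tw.omg (pr : ∀ l ∈ S, l.Prime) (h : Co (oz pp) x)
    (a : ∀ g j, y (g * j) = y g + oz pp g * (y j + ε g * x j)) (op : Op y) (hk : IsConj k)
    (xk : x k = 0) (u : ∀ l P, Ov l P → l ∉ S → l ≠ q₁ → l ≠ q₂ → ∀ g, Inert P g → x g = 0)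
    (t : x (pl.τ q₂) = 0) (g : GQ) : x g = 0 := by
  have o2 := pl.ov _ d.p2
  have g2 := pl.gn _ d.p2 d.ne2
  have z : ∀ g ∈ dec (pl.P q₂), oz pp g = 1 := fun g m => mem_Gz.1 (lt.dec_le o2 (pl.fb _ d.p2)
    Gz_open d.z2 (fun i => inert_gz o2 d.ne2) m)
  have l2 := lem o2 d.ne2 (Pl.sd d.p2) d.z2 g2.1 e.co.add (fun g m j _ => by rw [h.co, z g m, one_mul])
    (fun g m j _ => by rw [a, z g m, one_mul, add_assoc]) e.co.op h.op op
  rw [t, mul_zero] at l2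
  obtain ⟨n, hn⟩ := kum0 h
  refine hn.zero h hk xk (fun l p ne => ?_) d.z2 d.kq
    ((mul_eq_zero.1 l2.symm).resolve_left e.t2) g
  obtain ⟨P, o⟩ := ex_pl p
  by_cases m : l ∈ S
  · obtain ⟨φ, f⟩ := exists_phi o.1 o.2.1 o.2.2
    exact hn.dvd' o e.co (e.un l P o ⟨ne, fun c => d.n2 (c ▸ m)⟩) (phi_mem o.1 o.2.1 f)
      (e.fr l m P φ o f) h.co a op
  · exact hn.dvd o (fun c => m (c ▸ d.pS)) (h.drop (Q := fun l => l ∉ S ∧ l ≠ q₁)
      (fun g => mem_Gz.1) o2 d.ne2 g2 t (fun l P o c => u l P o c.1.1 c.1.2 c.2) l P o ⟨m, ne⟩)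

end

/-! ### the supply -/

/-- properties of the elements of an open subgroup which is unramified outside `E` -/
def Nb (E : Finset ℕ) (p : GQ → Prop) : Prop :=
  ∃ U : Subgroup GQ, IsOpen (U : Set GQ) ∧ In E ⊆ U ∧ ∀ w ∈ U, p w

theorem Nb.and {p p' : GQ → Prop} (h : Nb E p) (h' : Nb E p') : Nb E fun w => p w ∧ p' w := by
  obtain ⟨U, a, b, c⟩ := h
  obtain ⟨V, a', b', c'⟩ := h'
  exact ⟨U ⊓ V, a.inter a', fun g m => ⟨b m, b' m⟩, fun w m => ⟨c w m.1, c' w m.2⟩⟩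

theorem Nb.all {p : ℕ → GQ → Prop} (h : ∀ v ∈ S, Nb E (p v)) : Nb E fun w => ∀ v ∈ S, p v w := by
  induction S using Finset.induction_on with
  | empty => exact ⟨⊤, isOpen_univ, fun _ _ => trivial, by simp⟩
  | insert l S _ ih =>
    rw [Finset.forall_mem_insert] at h
    simpa only [Finset.forall_mem_insert] using h.1.and (ih h.2)

theorem nb_ch {A : Subgroup GQ} (h : Ch A x) (o : IsOpen (A : Set GQ))
    (i : ∀ l P, Ov l P → l ∉ E → ∀ g, Inert P g → g ∈ A ∧ x g = 0) : Nb E fun w => x w = 0 :=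
  ⟨h.ker, h.le_ker.isOpen o, fun g ⟨l, a, P, b, c⟩ => i l P b a g c, fun _ m => m.2⟩

theorem Co.chz (h : Co χ x) (c : ∀ g ∈ Gz pp, χ g = 1) : Ch (Gz pp) x := by
  obtain ⟨W, a, b⟩ := op_lv h.op
  exact ⟨fun g m j _ => by rw [h.co, c g m, one_mul], W, a, fun w _ m => b w m⟩

theorem Co.nb (h : Co χ x) (c : ∀ g ∈ Gz pp, χ g = 1) (p : pp ∈ E)
    (u : Un (· ∉ E) x) : Nb E fun w => x w = 0 :=
  nb_ch (h.chz c) Gz_open fun l P o m g i => ⟨inert_gz o (fun e => m (e ▸ p)) i, u l P o m g i⟩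

theorem ch_pp {A : Subgroup GQ} (h : Ch A x) (m : u ∈ A) (i : ℕ) : x ((u ^ pp ^ 2) ^ i) = 0 := by
  rw [h.pow (pow_mem m _), h.pow m]; simp

theorem Co.ev (h : Co χ x) (c : ∀ g ∈ Gz pp, χ g = 1) (m : g ∈ Gz pp) (hu : u ∈ Gz pp) {s w : GQ}
    (i : ℕ) (e : x w = 0) : x (s * (g * (u ^ pp ^ 2) ^ i) * s⁻¹ * w) = χ s * x g := by
  rw [h.co, e, mul_zero, add_zero, h.cj s (c _ (Gz_normal.conj_mem _ (mul_mem m
    (pow_mem (pow_mem hu _) _)) s)), h.co, ch_pp (h.chz c) hu, mul_zero, add_zero]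

variable {r : GQ →* P004F.M2 ℤ_[pp]} {m : ℕ}

theorem sup (y : Sy r pl u m) (hu : u ∈ Gz pp) (pE : pp ∈ E) {p : GQ → Prop} (h : Nb E p)
    (hg : g ∈ Hm (pp ^ (n + 1))) : ∃ l, Nw r pl m n E l ∧ pl.σ l ∈ Gz pp ∧
      ∃ (s : GQ) (i : ℕ) (w : GQ), p w ∧ pl.σ l = s * (g * (u ^ pp ^ 2) ^ i) * s⁻¹ * w := by
  obtain ⟨U, a, b, c⟩ := h
  have v := Hb.lv_core (Z := U ⊓ Gz pp) (a.inter Gz_open) fun g k => ⟨b k, by
    obtain ⟨l, a, P, o, i⟩ := k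
    exact inert_gz o (fun e => a (e ▸ pE)) i⟩
  obtain ⟨l, l1, l2, l3, l4, s, i, w, t, e⟩ := y n E _ v.nrm v.opn v.sub g hg
  have t := Subgroup.normalCore_le _ t
  exact ⟨l, ⟨l1, l2, l3, l4⟩, e ▸ mul_mem (Gz_normal.conj_mem _ (mul_mem (Mu.hm_gz hg)
    (pow_mem (pow_mem hu _) _)) s) t.2, s, i, w, c w t.1, e⟩

theorem eb0 {e : GQ → ZMod (pp ^ n)} (h : e g = 0) : eb e g = 0 := by rw [eb, h]; simp

/-- the choice of the two primes -/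
theorem ex_tw (y : Sy r pl u m) (hu : u ∈ Ha) (pS : pp ∈ S) (pr : ∀ l ∈ S, l.Prime) (hn : n ≠ 0)
    (E : Finset ℕ) : ∃ q₁ q₂ κ e, Nw r pl m n (E ∪ S) q₁ ∧ Nw r pl m n (insert q₁ (E ∪ S)) q₂ ∧
      Mu.Lq q₁ n e ∧ Tw S pl q₁ q₂ κ (eb e) ∧ (∀ v ∈ S, ka pp v (pl.σ q₁) ≠ 0) ∧
        ∀ v ∈ S, ka pp v (pl.σ q₂) = 0 := by
  obtain ⟨κ, kc, ku, kw⟩ := kw
  obtain ⟨k, hk⟩ := P004R.Mu.ex_k
  have uz : u ∈ Gz pp := Mu.hm_gz (n := 0) (ha_hm hu (pow_ne_zero _ pp_ne))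
  have one : ∀ g ∈ Gz pp, (1 : GQ → F) g = 1 := fun _ _ => rfl
  have om : ∀ g ∈ Gz pp, oz pp g = 1 := fun _ => mem_Gz.1
  have nk : ∀ {E : Finset ℕ}, pp ∈ E → Nb E fun w => κ w = 0 := fun p =>
    kc.nb one p fun l P o a => ku l P o fun e => a (e ▸ p)
  have na : ∀ {E : Finset ℕ} {v : ℕ}, pp ∈ E → v.Prime → v ∈ E → Nb E fun w => ka pp v w = 0 :=
    fun p a b => (co_ka a.ne_zero).nb om p fun l P o c g i => ka_un o (fun e => c (e ▸ p))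
      (fun d => c ((Nat.prime_dvd_prime_iff_eq o.1 a).1 d ▸ b)) i
  obtain ⟨g, g1, ⟨-, g2⟩, g3⟩ := fst' S n pr
  have pE := Finset.mem_union_right E pS
  obtain ⟨q₁, w1, z1, s, i, w, ⟨a1, a2⟩, e1⟩ := sup y uz pE ((nk pE).and
    (Nb.all fun v m => na pE (pr v m) (Finset.mem_union_right E m))) g1
  obtain ⟨e, he⟩ := tow q₁ n w1.pr w1.md (Nat.pos_of_ne_zero hn)
  have tc := (ad_of hn he.add w1.pr.ne_zero he.ker).co
  have tu : Un (· ≠ q₁) (eb e) := fun l P o a g i => eb0 (he.ine w1.pr o a i)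
  have o1 := pl.ov _ w1.pr
  have ne := ne_pp w1.md
  have gn := pl.gn _ w1.pr ne
  have t1 := he.ram _ _ o1 gn
  obtain ⟨γ, c1, c2⟩ : ∃ γ, oz pp γ ≠ 1 ∧ (κ γ = 0 → ∀ g, κ g = 0) := by
    by_cases a : ∀ g, κ g = 0
    · exact ⟨k, oz_k hk ▸ neg_ne, fun _ => a⟩
    push Not at a
    obtain ⟨γ, a⟩ := a
    by_cases b : oz pp γ = 1
    · exact ⟨γ * k, by rw [oz_mul, b, one_mul, oz_k hk]; exact neg_ne, fun c => by
        rw [kc.add, kc.cjz hk, add_zero] at c; exact absurd c a⟩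
    · exact ⟨γ, b, fun c => absurd c a⟩
  have pE' := Finset.mem_insert_of_mem (b := q₁) pE
  have out : ∀ {l}, l ∉ insert q₁ (E ∪ S) → l ≠ pp ∧ l ≠ q₁ := fun a =>
    ⟨fun c => a (c ▸ pE'), fun c => a (c ▸ Finset.mem_insert_self _ _)⟩
  obtain ⟨p, hp, hy⟩ : ∃ p, Nb (insert q₁ (E ∪ S)) p ∧ ∀ y, He (eb e) κ y →
      Un (fun l => l ≠ pp ∧ l ≠ q₁) y → ∃ y, He (eb e) κ y ∧ Un (fun l => l ≠ pp ∧ l ≠ q₁) y ∧
        ∀ w, p w → y w = 0 := by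
    by_cases a : ∃ y, He (eb e) κ y ∧ Un (fun l => l ≠ pp ∧ l ≠ q₁) y
    · obtain ⟨y, a, b⟩ := a
      exact ⟨_, nb_ch (a.ch tc) tc.opn fun l P o c g i => ⟨tc.mem.2 (tu l P o (out c).2 g i),
        b l P o (out c) g i⟩, fun _ _ _ => ⟨y, a, b, fun _ c => c⟩⟩
    · exact ⟨_, nk pE', fun y b c => absurd ⟨y, b, c⟩ a⟩
  obtain ⟨q₂, w2, z2, s', i', w', ⟨⟨⟨b1, b2⟩, b3, b4⟩, b5⟩, e2⟩ := sup y uz pE' ((((nk pE').and
    (tc.nb one pE' fun l P o a => tu l P o (out a).2)).and ((na pE' w1.pr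
      (Finset.mem_insert_self _ _)).and hp)).and (Nb.all fun v m => na pE' (pr v m)
        (Finset.mem_insert_of_mem (Finset.mem_union_right E m))))
    (cm_hm (pow_ne_zero (n + 1) pp_ne) γ (pl.τ q₁))
  have cz := oz_cm γ (pl.τ q₁)
  have c0 : ∀ {x : GQ → F}, Co 1 x → x (γ * pl.τ q₁ * γ⁻¹ * (pl.τ q₁)⁻¹) = 0 := fun c => by
    rw [c.add, c.conj, c.inv, add_neg_cancel]
  have ck : ∀ v : ℕ, v.Prime → ka pp v (γ * pl.τ q₁ * γ⁻¹ * (pl.τ q₁)⁻¹) =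
      (oz pp γ - 1) * ka pp v (pl.τ q₁) := fun v a => by
    have c := (co_ka a.ne_zero).chz om
    have t := inert_gz o1 ne gn.1
    rw [c.1 _ (Gz_normal.conj_mem _ t γ) _ (inv_mem t), c.inv t, ka_cj a.ne_zero γ t]; ring
  have n1 : q₁ ∉ S := fun c => w1.out (Finset.mem_union_right E c)
  have k2 : κ (pl.σ q₂) = 0 := by rw [e2, kc.ev one cz uz _ b1, c0 kc, mul_zero]
  have t2 : eb e (pl.σ q₂) = 0 := by rw [e2, tc.ev one cz uz _ b2, c0 tc, mul_zero]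
  refine ⟨q₁, q₂, κ, e, w1, w2, he, ⟨pS, w1.pr, w2.pr, n1, fun c => w2.out
    (Finset.mem_insert_of_mem (Finset.mem_union_right E c)), z1, z2, kc, ku, kw, by
      rw [e1, kc.ev one (Mu.hm_gz g1) uz _ a1, g3 κ kc ku, mul_zero], k2, tc, tu, t1, by
      rw [e2, (co_ka w1.pr.ne_zero).ev om cz uz _ b3, ck _ w1.pr, gn.2, mul_one]
      exact mul_ne_zero (oz_ne _) (sub_ne_zero.2 c1), fun y a b c => c2 ?_⟩, fun v m => by
      rw [e1, (co_ka (pr v m).ne_zero).ev om (Mu.hm_gz g1) uz _ (a2 v m)]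
      exact mul_ne_zero (oz_ne _) (g2 v m), fun v m => by
      rw [e2, (co_ka (pr v m).ne_zero).ev om cz uz _ (b5 v m), ck v (pr v m), ka_un o1 ne (fun d =>
        n1 ((Nat.prime_dvd_prime_iff_eq w1.pr (pr v m)).1 d ▸ m)) gn.1, mul_zero, mul_zero]⟩
  obtain ⟨y', a', b', c'⟩ := hy y a b
  have df : Co 1 fun g => y g - y' g := ⟨fun g j => by simp only [a.co, a'.co, Pi.one_apply]; ring,
    op2 a.op a'.op fun g u v => by simp [u, v]⟩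
  obtain ⟨t, ht⟩ : ∃ t, 1 * (y (pl.τ q₁) - y' (pl.τ q₁)) + t * eb e (pl.τ q₁) = 0 :=
    ⟨-(y (pl.τ q₁) - y' (pl.τ q₁)) / eb e (pl.τ q₁), by field_simp; ring⟩
  obtain ⟨j, hj⟩ := kw _ (df.lin tc 1 t) ((df.lin tc 1 t).drop one o1 ne gn ht fun l P o c g i => by
    simp [b l P o c g i, b' l P o c g i, tu l P o c.2 g i])
  have v := hj (pl.σ q₂)
  simp only [c, t2, k2, mul_zero, add_zero, one_mul, zero_sub, neg_eq_zero] at v
  have ue := tc.mem.2 (eb0 (he.ker u (ha_hm hu w1.pr.ne_zero)))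
  have f := a'.co (γ * pl.τ q₁ * γ⁻¹ * (pl.τ q₁)⁻¹) (pl.τ q₁)
  rw [inv_mul_cancel_right, a'.cj tc, c0 tc, ku _ _ o1 ne _ gn.1] at f
  rw [e2, a'.co, b1, c' _ b4, a'.cj tc, kc.add, tc.add, a'.co, c0 kc, c0 tc, ch_pp (kc.ch ⊤) trivial,
    ch_pp (tc.ch ⊤) trivial, ch_pp (a'.ch tc) ue] at v
  exact (mul_eq_zero.1 (show eb e (pl.τ q₁) * κ γ = 0 by linear_combination -f - v)).resolve_left t1

theorem lq_neg {e : GQ → ZMod (pp ^ n)} (h : Mu.Lq l n e) (hn : n ≠ 0) :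
    Mu.Lq l n (-e) ∧ ∀ g, eb (-e) g = -eb e g := by
  have a : ∀ g, eb (-e) g = -eb e g := fun g => by simp only [eb_eq hn, Pi.neg_apply, map_neg]
  exact ⟨⟨fun g j => by simp only [Pi.neg_apply, h.add, neg_add], fun g m => by
    rw [Pi.neg_apply, h.ker g m, neg_zero], fun P t o b => by
      rw [a]; exact neg_ne_zero.2 (h.ram P t o b), fun v P φ Q ψ b c d f i => by
      rw [a, neg_eq_zero]; exact h.fro v P φ Q ψ b c d f i⟩, a⟩

/-- the tower -/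
theorem Tw.ep {e e' : GQ → ZMod (pp ^ n)} (d : Tw S pl q₁ q₂ κ (eb e)) (hn : 2 ≤ n)
    (t : Tu S n (q₁ * q₂) (e + e') ∧ eb (e + e') (pl.τ q₂) ≠ 0) (h : Mu.Lq q₂ n e') (ne : q₁ ≠ q₂) :
    Ep S pl q₁ q₂ (eb e) (eb (e + e')) := by
  have n0 : n ≠ 0 := by omega
  have o1 := pl.ov _ d.p1
  have c := (t.1.toTq.ad n0).co
  exact ⟨c, fun l P o a g i => eb0 (t.1.toTq.ine o (fun b => (o.1.dvd_mul.1 b).elim
      (fun b => a.1 ((Nat.prime_dvd_prime_iff_eq o.1 d.p1).1 b))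
      fun b => a.2 ((Nat.prime_dvd_prime_iff_eq o.1 d.p2).1 b)) i), t.1.uni, by
    rw [eb_add n0, eb0 (h.ine d.p2 o1 ne (pl.gn _ d.p1 d.ne1).1), add_zero], by
    rw [eb_add n0, Ne, add_eq_left]
    exact mt (h.fro _ _ _ _ _ o1 (pl.fb _ d.p1) (pl.ov _ d.p2) (pl.fb _ d.p2) ne).1 d.kq, t.2,
    t3_tw hn t.1.add ⟨_, P014T.Dr.Hm_open t.1.sq.ne_zero, t.1.ker⟩ c⟩

/-! ### the count -/

theorem ln_mv (θ : GQ →* F) (g : GQ) (v : Unit → F) : (ln θ g *ᵥ v) () = θ g * v () := by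
  simp [ln, mulVec, dotProduct]

/-- the classes which lift -/
def Yg (θ : GQ →* F) (ε : GQ → F) (T : Finset ℕ) (k : GQ) : Set (GQ → Unit → F) :=
  {x | x ∈ Z0 (ln θ) T k ∧ ∃ y z, L3 (ln θ) ε ⊤ x y z ∧ ∀ g ∈ In T, y g = 0}

theorem bd {θ : GQ →* F} {T : Finset ℕ} {χ : GQ → ℕ} {C : ℕ} (f : Module.Finite F (Z0 (ln θ) T k))
    (c : finrank F (Z0 (ln θ) T k) ≤ C)
    (h : Set.InjOn (fun x => x τ ()) (Yg θ (fun g => χ g) T k)) : Bd (ln θ) k T χ (2 * C) := by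
  have i := Set.injOn_iff_injective.1 h
  exact count (Y := Z0 (ln θ) T k) (Y' := Yg θ (fun g => χ g) T k) (card_sub _ c).1
    (Finite.of_injective _ i) 2 (fun J x m => ⟨m.z0 J.succ_pos, fun e => ⟨m.z0 J.succ_pos, _, _,
      m.l3 (by omega) _, fun g a => funext fun t => by
        rw [ci, m.un g a]; exact co_zero (by omega)⟩⟩) (card_sub _ c).2
    ((Nat.card_le_card_of_injective _ i).trans_eq (by simp))

theorem Yg.op {θ : GQ →* F} {x y z : GQ → Unit → F} (h : L3 (ln θ) ε ⊤ x y z) :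
    Op (fun g => x g ()) ∧ Op (fun g => y g ()) ∧ Op fun g => z g () := by
  obtain ⟨U, o, a⟩ := h.opn
  exact ⟨⟨U, o, fun w m => congrFun (a w trivial m).1 _⟩, ⟨U, o, fun w m =>
    congrFun (a w trivial m).2.1 _⟩, U, o, fun w m => congrFun (a w trivial m).2.2 _⟩

theorem Yg.t3 {x y z : GQ → Unit → F} (h : L3 (ln 1) ε ⊤ x y z) :
    T3 ε (fun g => x g ()) (fun g => y g ()) fun g => z g () :=
  ⟨⟨fun g j => by simp [h.c0 g trivial j trivial, ln_mv], (Yg.op h).1⟩,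
    ⟨fun g j => by simp [h.c1 g trivial j trivial, ln_mv, add_assoc], (Yg.op h).2.1⟩,
    fun g j => by simp [h.c2 g trivial j trivial, ln_mv, add_assoc], (Yg.op h).2.2⟩

theorem Yg.om {x y z : GQ → Unit → F} (h : L3 (ln wz) ε ⊤ x y z) : Co (oz pp) (fun g => x g ()) ∧
    ∀ g j, y (g * j) () = y g () + oz pp g * (y j () + ε g * x j ()) :=
  ⟨⟨fun g j => by rw [h.c0 g trivial j trivial, Pi.add_apply, ln_mv]; rfl, (Yg.op h).1⟩,
    fun g j => by rw [h.c1 g trivial j trivial, Pi.add_apply, ln_mv]; rfl⟩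

theorem ga {θ : GQ →* F} (p : pp ∈ S) (h : ∀ g ∈ Gz pp, θ g = 1) : Ga (ln θ) S :=
  have a : Gz pp ≤ (ln θ).ker := fun g m => by simp [ln, h g m]
  ⟨Subgroup.isOpen_mono a Gz_open, fun g ⟨l, b, P, o, i⟩ => a (inert_gz o (fun e => b (e ▸ p)) i)⟩

/-- **the case of Eisenstein** -/
theorem eis' (hc : CHB) (hf : FIN) : EIS := fun r S pl k h hk => by
  obtain ⟨u, hu, -, m, y⟩ := hc r S pl h
  obtain ⟨C, hC⟩ := hf Unit (ln 1) S k (ga h.two fun _ _ => rfl) h.two h.pr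
  obtain ⟨C', hC'⟩ := hf Unit (ln wz) S k (ga h.two fun _ => P022K.G2.mem_Gz.1) h.two h.pr
  refine ⟨m + 2, 2 * (C + C' + 2), fun n E hn => ?_⟩
  have n0 : n ≠ 0 := by omega
  obtain ⟨q₁, q₂, κ, e, w1, w2, he, d, s1, s2⟩ := ex_tw y hu h.two h.pr n0 E
  have ne : q₁ ≠ q₂ := fun c => w2.out (c ▸ Finset.mem_insert_self _ _)
  have st : ∀ {e'}, Mu.Lq q₂ n e' → _ := fun a => (he.tu n0 w1.pr w1.md d.n1 s1).step a n0 w2.pr w2.md
    (by simp [w1.pr.primeFactors, d.n2, ne.symm]) s2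
  obtain ⟨e', t, ep, ob⟩ : ∃ e', Tu S n (q₁ * q₂) (e + e') ∧ Ep S pl q₁ q₂ (eb e) (eb (e + e')) ∧
      ¬ Ob pl q₁ q₂ κ (eb (e + e')) := by
    obtain ⟨e', a⟩ := tow q₂ n w2.pr w2.md (by omega)
    obtain ⟨b, c⟩ := lq_neg a n0
    by_cases o : Ob pl q₁ q₂ κ (eb (e + e'))
    · exact ⟨-e', (st b).1, d.ep (by omega) (st b) b ne, d.sign (fun g => by
        rw [eb_add n0, eb_add n0, c]; ring) ne.symm o⟩
    · exact ⟨e', (st a).1, d.ep (by omega) (st a) a ne, o⟩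
  have cd : (q₁ * q₂).primeFactors.card ≤ 2 := by
    rw [Nat.primeFactors_mul w1.pr.ne_zero w2.pr.ne_zero, w1.pr.primeFactors, w2.pr.primeFactors]
    exact Finset.card_union_le _ _
  have pf : ∀ l ∈ (q₁ * q₂).primeFactors, l.Prime := fun l => Nat.prime_of_mem_primeFactors
  have dv : ∀ {l : ℕ}, l.Prime → l ∣ q₁ * q₂ → l = q₁ ∨ l = q₂ := fun a b =>
    (a.dvd_mul.1 b).imp (Nat.prime_dvd_prime_iff_eq a w1.pr).1 (Nat.prime_dvd_prime_iff_eq a w2.pr).1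
  have mi : ∀ l P, P022E.GW.Ov l P → l ∉ S → l ≠ q₁ → l ≠ q₂ → ∀ g, P027M.S.Inert P g →
      g ∈ P022K.G2.In (S ∪ (q₁ * q₂).primeFactors : Finset ℕ) := fun l P o a b c g i =>
    ⟨l, fun v => ((mem_T t.toTq).1 v).elim a fun v => (dv v.1 v.2).elim b c, P, o, i⟩
  have gq : ∀ {g}, Gq r m g → Gq r (m + 2) g := fun a b => a ((pow_dvd_pow _ (by omega)).trans b)
  refine ⟨_, _, t.toTq, by omega, fun q a b => ?_, bd (τ := pl.τ q₂) (hC _ pf).1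
    ((hC _ pf).2.trans (by simp only [Fintype.card_unit]; omega)) ?_, bd (τ := pl.τ q₂) (hC' _ pf).1
    ((hC' _ pf).2.trans (by simp only [Fintype.card_unit]; omega)) ?_⟩
  · rcases dv a b with rfl | rfl
    · exact ⟨fun c => w1.out (Finset.mem_union_left _ c), gq w1.gq⟩
    · exact ⟨fun c => w2.out (Finset.mem_insert_of_mem (Finset.mem_union_left _ c)), gq w2.gq⟩
  · have v : ∀ x ∈ Yg 1 (eb (e + e')) (S ∪ (q₁ * q₂).primeFactors) k, ∃ a, ∀ g,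
        x g () = a * eb (e + e') g := fun x ⟨a, y, z, b, c⟩ =>
      (d.triv ep (Yg.t3 b) fun l P o s t v g i => ⟨congrFun (a.2.2.1 g (mi l P o s t v g i)) _,
        congrFun (c g (mi l P o s t v g i)) _⟩).resolve_right ob
    intro x a x' b c
    obtain ⟨s, hs⟩ := v x a
    obtain ⟨s', hs'⟩ := v x' b
    obtain rfl := mul_right_cancel₀ ep.t2 ((hs _).symm.trans (c.trans (hs' _)))
    exact funext fun g => funext fun _ => (hs g).trans (hs' g).symm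
  · rintro x ⟨a, y, z, b, -⟩ x' ⟨a', y', z', b', -⟩ c
    refine funext fun g => funext fun _ => sub_eq_zero.1 ?_
    simpa [sub_eq_add_neg] using d.omg ep h.pr ((Yg.om b).1.lin (Yg.om b').1 1 (-1))
      (y := fun g => y g () - y' g ()) (fun g j => by
        rw [(Yg.om b).2, (Yg.om b').2, eb]; ring)
      (op2 (Yg.op b).2.1 (Yg.op b').2.1 fun g u v => by simp [u, v]) hk (by simp [a.2.2.2, a'.2.2.2])
      (fun l P o s t v g i => by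
        simp [a.2.2.1 g (mi l P o s t v g i), a'.2.2.1 g (mi l P o s t v g i)])
      (by simp [show x _ () = x' _ () from c]) g

end Vale.Agent.P014U.Mu.Ei

theorem Vale.Agent.P014U.Mu.eis [Vale.Agent.P014U.Pp] (hc : Vale.Agent.P014U.Mu.CHB)
    (hf : Vale.Agent.P014U.Mu.FIN) : Vale.Agent.P014U.Mu.EIS := Vale.Agent.P014U.Mu.Ei.eis' hc hf
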