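import Vale.Agent.P014U.Mu.St
import Vale.Agent.P014U.G2.Lib
import Vale.Agent.P004S.Bas3

/-! # P014U, block MU: the number of residual cocycles (row FIN; helper7) -/

set_option linter.all false

noncomputable section

namespace Vale.Agent.P014U.Mu

open NumberField Matrix Module
open Vale.Agent.P022 (Qb GQ)
open Vale.Agent.P027M.S (Inert)
open Vale.Agent.P022E.GW (Ov)
open Vale.Agent.P022K.G2

variable [Pp] {ι : Type} [Fintype ι] [DecidableEq ι] {a : GQ →* Matrix ι ι F} {S T : Finset ℕ}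
  {k : GQ} {x : GQ → ι → F}

namespace Fn

theorem in_mono (h : S ⊆ T) : In (T : Set ℕ) ⊆ In (S : Set ℕ) :=
  fun _ ⟨l, a, b⟩ => ⟨l, fun m => a (h m), b⟩

theorem ga_mono (h : Ga a S) (e : S ⊆ T) : Ga a T := ⟨h.opn, fun g m => h.unr g (in_mono e m)⟩

theorem z0_mono (e : S ⊆ T) : Z0 a S k ≤ Z0 a T k :=
  fun _ h => ⟨h.1, h.2.1, fun g m => h.2.2.1 g (in_mono e m), h.2.2.2⟩

/-- the action as endomorphisms -/
def ra (a : GQ →* Matrix ι ι F) (g : GQ) : End F (ι → F) := (a g).mulVecLin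

theorem ga_rp (h : Ga a T) : Rp (In T) ⊤ (ra a) :=
  ⟨by simp [ra, End.one_eq_id], fun g _ j _ => by simp [ra, mulVecLin_mul, End.mul_eq_comp],
    a.ker, lv_of' inferInstance h.opn h.unr, fun w _ m => by
      simp [ra, show a w = 1 from m, End.one_eq_id]⟩

theorem z0_le (h : Ga a T) : Z0 a T k ≤ Z1 (In T) ⊤ (ra a) := fun x ⟨x1, ⟨U, o, x2⟩, x3, _⟩ => by
  obtain ⟨W, hW, le⟩ := ex_lv' o
  exact Hb.z1_up (J := ∅) ⟨⊤, Lv.top _, fun _ _ _ => trivial⟩ (ga_rp h)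
    ⟨fun g _ j _ => x1 g j, fun g m => (m trivial).elim, W, hW, fun w _ m => x2 w (le m)⟩ x3

/-- finiteness -/
theorem z0_fin (h : Ga a S) (pr : ∀ l ∈ S, l.Prime) : Module.Finite F (Z0 a S k) := by
  obtain ⟨T, tt, -, L, -⟩ := lg pp ⊤ (a.ker ⊓ Gz pp) ⊤ S le_top inf_le_right
    (fun g _ u hu => Subgroup.Normal.conj_mem inferInstance u hu g) (h.opn.inter Gz_open)
    isOpen_univ fun l hl => .inr (pr l hl)
  exact Module.rank_lt_aleph0_iff.1 ((Submodule.rank_mono ((z0_mono tt).trans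
    (z0_le (ga_mono h tt)))).trans_lt (Cx.fin_all G2.chi02 L le_top inferInstance
      (ga_rp (ga_mono h tt)) fun u hu => by simp [ra, show a u = 1 from hu.1, End.one_eq_id]).1)

/-- a cocycle which vanishes at a tame generator is unramified -/
theorem unr (h : Ga a S) (hx : x ∈ Z0 a T k) {l : ℕ} {P Q : Ideal (𝓞 Qb)} {τ g : GQ} (o : Ov l P)
    (hp : pp ∈ S) (hl : l ∉ S) (t : Gn l P τ) (e : x τ = 0) (o' : Ov l Q) (i : Inert Q g) :
    x g = 0 := by
  obtain ⟨x1, ⟨U, oU, x2⟩, -⟩ := hx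
  obtain ⟨W, hW, le⟩ := ex_lv' oU
  obtain ⟨n, hn⟩ := (tam pp l P o fun e => hl (e ▸ hp)).2.2 F _ x
    (fun g j u _ => by rw [x1, h.unr g ⟨l, hl, P, o, u⟩, one_mulVec]) ⟨W, hW, fun w m _ => x2 w (le m)⟩
  obtain ⟨s, hs, -⟩ := P004S.ex_conj o o'
  rw [hn τ t.1, t.2, map_one, one_smul] at e
  have := x1 g s
  rw [h.unr g ⟨l, hl, Q, o', i⟩, one_mulVec, show g * s = s * (s⁻¹ * g * s) by group, x1,
    hn _ (hs g i), e, smul_zero, mulVec_zero, add_zero] at this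
  simpa using this

end Fn

open Fn

/-- **the number of residual cocycles** -/
theorem fin : FIN := fun ι _ _ a S k h hp pr => by
  have := z0_fin (k := k) h pr
  obtain ⟨pl⟩ := X4S.pl_ex
  refine ⟨finrank F (Z0 a S k), fun T pt => ?_⟩
  have f := z0_fin (k := k) (ga_mono h (Finset.subset_union_left (s₂ := T))) fun l m =>
    (Finset.mem_union.1 m).elim (pr l) (pt l)
  let φ : Z0 a (S ∪ T) k →ₗ[F] T → ι → F :=
    LinearMap.pi fun l => LinearMap.proj (pl.τ l) ∘ₗ Submodule.subtype _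
  refine ⟨f, φ.finrank_range_add_finrank_ker.ge.trans ((add_comm _ _).trans_le (add_le_add ?_ ?_))⟩
  · rw [← Submodule.finrank_map_subtype_eq]
    refine Submodule.finrank_mono ?_
    rintro _ ⟨⟨x, hx⟩, m, rfl⟩
    refine ⟨hx.1, hx.2.1, fun g ⟨l, hl, Q, o, i⟩ => ?_, hx.2.2.2⟩
    by_cases c : l ∈ T
    · exact unr h hx (pl.ov l o.1) hp hl (pl.gn l o.1 fun e => hl (e ▸ hp))
        (congrFun m ⟨l, c⟩) o i
    · exact hx.2.2.1 g ⟨l, fun m => (Finset.mem_union.1 m).elim hl c, Q, o, i⟩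
  · exact (Submodule.finrank_le _).trans_eq (by simp [finrank_pi_fintype, mul_comm])

end Vale.Agent.P014U.Mu
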