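import Vale.Agent.P014U.Mu.St
import Vale.Agent.P014U.Pq.Core
import Vale.Agent.P014T.Dr.Cy
import Vale.Agent.P004S.Lt

/-! # P014U, block MU: the lower bound for the dual classes (helper46) -/

set_option autoImplicit false
set_option linter.all false

open NumberField Matrix Module Cardinal
open scoped Classical

noncomputable section

namespace Vale.Agent.P014U.Mu

open Vale.Agent.P022 Vale.Agent.P022K Vale.Agent.P022K.G2
open Vale.Agent.P022K.G2.Cn Vale.Agent.P022K.G2.Cx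
open Vale.Agent.P022D.W (dec)
open Vale.Agent.P022E.GW (Ov Fb)
open X4F.Pr (Iu iu_core iu_mono)
open X4S (Pl)

namespace Lb

section alg

variable {k X Y κ : Type} [Field k] [AddCommGroup X] [Module k X] [AddCommGroup Y] [Module k Y]

theorem one (Z : Submodule k X) (f : X →ₗ[k] Y) {A L : Submodule k Y} (h : L ≤ A)
    (e : ∀ x ∈ Z, f x ∈ A) : rk Z + rk L ≤ rk (Z ⊓ L.comap f) + rk A := by
  rw [← rq_map f Z L, ← rq_add A L, inf_eq_right.2 h, add_right_comm, add_comm]
  exact add_le_add_right (add_le_add_left (rq_mono (Submodule.map_le_iff_le_comap.2 e)) _) _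

/-- local conditions -/
theorem many (s : Finset κ) (Z : Submodule k X) (f : κ → X →ₗ[k] Y) {A L : κ → Submodule k Y}
    (h : ∀ i, L i ≤ A i) (e : ∀ i, ∀ x ∈ Z, f i x ∈ A i) : rk Z + ∑ i ∈ s, rk (L i) ≤
      rk (Z ⊓ ⨅ i ∈ s, (L i).comap (f i)) + ∑ i ∈ s, rk (A i) := by
  induction s using Finset.induction_on with
  | empty => simp
  | insert i s m ih =>
    rw [Finset.sum_insert m, Finset.sum_insert m, Finset.iInf_insert, add_left_comm, inf_left_comm,
      inf_comm ((L i).comap _), ← add_assoc _ (rk (A i))]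
    refine (add_le_add_right ih _).trans ?_
    rw [← add_assoc, add_comm (rk (L i))]
    exact add_le_add_left (one _ _ (h i) fun x m => e i x (Submodule.mem_inf.1 m).1) _

end alg

variable [Pp] {ι : Type} [Fintype ι] [DecidableEq ι] {a : GQ →* Matrix ι ι F} {ε : GQ → F}
  {D : Subgroup GQ} {T : Finset ℕ}

/-- the representation -/
abbrev rr (a : GQ →* Matrix ι ι F) (g : GQ) : End F (ι → F) := (a g).mulVecLin

theorem rp (h : Ga a T) : Rp (Iu ⊤ T) ⊤ (rr a) :=
  ⟨by rw [rr, map_one]; exact mulVecLin_one, fun g _ j _ => by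
    rw [rr, map_mul]; exact mulVecLin_mul _ _, _, iu_core inferInstance h.opn fun g m => h.unr g m.2,
      fun w _ m => by rw [rr, show a w = 1 from a.ker.normalCore_le m]; exact mulVecLin_one⟩

variable (a ε D)

/-- the invariants modulo `Y ^ 2` -/
def W2 : Submodule F ((ι → F) × (ι → F)) where
  carrier := {p | ∀ g ∈ D, a g *ᵥ p.1 = p.1 ∧ a g *ᵥ (p.2 - ε g • p.1) = p.2}
  add_mem' {p q} h k g m := ⟨by rw [Prod.fst_add, mulVec_add, (h g m).1, (k g m).1], by
    rw [Prod.fst_add, Prod.snd_add, smul_add, add_sub_add_comm, mulVec_add, (h g m).2, (k g m).2]⟩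
  zero_mem' g _ := by simp
  smul_mem' c p h g m := ⟨by rw [Prod.smul_fst, mulVec_smul, (h g m).1], by
    rw [Prod.smul_fst, Prod.smul_snd, smul_comm, ← smul_sub, mulVec_smul, (h g m).2]⟩

/-- the connecting map -/
def ps : ((ι → F) × (ι → F)) × (ι → F) →ₗ[F] GQ → ι → F where
  toFun p g := a g *ᵥ (p.2 - (2 * ε g) • p.1.2 + ε g ^ 2 • p.1.1) - p.2
  map_add' p q := funext fun g => by
    simp only [Prod.fst_add, Prod.snd_add, Pi.add_apply, mulVec_add, mulVec_sub, smul_add]; abel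
  map_smul' c p := funext fun g => by
    simp only [Prod.smul_fst, Prod.smul_snd, Pi.smul_apply, mulVec_add, mulVec_sub, mulVec_smul,
      smul_add, smul_sub, smul_comm c, RingHom.id_apply]

/-- the local condition -/
def Lc : Submodule F (GQ → ι → F) := ((W2 a ε D).comap (.fst _ _ _)).map (Cn.ind D ∘ₗ ps a ε)

variable {a ε D}

theorem lc_ls {x : GQ → ι → F} (h : Cn.ind (k := F) D x ∈ Lc a ε D) : Ls a ε D x := by
  obtain ⟨p, m, e⟩ := h
  refine ⟨p.1.1, p.1.2, p.2, fun g d => ⟨(m g d).1, (m g d).2, ?_⟩⟩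
  simpa [Cn.ind, d, ps] using (congrFun e g).symm

theorem lc_le (o : IsOpen (a.ker : Set GQ)) (h : Ad ε) : Lc a ε D ≤ Z1 ∅ D (rr a) := by
  rintro _ ⟨⟨⟨u, v⟩, w⟩, m, rfl⟩
  obtain ⟨U, oU, e⟩ := h.opn
  obtain ⟨W, l, le⟩ := ex_lv' (H := a.ker ⊓ U) (o.inter oU)
  refine ⟨fun g d j d' => ?_, fun g d => by simp [Cn.ind, d], W, l, fun g d n => ?_⟩
  · have e2 : a j *ᵥ v = v + ε j • u := by
      rw [← sub_eq_iff_eq_add, ← show a j *ᵥ u = u from (m j d').1, ← mulVec_smul, ← mulVec_sub]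
      exact (m j d').2
    simp only [Cn.ind, ps, d, d', mul_mem d d', LinearMap.comp_apply, LinearMap.coe_mk, AddHom.coe_mk,
      Set.indicator_of_mem, SetLike.mem_coe, mulVecLin_apply, map_mul, ← mulVec_mulVec, h.add,
      mulVec_add, mulVec_sub, mulVec_smul, e2, show a j *ᵥ u = u from (m j d').1]
    module
  · simp [Cn.ind, ps, d, show a g = 1 from (le n).1, e g (le n).2]

theorem lc_rk (c : Fintype.card ι ≤ 2) (h : ∃ g ∈ D, ε g ≠ 0) :
    Module.rank F (ι → F) ≤ rk (Lc a ε D) := by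
  obtain ⟨g, d, e⟩ := h
  have k := (rk_map (Cn.ind D ∘ₗ ps a ε) _).trans (rk_fst (Y := ι → F) (W2 a ε D))
  refine can (Module.rank_lt_aleph0 F (W2 a ε D)) ((add_comm _ _).trans_le
    (k.ge.trans (add_le_add_right ?_ _)))
  set K := (W2 a ε D).comap (LinearMap.fst F _ (ι → F)) ⊓ LinearMap.ker (Cn.ind D ∘ₗ ps a ε)
  have z {p} (m : p ∈ K) j (d : j ∈ D) :
      a j *ᵥ (p.2 - (2 * ε j) • p.1.2 + ε j ^ 2 • p.1.1) = p.2 := by
    simpa [Cn.ind, d, ps, sub_eq_zero] using congrFun m.2 j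
  have u0 {p} (m : p ∈ K) : p.1.1 = 0 := by
    obtain ⟨⟨u, v⟩, w⟩ := p
    by_contra n
    have e1 : a g *ᵥ u = u := (m.1 g d).1
    have e2 : a g *ᵥ v = v + ε g • u := by
      rw [← sub_eq_iff_eq_add, ← e1, ← mulVec_smul, ← mulVec_sub]; exact (m.1 g d).2
    have e3 : a g *ᵥ w = w + (2 * ε g) • v + ε g ^ 2 • u := by
      have := z m g d
      simp only [mulVec_add, mulVec_sub, mulVec_smul, e1, e2] at this
      linear_combination (norm := module) this
    have := (Fintype.linearIndependent_iff (R := F) (v := ![u, v, w])).2 (fun s q => by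
      simp only [Fin.sum_univ_three, cons_val_zero, cons_val_one, cons_val] at q
      have q1 := congrArg (a g *ᵥ ·) q
      simp only [mulVec_add, mulVec_smul, e1, e2, e3, mulVec_zero] at q1
      have q2 := congrArg (a g *ᵥ ·) q1
      simp only [mulVec_add, mulVec_smul, e1, e2, e3, mulVec_zero] at q2
      have s2 : s 2 = 0 := by
        have : (s 2 * (2 * ε g ^ 2)) • u = 0 := by
          linear_combination (norm := module) q2 - (2 : F) • q1 + q
        simpa [n, e, two_ne] using this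
      have s1 : s 1 = 0 := by
        have : (s 1 * ε g) • u = 0 := by
          rw [s2] at q q1
          linear_combination (norm := module) q1 - q
        simpa [n, e] using this
      intro i
      fin_cases i
      exacts [by simpa [s1, s2, n] using q, s1, s2]) |>.fintype_card_le_finrank
    rw [finrank_fintype_fun_eq_card, Fintype.card_fin] at this
    omega
  let θ : ((ι → F) × (ι → F)) × (ι → F) →ₗ[F] (ι → F) × (ι → F) :=
    ((2 : F) • (.snd _ _ _ ∘ₗ .fst _ _ _)).prod (.snd _ _ _)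
  rw [← rk_map θ K, show K ⊓ LinearMap.ker θ = ⊥ from (Submodule.eq_bot_iff _).2 fun p m => by
    obtain ⟨e1, e2⟩ := Prod.mk.inj m.2
    exact Prod.ext (Prod.ext (u0 m.1) ((smul_eq_zero.1 e1).resolve_left two_ne)) e2, rk, rk,
    rank_bot, add_zero]
  refine Submodule.rank_mono ?_
  rintro _ ⟨p, m, rfl⟩ j d
  have e1 := (m.1 j d).2
  have e2 := z m j d
  simp only [LinearMap.fst_apply, u0 m, smul_zero, sub_zero, add_zero] at e1 e2
  exact ⟨show a j *ᵥ (2 : F) • p.1.2 = (2 : F) • p.1.2 by rw [mulVec_smul, e1],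
    show a j *ᵥ (p.2 - ε j • (2 : F) • p.1.2) = p.2 by rw [smul_smul, mul_comm, e2]⟩

theorem dec_gz {l : ℕ} {P : Ideal (𝓞 Qb)} {φ : GQ} (o : Ov l P) (f : Fb l P φ) (e : l % pp = 1) :
    dec P ≤ Gz pp :=
  have n : l ≠ pp := fun k => by simp [k] at e
  P004S.lt.dec_le o f Gz_open (mem_Gz'.2 (by
    rw [P014T.Dr.root_cong o (fun d => n ((Nat.prime_dvd_prime_iff_eq o.1 pp_prime).1 d)) f zt_pow,
      pow_eq_pow_mod l zt_pow, e, pow_one])) fun i => inert_gz o n

/-- split primes -/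
theorem sp_rk {pl : Pl} {l : ℕ} (h : Ga a T) (s : Sp a pl l) :
    rk (Z1 ∅ (⊤ ⊓ dec (pl.P l)) (rr a)) = 2 * Module.rank F (ι → F) := by
  have z := dec_gz (pl.ov l s.pr) (pl.fb l s.pr) s.md
  have r : Rp ∅ (⊤ ⊓ dec (pl.P l)) (rr a) := (rp h).mono (Set.empty_subset _) le_top
  have t : ∀ g ∈ ⊤ ⊓ dec (pl.P l), rr a g = 1 := fun g m => by
    rw [rr, s.one g m.2]; exact mulVecLin_one
  rw [lpc pp F _ ⊤ (Gz pp) l _ _ isOpen_univ Gz_open le_rfl (pl.ov l s.pr) ⟨inferInstance, r,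
      pr0 _ _ _ _ _ _ _ r (by
        rw [Subgroup.relIndex_eq_one.2 (inf_le_right.trans z), Nat.cast_one]; exact one_ne_zero),
      fun g _ u m => Gz_normal.conj_mem u m g, le_of_open Gz_open _, fun u m _ => t u m, mu_om _ _,
      fun u _ m => (om_eq_one _).2 m⟩, if_neg fun k => by simpa [k] using s.md,
    show G2.Hm _ (rr a) (om pp F) = ⊤ from top_unique fun f _ g m n => by
      rw [t g m, (om_eq_one _).2 (z m.2), one_mul]; rfl, rk, rank_top, two_mul,
    ← (Pi.basisFun F ι).toDualEquiv.rank_eq]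
  simp

end Lb

open Lb

variable [Pp]

theorem lbd : LBD := by
  intro ι _ _ a ε pl T L k c2 h h2 pr ⟨φ, hk⟩ ad n hL rel
  have pr' : ∀ l ∈ T ∪ L, l.Prime := fun l m =>
    (Finset.mem_union.1 m).elim (pr l) fun m => (hL l m).2.pr
  have r : Rp (Iu ⊤ (T ∪ L : Finset ℕ)) ⊤ (rr a) := (rp h).mono (iu_mono Finset.subset_union_left) le_rfl
  let y : Option ↥(T ∪ L) → Plc := fun i => i.elim (ip (.mk φ)) fun l => fp (pl.P l)
  have o := fun l : ↥(T ∪ L) => pl.ov l (pr' _ l.2)
  have k1 := Pq.core (y := y) (Finset.mem_union_left L h2) pr' inferInstance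
    (by rwa [finrank_fintype_fun_eq_card]) r (by
      rintro (_ | l)
      exacts [mem_ab_ip.2 (Set.mem_insert _ _), mem_ab_fp.2 ⟨l, .inr l.2, o l⟩]) (by
      rintro (_ | l) (_ | l') g e
      exacts [rfl, (nomatch e), (nomatch e), congrArg some (Subtype.ext (GW.Pl.ov_uniq
        (GW.ov_smul (o l) g) ((Sum.inl.inj e).subst (o l'))))]) ⟨none, _, rfl⟩
    (.inl ((Submodule.eq_bot_iff _).2 fun f hf => by
      have := rel (fun i => f (Pi.single i 1)) fun x => funext fun i => by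
        have := hf x trivial (Pi.single i 1)
        rw [Pi.smul_apply, smul_eq_mul, show wz x = om pp F x from (ZMod.cast_id _ _).symm, ← this,
          pi_eq_sum_univ' (Matrix.mulVecLin _ _), map_sum]
        simp [Matrix.vecMul, dotProduct, mul_comm]
      exact LinearMap.pi_ext' fun i => LinearMap.ext_ring (congrFun this i)))
  let M : Option ↥(T ∪ L) → Submodule F (GQ → ι → F) := fun i => i.elim ⊥ fun l =>
    if l.1 ∈ L then Z1 ∅ (⊤ ⊓ St (fp (pl.P l))) (rr a) else Lc a ε (⊤ ⊓ St (fp (pl.P l)))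
  have k2 := many Finset.univ (Z1 (Iu ⊤ (T ∪ L : Finset ℕ)) ⊤ (rr a)) (fun i => Cn.ind (⊤ ⊓ St (y i) :))
    (A := fun i => Z1 ∅ (⊤ ⊓ St (y i)) (rr a)) (L := M) (by
      rintro (_ | l)
      · exact bot_le
      · show ite _ _ _ ≤ _
        split_ifs
        exacts [le_rfl, lc_le h.opn ad]) fun i x m => Z1.res m (Set.empty_subset _) le_top
  have f := Pq.fin_z isOpen_univ pr' inferInstance r
  have k3 : ((∑ l : ↥(T ∪ L), if l.1 ∈ L then 2 else 1 : ℕ) : Cardinal) * Module.rank F (ι → F) ≤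
      ∑ i, rk (M i) := by
    rw [Fintype.sum_option, Nat.cast_sum, Finset.sum_mul]
    refine le_add_left (Finset.sum_le_sum fun l _ => ?_)
    show _ ≤ rk (ite _ _ _)
    rw [st_fp]
    split_ifs with e
    · exact (sp_rk h (hL _ e).2).ge
    · obtain ⟨g, m, q⟩ := n l ((Finset.mem_union.1 l.2).resolve_right e)
      rw [Nat.cast_one, one_mul]
      exact lc_rk c2 ⟨g, ⟨trivial, m⟩, q⟩
  have k4 : (∑ l : ↥(T ∪ L), if l.1 ∈ L then 2 else 1 : ℕ) + 1 = ∑ i, Pq.wt (y i) + L.card := by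
    have e (p : Prop) [Decidable p] : (if p then 2 else 1 : ℕ) = 1 + if p then 1 else 0 := by
      split_ifs <;> rfl
    simp only [Fintype.sum_option, y, Option.elim, Pq.wt_ip, fun l => Pq.wt_fp (o l), e]
    rw [Finset.sum_coe_sort _ fun l => 1 + if l ∈ L then 1 else 0,
      Finset.sum_coe_sort _ fun l => 1 + if l = pp then 1 else 0]
    simp [Finset.sum_add_distrib, h2]
    omega
  have le : Sd a ε pl T (T ∪ L) k ≤ Z1 (Iu ⊤ (T ∪ L : Finset ℕ)) ⊤ (rr a) :=
    fun x ⟨⟨x1, ⟨U, oU, x2⟩, x3, _⟩, _⟩ => by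
      obtain ⟨W, l, le⟩ := ex_lv' oU
      exact Z1.mono (Hb.z1_up (J := ∅) (Le.self _ _) r ⟨fun g _ j _ => x1 g j,
        fun g m => (m trivial).elim, W, l, fun w _ m => x2 w (le m)⟩ x3) fun g m => m.2
  have k5 := Submodule.rank_mono (show Z1 (Iu ⊤ (T ∪ L : Finset ℕ)) ⊤ (rr a) ⊓ ⨅ i ∈ Finset.univ,
      (M i).comap (Cn.ind (⊤ ⊓ St (y i) :)) ≤ Sd a ε pl T (T ∪ L) k from fun x ⟨⟨x1, _, W, l, x2⟩, m⟩ => by
    simp only [SetLike.mem_coe, Submodule.mem_iInf] at m
    refine ⟨⟨fun g j => x1 g trivial j trivial, ⟨W, l.opn, fun w => x2 w trivial⟩,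
      fun g i => x2 g trivial (l.sub ⟨trivial, i⟩), ?_⟩, fun v e => ?_⟩
    · exact (Set.indicator_of_mem (show k ∈ (⊤ ⊓ St (y none) :) from
        ⟨trivial, (st_conj hk).ge (.inr rfl)⟩) x).symm.trans (congrFun (m none (by simp)) k)
    · have := m (some ⟨v, Finset.mem_union_left _ e⟩) (by simp)
      simp only [M, y, Option.elim, if_neg fun c => (hL v c).1 e, st_fp, top_inf_eq] at this
      exact lc_ls this)
  have := Module.rank_lt_aleph0_iff.1 ((Submodule.rank_mono le).trans_lt f)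
  rw [← Nat.cast_le (α := Cardinal), finrank_eq_rank, Nat.cast_mul, ← rank_fun' (R := F)]
  have fn := Module.rank_lt_aleph0 F (ι → F)
  have fw := mul_lt_aleph0 (natCast_lt_aleph0 (n := ∑ i, Pq.wt (y i))) fn
  have fa := ((le_add_left le_rfl).trans (le_self_add.trans k1)).trans_lt (add_lt_aleph0 f fw)
  refine can (add_lt_aleph0 fa fw) ?_
  have k6 := congrArg (fun m : ℕ => (m : Cardinal) * Module.rank F (ι → F)) k4
  simp only [Nat.cast_add, add_mul, Nat.cast_one, one_mul] at k6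
  generalize ((∑ i, Pq.wt (y i) : ℕ) : Cardinal) * Module.rank F (ι → F) = w,
    ∑ i, rk (Z1 ∅ (⊤ ⊓ St (y i)) (rr a)) = s at *
  calc _ = s + (w + (L.card : Cardinal) * Module.rank F (ι → F)) := by ring
    _ = s + Module.rank F (ι → F) + _ := by rw [← k6, add_comm _ (Module.rank _ _), add_assoc]
    _ ≤ _ := add_le_add ((add_le_add_left (le_add_left le_rfl) _).trans k1) k3
    _ = _ + _ + _ := add_right_comm _ _ _
    _ ≤ _ := add_le_add_left (k2.trans (add_le_add_left k5 _)) _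
    _ = _ := add_assoc _ _ _

end Vale.Agent.P014U.Mu
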