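import Vale.Agent.P014U.Mu.Ort
import Vale.Agent.P014U.G2.Lib

/-! # P014U, block MU: reciprocity (helper24) -/

set_option linter.all false

noncomputable section

namespace Vale.Agent.P014U.Mu

open Matrix NumberField
open Vale.Agent.P022 (GQ Qb)
open Vale.Agent.P027M.S (Inert)
open Vale.Agent.P022D.W (dec inP_le_dec)
open Vale.Agent.P022K Vale.Agent.P022K.G2

variable [Pp] {ι : Type} [Fintype ι] [DecidableEq ι] {J : Matrix ι ι F}
  {a a' : GQ →* Matrix ι ι F} {T T' : Finset ℕ} {k k' : GQ} {x y : GQ → ι → F}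

/-- the real place -/
theorem b2_ip {z : GQ → GQ → F} (w : InfinitePlace Qb) (hz : z ∈ Z2 ∅ ⊤ (ch (om pp F))) :
    z ∈ B2 ∅ (⊤ ⊓ St (ip w)) (ch (om pp F)) := by
  obtain ⟨c, -, cc, h, -⟩ := ex_cc w
  refine ⟨fun g => 2⁻¹ * (z g 1 + z g c), hz.2.imp fun W hW => ⟨hW.1, fun g _ j _ m => by
    simp only [(hW.2 g trivial _ trivial j trivial m).1]⟩, fun g _ j hj => ?_⟩
  have e1 := hz.1 g trivial j trivial 1 trivial
  have e2 := hz.1 g trivial j trivial c trivial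
  rw [d1_apply]
  simp only [ch_apply] at e1 e2 ⊢
  refine mul_left_cancel₀ two_ne ?_
  have i : (2 : F) * 2⁻¹ = 1 := mul_inv_cancel₀ two_ne
  rcases (h j).1 hj.2 with rfl | rfl <;> simp only [mul_one, one_mul, cc] at e1 e2 ⊢
  · linear_combination -e1 - e2 - (om pp F g * (z 1 1 + z 1 c)) * i
  · linear_combination -e1 - e2 -
      (om pp F g * (z j 1 + z j j) - (z (g * j) 1 + z (g * j) j) + (z g 1 + z g j)) * i

theorem cu_z2 (d : Du J a a') (o : IsOpen (a'.ker : Set GQ)) (hx : x ∈ Z0 a T k)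
    (hy : y ∈ Z0 a' T' k') : Cu J a' x y ∈ Z2 ∅ ⊤ (ch (om pp F)) := by
  obtain ⟨x1, ⟨U, oU, x2⟩, -⟩ := hx
  obtain ⟨y1, ⟨V, oV, y2⟩, -⟩ := hy
  obtain ⟨W, hW, le⟩ := ex_lv ((o.inter oU).inter oV)
    (show (1 : GQ) ∈ _ from ⟨⟨a'.ker.one_mem, U.one_mem⟩, V.one_mem⟩)
  refine ⟨fun g _ h _ j _ => ?_, W, hW, fun g _ h _ w _ m => ?_⟩
  · simp only [Cu, ch_apply, om_wz]
    rw [← d.pair, x1 g h, y1 h j, map_mul, ← mulVec_mulVec]
    simp only [mulVec_add, add_dotProduct, dotProduct_add]; ring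
  · simp only [Cu]
    rw [x1, y1, x2 w (le m).1.2, y2 w (le m).2, map_mul, show a' w = 1 from (le m).1.1]
    simp

theorem rcp : RCP := by
  intro ι _ _ J a a' pl T L k d ga ga' hp pr _ hL x hx y hy hT
  rcases isEmpty_or_nonempty ι with _ | _
  · simp [dotProduct]
  have z2 := cu_z2 d ga'.opn hx hy
  obtain ⟨x1, ⟨U, oU, x2⟩, x3, -⟩ := hx
  obtain ⟨y1, ⟨V, oV, y2⟩, y3, -⟩ := hy
  obtain ⟨W, hW, le⟩ := ex_lv (oU.inter oV) (show (1 : GQ) ∈ _ from ⟨U.one_mem, V.one_mem⟩)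
  have ov : ∀ l : L, P022E.GW.Ov l (pl.P l) := fun l => pl.ov _ (hL _ l.2).2.1.pr
  have ne : ∀ l : L, (l : ℕ) ≠ pp := fun l e => (hL _ l.2).1 (e ▸ hp)
  have tm : ∀ l : L, Tm pp (⊤ ⊓ Gz pp) l (pl.P l) (pl.σ l) := fun l =>
    ⟨ov l, ne l, pl.fb _ (ov l).1, fun g m => ⟨trivial, (om_eq_one F).1 (by
      have := d.eq g
      rw [(hL _ l.2).2.1.one g m, (hL _ l.2).2.2.one g m, transpose_one, one_mul, mul_one,
        eq_comm, ← sub_eq_zero, ← one_smul F J, smul_smul, ← sub_smul, smul_eq_zero] at this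
      rw [om_wz]
      simpa [sub_eq_zero] using this.resolve_right (by simpa using d.un.ne_zero))⟩⟩
  let ka' : L → GQ → F := fun l g => ZMod.castHom (dvd_refl pp) F (ka pp l g)
  let u : L → GQ → F := fun l g => x g ⬝ᵥ J *ᵥ y (pl.τ l)
  have := G2.one2 F ⊤ _ L (fun l => l) (fun l => pl.P l) (fun l => pl.σ l) u ka' (fun _ => 1)
    isOpen_univ z2 tm (fun i j g _ e => Subtype.ext ?_) (fun l => ?_) fun z hz nz => ?_
  · simpa [u, ← Finset.sum_coe_sort L] using this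
  · exact (Nat.prime_dvd_prime_iff_eq (ov i).1 (ov j).1).1 (by
      exact_mod_cast P004S.ov_dvd (GW.ov_smul (ov i) g) (a := (j : ℕ)) (by
        simpa [← e] using (ov j).2.2))
  · obtain ⟨nT, s, s'⟩ := hL _ l.2
    have ii : ∀ g, Inert (pl.P l) g → g ∈ In (T : Set ℕ) := fun g hg => ⟨l, nT, _, ov l, hg⟩
    have ck : Ch (dec (pl.P l)) (ka' l) := Hb.ka_dec (tm l)
    have cu : Ch (dec (pl.P l)) (u l) := ⟨fun g hg h _ => by
      simp only [u]; rw [x1, s.one g hg, one_mulVec, add_dotProduct], W, hW, fun w _ m => by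
      simp only [u]; rw [x2 w (le m).1, zero_dotProduct]⟩
    obtain ⟨n, hn⟩ := (tam pp _ _ (ov l) (ne l)).2.2 F _ y (fun g h hg _ => by
      rw [y1, s'.one g (inP_le_dec hg), one_mulVec]) ⟨W, hW, fun w m _ => y2 w (le m).2⟩
    obtain ⟨t1, t2⟩ := pl.gn _ (ov l).1 (ne l)
    obtain rfl : y (pl.τ l) = n := by rw [hn _ t1, t2, map_one, one_smul]
    have co : ∀ g ∈ ⊤ ⊓ dec (pl.P l), ch (om pp F) g = tr GQ F g := fun g hg =>
      ch_om F ((tm l).le hg.2).2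
    refine ⟨cu, ck, fun g hg => ⟨by simp only [u]; rw [x3 g (ii g hg), zero_dotProduct],
      (mul_one _).symm⟩, ?_⟩
    refine B2.congr (B2.mono (G2.unt_two F ⊤ _ _ (Cu J a' x y - cup (u l) (ka' l)) isOpen_univ
      (ov l) (sub_mem (Z2.mono z2 subset_rfl inf_le_left) (Z2.congr
        (Z2.mono (cup_z2 cu ck) subset_rfl inf_le_right) (fun _ _ _ _ => rfl) co))
      fun g hg h hh i _ m => ?_) subset_rfl (le_inf le_top le_rfl)) (fun _ _ _ _ => rfl)
      fun g hg => (co g ⟨trivial, hg⟩).symm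
    have mi := inP_le_dec m
    simp only [Pi.sub_apply, cup, Cu, u]
    rw [x1, x3 i (ii i m), s'.one _ (mul_mem hg.2 mi), s'.one g hg.2, y1, s'.one h hh.2, hn i m,
      ck.1 h hh.2 i mi]
    simp only [mulVec_zero, add_zero, one_mulVec, mulVec_add, mulVec_smul, dotProduct_add,
      dotProduct_smul, smul_eq_mul, ka', true_and]
    ring
  · rcases hz with ⟨q, -, Q, o, rfl⟩ | ⟨-, w, rfl⟩
    swap
    · exact b2_ip w z2
    rw [st_fp]
    by_cases m : q ∈ T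
    · obtain ⟨g, rfl⟩ := GW.Pl.ov_trans (pl.ov q o.1) o
      exact cj2 _ _ _ _ ⊤ _ _ _ _ g (rp_om _ _) z2 trivial le_top
        (fun s => by rw [top_inf_eq]; exact G2.On.dec_cj g s _) (hT q m)
    have nL : q ∉ L := fun n => by
      obtain ⟨g, e⟩ := GW.Pl.ov_trans (pl.ov q o.1) o
      exact nz ⟨q, n⟩ g trivial (by rw [← e, smul_fp])
    refine G2.unt_two F ⊤ q Q _ isOpen_univ o (Z2.mono z2 subset_rfl inf_le_left)
      fun g hg h hh i _ n => ?_
    simp only [Cu]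
    rw [x1, y1, x3 i ⟨q, m, Q, o, n⟩, y3 i ⟨q, by simp [m, nL], Q, o, n⟩, map_mul,
      ga'.unr i ⟨q, m, Q, o, n⟩]
    simp

end Vale.Agent.P014U.Mu
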