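import Vale.Agent.P014U.Mu.St
import Vale.Agent.P022K.G2.Hb

/-! # P014U, block MU: local orthogonality (helper24) -/

set_option linter.all false

noncomputable section

namespace Vale.Agent.P014U.Mu

open Matrix
open Vale.Agent.P022 (GQ)
open Vale.Agent.P022K.G2 (om B2 ch Lv ex_lv d1_apply ch_apply)

variable [Pp] {ι : Type} [Fintype ι] [DecidableEq ι] {J : Matrix ι ι F}
  {a a' : GQ →* Matrix ι ι F}

theorem om_wz (g : GQ) : om pp F g = wz g := by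
  rw [om, ZMod.castHom_self]; rfl

theorem Du.pair (d : Du J a a') (g : GQ) (s t : ι → F) :
    (a g *ᵥ s) ⬝ᵥ J *ᵥ (a' g *ᵥ t) = wz g * (s ⬝ᵥ J *ᵥ t) := by
  rw [← vecMul_transpose, ← dotProduct_mulVec, mulVec_mulVec, mulVec_mulVec, d.eq, smul_mulVec,
    dotProduct_smul, smul_eq_mul]

theorem dot_tr (s t : ι → F) : s ⬝ᵥ Jᵀ *ᵥ t = t ⬝ᵥ J *ᵥ s := by
  rw [mulVec_transpose, dotProduct_comm, ← dotProduct_mulVec]

theorem ort : ORT := by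
  intro ι _ _ J a a' ε D x y z w d o ⟨ad, U', o', e'⟩ ⟨c0, c1, c2, U, oU, eU⟩ ⟨u, v, m, h⟩
  obtain ⟨W, hW, le⟩ := ex_lv ((o.inter o').inter oU)
    (show (1 : GQ) ∈ _ from ⟨⟨a'.ker.one_mem, U'.one_mem⟩, U.one_mem⟩)
  have k : ∀ g ∈ D, ∀ j ∈ D, j ∈ W → x (g * j) = x g ∧ y (g * j) = y g ∧ z (g * j) = z g ∧
      w (g * j) = w g := fun g s j t n => by
    obtain ⟨p0, p1, p2⟩ := eU j t (le n).2
    rw [c0 g s j t, c1 g s j t, c2 g s j t, p0, p1, p2, (h _ (mul_mem s t)).2.2, (h g s).2.2, ad,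
      e' j (le n).1.2, map_mul, show a' j = 1 from (le n).1.1]
    simp
  have pu : ∀ g ∈ D, ∀ s, (a g *ᵥ s) ⬝ᵥ J *ᵥ u = wz g * (s ⬝ᵥ J *ᵥ u) := fun g t s => by
    rw [← d.pair, (h g t).1]
  have pv : ∀ g ∈ D, ∀ s, (a g *ᵥ s) ⬝ᵥ J *ᵥ v = wz g * (s ⬝ᵥ J *ᵥ (v - ε g • u)) :=
    fun g t s => by rw [← d.pair, (h g t).2.1]
  have b2 : Cu Jᵀ a w x ∈ B2 ∅ D (ch (om pp F)) := by
    refine ⟨fun g => x g ⬝ᵥ J *ᵥ m + 2 * (y g ⬝ᵥ J *ᵥ v) + z g ⬝ᵥ J *ᵥ u,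
      ⟨W, hW, fun g s j t n => ?_⟩, fun g s j t => ?_⟩
    · obtain ⟨p0, p1, p2, -⟩ := k g s j t n
      simp only [p0, p1, p2]
    rw [d1_apply, ch_apply, om_wz, Cu, dot_tr, (h g s).2.2, mulVec_sub, dotProduct_sub, d.pair,
      c0 g s j t, c1 g s j t, c2 g s j t]
    simp only [add_dotProduct, pu g s, pv g s, mulVec_add, mulVec_sub, mulVec_smul, dotProduct_add,
      dotProduct_sub, dotProduct_smul, smul_dotProduct, smul_eq_mul]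
    ring
  refine ⟨?_, b2⟩
  have cw : ∀ g ∈ D, ∀ j ∈ D, w (g * j) = w g + a' g *ᵥ w j := fun g s j t => by
    obtain ⟨p0, p1, p2⟩ := h j t
    rw [mulVec_sub, mulVec_smul, p0, sub_eq_iff_eq_add] at p1
    rw [(h _ (mul_mem s t)).2.2, (h g s).2.2, p2, map_mul, ← mulVec_mulVec, ad]
    simp only [mulVec_add, mulVec_sub, mulVec_smul, p0, p1]
    module
  obtain ⟨c, ⟨V, hV, f⟩, hc⟩ := b2
  refine ⟨fun g => -(c g + x g ⬝ᵥ J *ᵥ w g), ⟨V ⊓ W, hV.inf hW, fun g s j t n => ?_⟩,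
    fun g s j t => ?_⟩
  · simp only [f g s j t n.1, (k g s j t n.2).1, (k g s j t n.2).2.2.2]
  have := hc g s j t
  rw [d1_apply, ch_apply, om_wz, Cu, dot_tr] at this
  rw [d1_apply, ch_apply, om_wz, Cu, c0 g s j t, cw g s j t]
  simp only [mulVec_add, add_dotProduct, dotProduct_add, d.pair]
  linear_combination -this

end Vale.Agent.P014U.Mu
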