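import Vale.Agent.P014U.Mu.Cnt
import Vale.Agent.P014U.Mu.Ort

/-! # P014U, block MU: the three cases (helper24) -/

set_option linter.all false

noncomputable section

namespace Vale.Agent.P014U.Mu

open Matrix
open Vale.Agent.P022 (GQ)
open Vale.Agent.P004F (M2)
open X4S (wp Pl)

variable [Pp] {r : GQ →* M2 ℤ_[pp]} {S : Finset ℕ} {pl : Pl}

theorem Out.imp {P Q : Finset ℕ → (GQ → ℕ) → ℕ → Prop} (h : Out r S pl P) (f : ℕ → ℕ)
    (e : ∀ T x B, P T x B → Q T x (f B)) : Out r S pl Q := by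
  obtain ⟨m, B, h⟩ := h
  refine ⟨m, f B, fun n E hn => ?_⟩
  obtain ⟨c, x, a1, a2, a3, a4⟩ := h n E hn
  exact ⟨c, x, a1, a2, a3, e _ _ _ a4⟩

theorem Rep.rb_det (h : Rep r S) (g : GQ) : (rb r g).det = wz g := by
  have := RingHom.map_det PadicInt.toZMod (r g)
  rw [h.det, X4S.Aq.cz_om] at this
  exact this.symm.trans (om_wz g)

theorem Rep.ga (h : Rep r S) : Ga (rb r) S := by
  refine ⟨?_, fun g ⟨l, a, P, o, i⟩ => ?_⟩
  · refine Subgroup.isOpen_of_mem_nhds _ (g := 1) (Filter.mem_of_superset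
      ((h.lc 1).mem_nhds (by simp)) fun g m => ?_)
    have e : ∀ {R : Type} [CommRing R] (f : ℤ_[pp] →+* R), (r g).map f = 1 ↔
        ∀ i j, (r g - 1) i j ∈ RingHom.ker f := fun f => by
      rw [← Matrix.map_one f (map_zero f) (map_one f), ← ext_iff]
      simp only [map_apply, RingHom.mem_ker, Matrix.sub_apply, map_sub, sub_eq_zero]
    refine (e PadicInt.toZMod).2 fun i j => ?_
    simpa [PadicInt.ker_toZMod, PadicInt.ker_toZModPow, PadicInt.maximalIdeal_eq_span_p] using
      (e _).1 m i j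
  · show (r g).map PadicInt.toZMod = 1
    rw [h.unr l P g o a i]; simp

theorem muq_of (hI : IRR) (hR : RED) (hE : EIS) : MUQ := by
  intro r S pl k h hk
  by_cases ir : Ir (rb r)
  · exact hI r S pl k h hk ir
  simp only [Ir, not_forall] at ir
  obtain ⟨w, hw, w0⟩ := ir
  obtain ⟨i, wi⟩ := Function.ne_iff.1 w0
  let v := (w i)⁻¹ • w
  have vi : v i = 1 := inv_mul_cancel₀ wi
  have hv : ∀ g, rb r g *ᵥ v = (rb r g *ᵥ v) i • v := fun g => by
    obtain ⟨t, e⟩ := hw g
    have : rb r g *ᵥ v = t • v := by rw [mulVec_smul, e, smul_comm]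
    rw [this, Pi.smul_apply, vi, smul_eq_mul, mul_one]
  let θ : GQ →* F := ⟨⟨fun g => (rb r g *ᵥ v) i, by simp [vi]⟩, fun g j => by
    dsimp only
    conv_lhs => rw [map_mul, ← mulVec_mulVec, hv j, mulVec_smul, Pi.smul_apply, smul_eq_mul, mul_comm]⟩
  replace hv : ∀ g, rb r g *ᵥ v = θ g • v := hv
  let θ' : GQ →* F := ⟨⟨fun g => wz g * θ g⁻¹, by simp⟩, fun g j => by
    simp only [map_mul, _root_.mul_inv_rev]; ring⟩
  have e : ∀ g, θ g * θ' g = wz g := fun g => by
    show θ g * (wz g * θ g⁻¹) = _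
    rw [mul_left_comm, ← map_mul, mul_inv_cancel, map_one, mul_one]
  have hw : ∀ g x, wp v (rb r g *ᵥ x) = θ' g * wp v x := fun g x => by
    have := wp_mv (rb r g) v x
    rw [hv, h.rb_det, ← e] at this
    refine mul_left_cancel₀ ((Group.isUnit g).map θ).ne_zero ?_
    simp only [wp, Pi.smul_apply, smul_eq_mul] at this ⊢
    linear_combination this
  by_cases c : θ = 1
  · have c' : θ' = wz := MonoidHom.ext fun g => by simpa [c] using e g
    exact (hE r S pl k h hk).imp (fun B => B + B) fun T x B b =>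
      two_step vi hv hw (c ▸ b.1) (c' ▸ b.2)
  by_cases c' : θ' = 1
  · have c : θ = wz := MonoidHom.ext fun g => by simpa [c'] using e g
    exact (hE r S pl k h hk).imp (fun B => B + B) fun T x B b =>
      two_step vi hv hw (c ▸ b.2) (c' ▸ b.1)
  have k1 : ∀ g, rb r g = 1 → ln θ g = 1 := fun g m => by
    have := congrFun (hv g) i
    rw [m, one_mulVec, Pi.smul_apply, vi, smul_eq_mul, mul_one] at this
    simp [ln, ← this]
  refine (hR r S pl k θ θ' h hk (MonoidHom.ext e) ⟨Subgroup.isOpen_mono (fun g m => k1 g m)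
    h.ga.opn, fun g m => k1 g (h.ga.unr g m)⟩ (fun u m => ?_) c c').imp (fun B => B + B)
    fun T x B b => two_step vi hv hw b.1 b.2
  have := congrFun (congrArg (· *ᵥ v) m) i
  simp only [sq, ← mulVec_mulVec, sub_mulVec, mulVec_sub, one_mulVec, hv, mulVec_smul, zero_mulVec,
    Pi.sub_apply, Pi.smul_apply, vi, smul_eq_mul, Pi.zero_apply] at this
  exact sub_eq_zero.1 (pow_eq_zero_iff two_ne_zero |>.1 (by linear_combination this))

end Vale.Agent.P014U.Mu
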