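import Vale.Agent.P014U.Mu.Step
import Vale.Agent.P014U.Mu.Top

/-! # P014U, block MU: two characters (helper24) -/

set_option linter.all false

noncomputable section

namespace Vale.Agent.P014U.Mu

open Matrix Module
open Vale.Agent.P022 (GQ IsConj)
open Vale.Agent.P022K.G2 (Gz_open inert_gz)
open Vale.Agent.P004F (M2)
open X4S (Pl)
open Dr (Ha)
open LinearMap (proj)

variable [Pp]

namespace Rd

/-- three homomorphisms which are not zero have a common point -/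
theorem three {V : Type} [AddCommGroup V] [Module F V] {H : Subgroup GQ} {x y z : GQ → V}
    (hx : ∀ g ∈ H, ∀ h ∈ H, x (g * h) = x g + x h) (hy : ∀ g ∈ H, ∀ h ∈ H, y (g * h) = y g + y h)
    (hz : ∀ g ∈ H, ∀ h ∈ H, z (g * h) = z g + z h) (a : ∃ g ∈ H, x g ≠ 0) (b : ∃ g ∈ H, y g ≠ 0)
    (c : ∃ g ∈ H, z g ≠ 0) : ∃ g ∈ H, x g ≠ 0 ∧ y g ≠ 0 ∧ z g ≠ 0 := by
  obtain ⟨g, m, g1, g2⟩ := Sa.both hx hy a b
  obtain ⟨h, n, h3⟩ := c
  by_contra! e
  have z0 := e g m g1 g2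
  have e0 := e h n
  have e1 := e _ (mul_mem m n)
  have e2 := e _ (mul_mem m (mul_mem m n))
  rw [hx g m h n, hy g m h n, hz g m h n, z0, zero_add] at e1
  rw [hx g m _ (mul_mem m n), hy g m _ (mul_mem m n), hz g m _ (mul_mem m n), hx g m h n,
    hy g m h n, hz g m h n, z0, zero_add, zero_add] at e2
  have t : ∀ v w : V, v ≠ 0 → (w = 0 → v + w ≠ 0 ∧ v + (v + w) ≠ 0) ∧
      (v + w = 0 → v + (v + w) ≠ 0) := fun v w v0 => ⟨fun e => by
    rw [e, add_zero, ← two_smul F]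
    exact ⟨v0, smul_ne_zero two_ne v0⟩, fun e => by rwa [e, add_zero]⟩
  have tx := t _ (x h) g1
  have ty := t _ (y h) g2
  tauto

variable {α β : GQ →* F} {S T : Finset ℕ} {k u : GQ} {pl : Pl} {r : GQ →* M2 ℤ_[pp]} {m n c : ℕ}
  {E : Finset ℕ} {e : GQ → ZMod (pp ^ n)}

theorem ln_one {g : GQ} : ln α g = 1 ↔ α g = 1 := by
  simp [ln, ← ext_iff]

theorem du (h : α * β = wz) : Du 1 (ln α) (ln β) :=
  ⟨isUnit_one, fun g => by ext; simp [ln, ← h]⟩

theorem rel (h : α ≠ wz) (v : Unit → F) (e : ∀ g, v ᵥ* ln α g = wz g • v) : v = 0 := by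
  obtain ⟨g, n⟩ := DFunLike.ne_iff.1 h
  have := congrFun (e g) ()
  simp only [ln, vecMul, dotProduct] at this
  exact funext fun _ => by simpa [mul_comm, n] using this

theorem ex_nc {A : Submodule F (GQ → Unit → F)} (h : A ≤ Z0 (ln α) T k)
    (b : finrank F (fx (ln α) k) < finrank F A) : ∃ x ∈ A, ¬ Cb (ln α) x := by
  by_contra! c
  exact (rk_cb h c).not_gt b

theorem fx_one : finrank F (fx (ln α) k) ≤ 1 := (Submodule.finrank_le _).trans (by simp)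

theorem fx_zero (h : α k = -1) : finrank F (fx (ln α) k) = 0 :=
  Submodule.finrank_eq_zero.2 (eq_bot_iff.2 fun v m => funext fun _ => by
    have := congrFun (mem_fx.1 m) ()
    simp only [ln, mulVec, dotProduct] at this
    exact (mul_eq_zero.1 (show 2 * v () = 0 by
      simp [h] at this; linear_combination -this)).resolve_left two_ne)

/-- the rank at a stage -/
def dm (α : GQ →* F) (S : Finset ℕ) (pl : Pl) (k : GQ) (s : ℕ × (GQ → ZMod (pp ^ n))) : ℕ :=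
  finrank F (Sl (ln α) (eb s.2) pl (S ∪ s.1.primeFactors) (S ∪ s.1.primeFactors) k)

/-- one more prime -/
theorem drop (R : Rw) (x : Cx 1 (ln α) (ln β) S k) (y : Sy r pl u m) (hu : u ∈ Ha)
    (au : ln α (u ^ pp) = 1) (sa : Sah (ln α)) (sb : Sah (ln β)) (na : α ≠ wz) (nb : β ≠ wz)
    (od : β k = -1) (h : n ≠ 0) (s : ℕ × (GQ → ZMod (pp ^ n))) (g : Sg r S pl m n E s.1 s.2)
    (d : ¬ (dm α S pl k s ≤ 1 ∧ dm β S pl k s ≤ 1)) : ∃ t : ℕ × (GQ → ZMod (pp ^ n)),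
      Sg r S pl m n E t.1 t.2 ∧ dm α S pl k t - 1 + 2 * (dm β S pl k t - 1) <
        dm α S pl k s - 1 + 2 * (dm β S pl k s - 1) ∧
      t.1.primeFactors.card ≤ s.1.primeFactors.card + 1 := by
  obtain ⟨c, e⟩ := s
  dsimp only at g ⊢
  let T := S ∪ c.primeFactors
  have le : S ⊆ T := Finset.subset_union_left
  have x' : Cx 1 (ln α) (ln β) (S ∪ c.primeFactors) k :=
    ⟨x.du, x.ga.mono le, x.ga'.mono le, le x.two, pr_T x.pr, x.cj⟩
  have bu := x.du.one (hm_gz (uu_ha (n := 0) (T := ∅) hu).1) au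
  have ad := g.tu.ad h
  have gd := g.tu.good (pl := pl) h x.pr
  have key : ∀ p ∈ Z0 (ln α) (S ∪ c.primeFactors) k, ∀ q ∈ Z0 (ln β) (S ∪ c.primeFactors) k,
      ∀ q' ∈ Z0 (ln β) (S ∪ c.primeFactors) k, ¬ Cb (ln α) p → ¬ Cb (ln β) q → ¬ Cb (ln β) q' →
      ∃ t : ℕ × (GQ → ZMod (pp ^ n)), Sg r S pl m n E t.1 t.2 ∧
        t.1.primeFactors.card ≤ c.primeFactors.card + 1 ∧
        dm α S pl k t ≤ dm α S pl k (c, e) + 1 ∧ dm β S pl k t ≤ dm β S pl k (c, e) + 1 ∧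
        (p ∈ Sl (ln α) (eb e) pl T T k → q ∈ Sd (ln β) (eb e) pl T T k →
          dm α S pl k t < dm α S pl k (c, e)) ∧
        (q ∈ Sl (ln β) (eb e) pl T T k → p ∈ Sd (ln α) (eb e) pl T T k →
          dm β S pl k t < dm β S pl k (c, e)) ∧
        (q' ∈ Sl (ln β) (eb e) pl T T k → dm β S pl k t ≤ dm β S pl k (c, e)) := by
    intro p hp q hq q' hq' a1 a2 a3
    have b : ∀ q ∈ Z0 (ln β) (S ∪ c.primeFactors) k, ¬ Cb (ln β) q →
        ∃ g ∈ Uu n (S ∪ c.primeFactors) ⊓ (ln α).ker, q g ≠ 0 := fun q hq a =>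
      (sb.ex x'.pr hq a n).imp fun g b => ⟨⟨b.1, x.du.symm.one (hm_gz b.1.1) b.2.1⟩, b.2.2⟩
    have b' : ∀ q ∈ Z0 (ln β) (S ∪ c.primeFactors) k,
        ∀ g ∈ Uu n (S ∪ c.primeFactors) ⊓ (ln α).ker, ∀ j ∈ Uu n T ⊓ (ln α).ker, q (g * j) = q g + q j :=
      fun q hq g a j _ => by rw [hq.1, x.du.one (hm_gz a.1.1) a.2, one_mulVec]
    obtain ⟨j, j1, j2, j3, j4⟩ := three (fun g a j _ => by
      rw [hp.1, show ln α g = 1 from a.2, one_mulVec]) (b' q hq) (b' q' hq')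
      ((sa.ex x'.pr hp a1 n).imp fun g b => ⟨⟨b.1, b.2.1⟩, b.2.2⟩) (b q hq a2) (b q' hq' a3)
    have j5 := x.du.one (hm_gz j1.1.1) j1.2
    obtain ⟨l, w, sp, σ1, t, ht⟩ := y.nw (a := ![ln α, ln β, ln β]) (x := ![p, q, q']) (k := k) hu
      x'.two x'.pr (fun i => by fin_cases i; exacts [x'.ga, x'.ga', x'.ga'])
      (fun i => by fin_cases i; exacts [au, bu, bu]) (fun i => by fin_cases i; exacts [hp, hq, hq'])
      j1.1 (fun i => by fin_cases i; exacts [j1.2, j5, j5]) E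
    obtain ⟨e', g', T', c1, rm, eq⟩ := R.grow g x.pr h w σ1
    have lT := mt (Finset.mem_union_right E) w.out
    have s1 := R.step x' ad (g'.tu.ad h) lT (sp 0) (sp 1) rm eq
    have s2 := R.step x'.symm ad (g'.tu.ad h) lT (sp 1) (sp 0) rm eq
    have ev : ∀ {A : Submodule F (GQ → Unit → F)} {z}, z ∈ A → z (pl.σ l) ≠ 0 →
        1 ≤ finrank F (A.map (proj (pl.σ l))) := fun a b => one_le (Submodule.mem_map_of_mem a) b
    have v0 : p _ ≠ 0 := (ht 0).trans_ne (mv_ne t j2)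
    have v1 : q _ ≠ 0 := (ht 1).trans_ne (mv_ne t j3)
    have v2 : q' _ ≠ 0 := (ht 2).trans_ne (mv_ne t j4)
    refine ⟨(c * l, e'), g', c1, ?_⟩
    rw [← T'] at s1 s2
    simp only [dm, T, Fintype.card_unit] at s1 s2 ⊢
    refine ⟨by omega, by omega, fun a b => ?_, fun a b => ?_, fun a => ?_⟩
    · have := ev a v0; have := ev b v1; omega
    · have := ev a v1; have := ev b v0; omega
    · have := ev a v2; omega
  by_cases c2 : dm β S pl k (c, e) ≤ 1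
  · have c1 : 1 < dm α S pl k (c, e) := by omega
    obtain ⟨p, p1, p2⟩ := ex_nc sl_le (fx_one.trans_lt c1)
    obtain ⟨q, q1, q2⟩ := R.dual x' y hu au sa (by simp) ad gd (rel nb) c1
    by_cases c3 : dm β S pl k (c, e) = 0
    · obtain ⟨t, t1, t2, -, s2, s3, -⟩ := key p p1.1 q q1.1 q q1.1 p2 q2 q2
      exact ⟨t, t1, by have := s3 p1 q1; omega, t2⟩
    · obtain ⟨z, z1, z2⟩ := ex_nc sl_le ((fx_zero od).trans_lt (Nat.pos_of_ne_zero c3))
      obtain ⟨t, t1, t2, -, -, s3, -, s5⟩ := key p p1.1 q q1.1 z z1.1 p2 q2 z2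
      exact ⟨t, t1, by have := s3 p1 q1; have := s5 z1; omega, t2⟩
  · obtain ⟨q, q1, q2⟩ := ex_nc sl_le (fx_one.trans_lt (not_le.1 c2))
    obtain ⟨p, p1, p2⟩ := R.dual x'.symm y hu bu sb (by simp) ad gd (rel na) (not_le.1 c2)
    obtain ⟨t, t1, t2, s1, -, -, s4, -⟩ := key p p1.1 q q1.1 q q1.1 p2 q2 q2
    exact ⟨t, t1, by have := s4 q1 p1; omega, t2⟩

theorem out (R : Rw) (x : Cx 1 (ln α) (ln β) S k) (y : Sy r pl u m) (hu : u ∈ Ha)
    (au : ln α (u ^ pp) = 1) (sa : Sah (ln α)) (sb : Sah (ln β)) (na : α ≠ wz) (nb : β ≠ wz)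
    (od : β k = -1) : Out r S pl fun T e B => Bd (ln α) k T e B ∧ Bd (ln β) k T e B := by
  obtain ⟨C, hC⟩ := R.fin _ _ S k x.ga x.two x.pr
  obtain ⟨D, hD⟩ := R.fin _ _ S k x.ga' x.two x.pr
  refine ⟨m + (1 + C + 2 * D), 2 * (C + D + (1 + C + 2 * D)), fun n E hn => ?_⟩
  have h : n ≠ 0 := by omega
  obtain ⟨l, e, g, c⟩ := R.first y hu x.two x.pr h E
  obtain ⟨t, t1, t2, t3⟩ := loop (fun s => dm α S pl k s - 1 + 2 * (dm β S pl k s - 1))
    (fun s => s.1.primeFactors.card) (drop R x y hu au sa sb na nb od h) (l, e) g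
  obtain ⟨f1, b1⟩ := hC l.primeFactors fun _ => Nat.prime_of_mem_primeFactors
  obtain ⟨f2, b2⟩ := hD l.primeFactors fun _ => Nat.prime_of_mem_primeFactors
  have b3 : dm α S pl k (l, e) ≤ _ := (Submodule.finrank_mono sl_le).trans b1
  have b4 : dm β S pl k (l, e) ≤ _ := (Submodule.finrank_mono sl_le).trans b2
  obtain ⟨f3, b5⟩ := hC t.1.primeFactors fun _ => Nat.prime_of_mem_primeFactors
  obtain ⟨f4, b6⟩ := hD t.1.primeFactors fun _ => Nat.prime_of_mem_primeFactors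
  simp only [Fintype.card_unit, c] at b3 b4 b5 b6 t3
  exact ⟨t.1, t.2, t1.tu.toTq, by omega, fun q a b => (t1.gq q a b).imp_right fun j i =>
    j ((pow_dvd_pow _ (Nat.le_add_right _ _)).trans i), bd_of (by omega) t2.1, bd_of (by omega) t2.2⟩

end Rd

open Rd

theorem red (R : Rw) (hc : CHB) (hs : SAH) : RED := by
  intro r S pl k α β h hk e ga ua na nb
  obtain ⟨u, hu, u1, m, y⟩ := hc r S pl h
  have d := du e
  have x : Cx 1 (ln α) (ln β) S k := ⟨d, ga, ⟨Subgroup.isOpen_mono (H₁ := _ ⊓ (ln α).ker)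
    (fun g a => d.one a.1 a.2) (Gz_open.inter ga.opn), fun g a => d.one (by
      obtain ⟨l, a, P, o, i⟩ := a
      exact inert_gz o (fun e => a (e ▸ h.two)) i) (ga.unr g a)⟩, h.two, h.pr, hk⟩
  have ne : ∀ {α β : GQ →* F}, α * β = wz → β ≠ 1 → α ≠ wz := fun e n c => n (MonoidHom.ext fun g =>
    mul_left_cancel₀ ((Group.isUnit g).map wz).ne_zero (by
      simpa [c] using DFunLike.congr_fun e g))
  have e' := (mul_comm β α).trans e
  have au : ln α (u ^ pp) = 1 := ln_one.2 (by rw [map_pow, ua u u1, one_pow])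
  have sa : ∀ {α : GQ →* F}, Ga (ln α) S → α ≠ 1 → α ≠ wz → Sah (ln α) := fun g =>
    hs.2 _ (Subgroup.isOpen_mono (fun _ => ln_one.1) g.opn)
  have k1 : α k * β k = -1 := (DFunLike.congr_fun e k).trans (Ei.oz_k hk)
  rcases mul_self_eq_one_iff.1 (show α k * α k = 1 by
    rw [← map_mul, P004R.Mu.kk hk, map_one]) with c | c
  · exact out R x y hu au (sa ga na (ne e nb)) (sa x.ga' nb (ne e' na)) (ne e nb) (ne e' na)
      (by simpa [c] using k1)
  · exact (out R (by simpa using x.symm) y hu (d.one (hm_gz (uu_ha (n := 0) (T := ∅)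
      hu).1) au) (sa x.ga' nb (ne e' na)) (sa ga na (ne e nb)) (ne e' na) (ne e nb) c).imp id
      fun _ _ _ b => b.symm

end Vale.Agent.P014U.Mu
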