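import Vale.Agent.P014U.Mu.St
import Vale.Agent.P014U.Mu.Sau
import Vale.Agent.P022K.G2.Unr

/-! # P014U, block MU: rows SAH and TWO (helper46) -/

set_option autoImplicit false
set_option linter.all false

open NumberField Matrix

namespace Vale.Agent.P014U.Mu

open Vale.Agent.P022 (Qb GQ IsConj)
open Vale.Agent.P022K.G2
open Vale.Agent.P004F (M2)

variable [Pp]

namespace Sw

theorem irr {a : GQ →* M2 F} (i : Ir a) : Sa.Irr a := fun v n => by
  by_contra! k
  exact n (i v k)

theorem le (n : ℕ) (T : Finset ℕ) :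
    Sa.Uu (pp ^ (n + 1)) (pp ^ 1) (Nat.cast '' (T : Set ℕ)) ≤ Uu n T := fun g m =>
  ⟨Sa.Uu_le m, fun y e => m y (.inr (by rwa [pow_one]))⟩

theorem fix (T : Finset ℕ) : ∀ a ∈ (Nat.cast '' (T : Set ℕ) : Set Qb), ∀ g : GQ, g a = a := by
  rintro _ ⟨l, -, rfl⟩ g
  exact map_natCast g l

theorem hm {g : GQ} (e : wz g = 1) : g ∈ Dr.Hm pp := fun z h => by
  obtain ⟨a, rfl⟩ := pw_ex (p := pp) h
  rw [oz_pw, show oz pp g = 1 from e, one_mul]

theorem dep {v w : Fin 2 → F} (n : v ≠ 0) (d : v 0 * w 1 - v 1 * w 0 = 0) : ∃ s : F, w = s • v := by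
  by_cases e : v 0 = 0
  · have e' : v 1 ≠ 0 := fun e' => n (funext fun i => by fin_cases i <;> assumption)
    refine ⟨w 1 / v 1, funext fun i => ?_⟩
    fin_cases i
    · simpa [e, e'] using d
    · simp [e']
  · refine ⟨w 0 / v 0, funext fun i => ?_⟩
    fin_cases i
    · simp [e]
    · simp only [Fin.mk_one, Pi.smul_apply, smul_eq_mul]
      field_simp
      linear_combination d

theorem li {v w : Fin 2 → F} (d : v 0 * w 1 - v 1 * w 0 ≠ 0) : LinearIndependent F ![v, w] :=
  LinearIndependent.pair_iff.2 fun s t e => by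
    have e0 : s * v 0 + t * w 0 = 0 := congrFun e 0
    have e1 : s * v 1 + t * w 1 = 0 := congrFun e 1
    exact ⟨(mul_eq_zero.1 (by linear_combination w 1 * e0 - w 0 * e1)).resolve_right d,
      (mul_eq_zero.1 (by linear_combination v 0 * e1 - v 1 * e0)).resolve_right d⟩

end Sw

open Sw

theorem sah : SAH := by
  refine ⟨fun a _ d i n T x _ h k => ?_, fun χ _ n1 n2 n T x _ h k => ?_⟩
  · obtain ⟨c, -, cc, -, e⟩ := ex_cc (Classical.arbitrary (InfinitePlace Qb))
    exact (Sa.ok (n := n + 1) (m := 1) pp_ne_two (irr i) (fun g e => hm ((d g).symm.trans e)) cc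
      ((d c).trans (oz_cc e)) n.succ_pos (fix T)).sah h fun g m => k g (le n T m)
  · obtain ⟨v, e⟩ := (Sa.ol (n := n + 1) (m := 1) (ω := wz) (fun g e h => pw_inj (by
        rw [pw_nat, ← h _ zt_pow, oz_spec]; rfl)) n.succ_ne_zero n.succ_pos (fix T)).sah
      (χ := χ) (x := fun g => x g ()) (by by_contra! e; exact n1 (MonoidHom.ext e))
      (by by_contra! e; exact n2 (MonoidHom.ext e))
      (fun g g' => by simp [h g g', ln, mulVec, dotProduct]) fun g m e =>
        congrFun (k g (le n T m) (by simp [ln, e])) ()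
    exact ⟨fun _ => v, fun g => funext fun i => by simpa [ln, mulVec, dotProduct] using e g⟩

theorem two : TWO := by
  intro a H x x' y i N t hx hx' hy n ⟨g₂, m₂, y₂⟩
  obtain ⟨g, m, d⟩ : ∃ g ∈ H, x g 0 * x' g 1 - x g 1 * x' g 0 ≠ 0 := by
    by_contra! k
    obtain ⟨g, m, e⟩ : ∃ g ∈ H, x g ≠ 0 := by
      by_contra! e
      exact one_ne_zero (n 1 0 fun g m => by simp [e g m]).1
    obtain ⟨s, hs⟩ := dep e (k g m)
    have w := (irr i).top (W := (Sa.vl hx hx' H).comap ((AddMonoidHom.id _).prod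
      (DistribSMul.toAddMonoidHom _ s))) (fun g w m => by
        simpa [mulVec_smul] using Sa.vl_st hx hx' g (v := w) (w := s • w) m) (v := x g)
      ⟨g, m, t g m, by simp [hs]⟩ e
    have w' (v : Fin 2 → F) : (v, s • v) ∈ Sa.vl hx hx' H := w.ge (AddSubgroup.mem_top v)
    refine neg_ne_zero.2 one_ne_zero (n s (-1) fun h mh => ?_).2
    have q (v : Fin 2 → F) : v 0 * (s • x h - x' h) 1 - v 1 * (s • x h - x' h) 0 = 0 := by
      obtain ⟨j, mj, -, ej⟩ := add_mem (w' (v - x h)) (show (x h, x' h) ∈ Sa.vl hx hx' H from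
        ⟨h, mh, t h mh, rfl⟩)
      obtain ⟨e1, e2⟩ := Prod.mk.inj ej
      have := k j mj
      simp only [e1, e2, Pi.add_apply, Pi.sub_apply, Pi.smul_apply, smul_eq_mul] at this ⊢
      linear_combination -this
    rw [neg_one_smul, ← sub_eq_add_neg]
    funext j
    fin_cases j
    · simpa using q ![0, -1]
    · simpa using q ![1, 0]
  by_cases y₁ : y g = 0
  swap
  · exact ⟨g, m, li d, y₁⟩
  by_contra! k
  have q {h} (mh : h ∈ H) (e : y h ≠ 0) : x h 0 * x' h 1 - x h 1 * x' h 0 = 0 :=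
    by_contra fun d => e (k h mh (li d))
  have q0 := q m₂ y₂
  have q1 := q (mul_mem m m₂) (by simpa [hy, t g m, y₁] using y₂)
  have q2 := q (mul_mem m (mul_mem m m₂)) (by simpa [hy, t g m, y₁] using y₂)
  simp only [hx, hx', t g m, one_mulVec, Pi.add_apply] at q1 q2
  exact mul_ne_zero two_ne d (by linear_combination q0 - 2 * q1 + q2)

end Vale.Agent.P014U.Mu
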