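import Vale.Agent.P014U.Mu.St
import Vale.Agent.P014U.Mu.Eis0

/-! # P014U, block MU, row TWS: the new prime of the tower (helper64) -/

set_option linter.all false

noncomputable section

namespace Vale.Agent.P014U.Mu

open NumberField Matrix
open Vale.Agent.P022 (Qb GQ)
open Vale.Agent.P027M.S (Inert)
open Vale.Agent.P022D.W (dec phi_mem inP_le_dec)
open Vale.Agent.P022E.GW (Ov Fb Op)
open Vale.Agent.P022K.G2 (In Gz zt zt_pow mem_Gz')
open scoped Classical

variable [Pp] {l : ℕ} {P : Ideal (𝓞 Qb)} {σ : GQ}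

/-- a Frobenius element at `l ≡ 1` fixes the roots of unity of order `pp` -/
theorem fb_gz (o : Ov l P) (m : l % pp = 1) (f : Fb l P σ) : σ ∈ Gz pp := by
  have d : ¬ l ∣ pp := fun d => by
    rw [(Nat.prime_dvd_prime_iff_eq o.1 pp_prime).1 d, Nat.mod_self] at m
    exact zero_ne_one m
  rw [mem_Gz', P014T.Dr.root_cong o d f zt_pow, ← Nat.div_add_mod l pp, m, pow_succ, pow_mul,
    zt_pow, one_pow, one_mul]

theorem tws : TWS := fun ι _ _ a ε pl T T' l k G hp hl s x X h0 => by
  obtain ⟨co, op, un, xk⟩ := X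
  have o := pl.ov l s.pr
  have ne : l ≠ pp := fun e => hl (e ▸ hp)
  have t := pl.gn l s.pr ne
  have ad : ∀ g ∈ dec (pl.P l), ∀ j i, x (g * j) i = x g i + x j i := fun g m j i => by
    rw [co, s.one g m, one_mulVec, Pi.add_apply]
  have op' : ∀ i, Op fun g => x g i := fun i => op.imp fun U e =>
    ⟨e.1, fun w m => congrFun (e.2 w m) i⟩
  refine ⟨⟨co, op, ?_, xk⟩, fun y z A e L => funext fun i => ?_⟩
  · rintro g ⟨q, n, Q, oq, hg⟩
    by_cases e : q = l
    · subst e
      obtain ⟨u, b, -⟩ := P004S.ex_conj o oq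
      have z : x (u⁻¹ * g * u) = 0 := funext fun i => Ei.tame0 (x := fun g => x g i) o ne
        (fun g j m _ => ad g (inP_le_dec m) j i) (op' i) t (congrFun h0 i) (b g hg)
      have c := co u (u⁻¹ * g * u)
      have c' := co g u
      rw [show u * (u⁻¹ * g * u) = g * u by group, z, mulVec_zero, add_zero] at c
      rw [c, G.unr g ⟨q, hl, Q, oq, hg⟩, one_mulVec] at c'
      exact right_eq_add.1 c'
    · exact un g ⟨q, fun m => (Finset.mem_insert.1 m).elim e n, Q, oq, hg⟩
  · obtain ⟨U, oU, hU⟩ := L.opn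
    have := Ei.lem (θ := ε) (x := fun g => x g i) (y := fun g => if g ∈ dec (pl.P l) then y g i else 0)
      o ne (phi_mem o.1 o.2.1 (pl.fb l s.pr)) (fb_gz o s.md (pl.fb l s.pr)) t.1 A.add
      (fun g m j _ => ad g m j i) (fun g m j n => by
        simp only [if_pos m, if_pos n, if_pos (mul_mem m n), L.c1 g m j n, s.one g m, one_mulVec,
          Pi.add_apply, Pi.smul_apply, smul_eq_mul, add_assoc]) A.opn (op' i)
      ⟨U, oU, fun w m => by
        beta_reduce
        split_ifs with d
        exacts [congrFun (hU w d m).2.1 i, rfl]⟩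
    rw [show x (pl.τ l) i = 0 from congrFun h0 i, mul_zero] at this
    exact (mul_eq_zero.1 this.symm).resolve_left e

end Vale.Agent.P014U.Mu
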