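import Vale.Agent.P014U.Mu.Irr
import Vale.Agent.P014U.Mu.Red
import Vale.Agent.P014U.Mu.Lbd
import Vale.Agent.P014U.Mu.Fin
import Vale.Agent.P014U.Mu.Tws
import Vale.Agent.P014U.Mu.Chb
import Vale.Agent.P014U.Mu.Tow
import Vale.Agent.P014U.Mu.Saw
import Vale.Agent.P014U.Mu.Rcp
import Vale.Agent.P014U.Mu.Eis1

/-! # P014U, block MU: assembly (helper24) -/

namespace Vale.Agent.P014U.Mu

variable [Pp]

theorem rows : Rw := ⟨tow, fst, rcp, lbd, tws, fin⟩

theorem muq' (h : EIS) : MUQ := muq_of (irr rows chb sah two) (red rows chb sah) h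

theorem muq : MUQ := muq' (eis chb fin)

end Vale.Agent.P014U.Mu
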