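import Vale.Agent.P014U.Mu.Cnt
import Vale.Agent.P014U.Mu.Eis0

/-! # P014U, block MU: one more prime; the rank of a presentation (helper86) -/

set_option linter.all false

noncomputable section

namespace Vale.Agent.P014U.Mu

open NumberField Matrix PowerSeries
open Vale.Agent.P022 (Qb GQ IsConj)
open Vale.Agent.P027M.S (Inert)
open Vale.Agent.P022D.W (dec conj_inP)
open Vale.Agent.P022E.GW (Ov Fb)
open Vale.Agent.P022K.G2 (In Gz ka tam ex_lv' inert_gz mem_Gz)
open Vale.Agent.P004S (ex_conj)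
open X4F (Rb)

variable [Pp] {ι : Type} [Fintype ι] [DecidableEq ι] {a : GQ → Matrix ι ι F} {T : Finset ℕ} {k : GQ}
  {J q B : ℕ} {χ : GQ → ℕ} {P : Ideal (𝓞 Qb)}

theorem pw_one (n : ℕ) : ∃ s : PS, (1 + X : PS) ^ n = 1 + X * ((n : PS) + X * s) := by
  induction n with
  | zero => exact ⟨0, by simp⟩
  | succ n ih =>
    obtain ⟨s, e⟩ := ih
    exact ⟨s + (n : PS) + X * s, by rw [pow_succ, e]; push_cast; ring⟩

/-- **one more prime** -/
theorem Bd.add (h : Bd a k T χ B) (o : Ov q P) (q2 : q ≠ pp) {φ : GQ} (f : φ ∈ dec P)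
    (z : φ ∈ Gz pp) (a0 : a φ = 1) (od : ¬ pp ∣ χ φ)
    (un : ∀ P, Ov q P → ∀ g, Inert P g → a g = 1 ∧ χ g = 0) :
    Bd a k (insert q T) χ (B + Fintype.card ι) := by
  intro J
  obtain ⟨τ, t⟩ := ex_gn o q2
  have a1 : ∀ P, Ov q P → ∀ g, Inert P g → ag a J χ g = 1 := fun P o g i => by
    rw [ag, (un P o g i).1, (un P o g i).2, pow_zero, one_smul,
      Matrix.map_one _ (map_zero _) (map_one _)]
  have cj : ∀ x, Zg a (insert q T) k J χ x → ∀ s g,
      ag a J χ (s * g * s⁻¹) = 1 → x (s * g * s⁻¹) + x s = x s + ag a J χ s *ᵥ x g :=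
    fun x m s g b => by
      have := m.co (s * g * s⁻¹) s
      rwa [inv_mul_cancel_right, m.co, b, one_mulVec, eq_comm] at this
  have tm : ∀ x, Zg a (insert q T) k J χ x → ∀ g, Inert P g → x g = ka pp q g • x τ :=
    fun x m => by
      obtain ⟨U, hU, u⟩ := m.opn
      obtain ⟨W, w1, w2⟩ := ex_lv' hU
      obtain ⟨n, e⟩ := (tam pp q P o q2).2.2 F (ι → Rb J) x
        (fun g j i _ => by rw [m.co, a1 P o g i, one_mulVec]) ⟨W, w1, fun w s _ => u w (w2 s)⟩
      simp only [ZMod.castHom_self, RingHom.id_apply] at e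
      intro g i
      rw [e g i, e τ t.1, t.2, one_smul]
  have key : ∀ x, Zg a (insert q T) k J χ x → ∀ i, ∀ j < J - 1, co J j (x τ i) = 0 :=
    fun x m i j hj => by
      have e := cj x m φ τ (a1 P o _ (conj_inP f t.1))
      rw [tm x m _ (conj_inP f t.1), Ei.ka_cj o.1.ne_zero φ (inert_gz o q2 t.1), mem_Gz.1 z, t.2,
        one_mul, one_smul, add_comm, add_right_inj, ag, a0,
        Matrix.map_one _ (map_zero _) (map_one _), smul_mulVec, one_mulVec] at e
      have e := congrFun e i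
      obtain ⟨s, hs⟩ := pw_one (χ φ)
      obtain ⟨p, hp⟩ := Ideal.Quotient.mk_surjective (x τ i)
      obtain ⟨w, hw⟩ := (isUnit_iff_constantCoeff.2 (by
        simpa [isUnit_iff_ne_zero, ZMod.natCast_eq_zero_iff] using od) :
          IsUnit ((χ φ : PS) + X * s)).exists_right_inv
      rw [Pi.smul_apply, ← hp, ← map_pow, hs] at e
      have e2 : mq J (X * p) = mq J 0 := by
        have := congrArg (mq J) hw
        simp only [smul_eq_mul, map_add, map_mul, map_one, map_zero] at e this ⊢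
        linear_combination (-mq J w) * e - mq J X * mq J p * this
      have := cf e2 (i := j + 1) (by omega)
      rw [coeff_succ_X_mul, map_zero] at this
      rw [← hp, co_mq (by omega), this]
  have := cnt_le (Z := {x | Zg a (insert q T) k J χ x}) (Y := Set.univ)
    (W := {x | Zg a T k J χ x})
    (fun x => fun i : ι => co J (J - 1) (x τ i)) id (fun _ _ => trivial)
    (fun x m s n e => ?_) (fun x _ y _ s _ _ _ d => sub_left_injective d) inferInstance (h J).1
  · refine this.imp_right fun s => s.trans ((Nat.mul_le_mul_left _ (h J).2).trans_eq ?_)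
    rw [Nat.card_univ, Nat.card_fun, Nat.card_zmod, Nat.card_eq_fintype_card, ← pow_add]
    congr 1; ring
  have z : (x - s) τ = 0 := sub_eq_zero.2 (funext fun i => by
    obtain ⟨p, hp⟩ := Ideal.Quotient.mk_surjective (x τ i)
    obtain ⟨p', hp'⟩ := Ideal.Quotient.mk_surjective (s τ i)
    rw [← hp, ← hp']
    refine mq_eq.2 fun j hj => ?_
    rw [← co_mq hj, ← co_mq hj, show mq J p = _ from hp, show mq J p' = _ from hp']
    by_cases a : j < J - 1
    · rw [key x m i j a, key s n i j a]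
    · have := congrFun e i
      rwa [show J - 1 = j by omega] at this)
  have m := Zg.sub m n
  generalize x - s = x at m z
  refine ⟨m.co, m.opn, ?_, m.inf⟩
  rintro g ⟨l, a, Q, o', i⟩
  by_cases b : l = q
  · subst b
    obtain ⟨y, hy, -⟩ := ex_conj o o'
    have e := cj x m y _ (by simpa [mul_assoc] using a1 Q o' g i : ag _ J χ (y * (y⁻¹ * g * y) * y⁻¹) = 1)
    rw [tm x m _ (hy g i), z, smul_zero, mulVec_zero] at e
    simpa [mul_assoc] using e
  · exact m.un g ⟨l, by simpa [b] using a, Q, o', i⟩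

theorem card_rb (J : ℕ) : Nat.card (Rb J) = pp ^ J := by
  rw [Nat.card_eq_of_bijective (fun (x : Rb J) (i : Fin J) => co J i x) ⟨fun x y e => ?_, fun v =>
    ⟨mq J (mk fun i => if h : i < J then v ⟨i, h⟩ else 0), funext fun i => by
      beta_reduce
      rw [co_mq i.2, coeff_mk, dif_pos i.2]⟩⟩]
  · simp
  obtain ⟨p, rfl⟩ := Ideal.Quotient.mk_surjective x
  obtain ⟨q, rfl⟩ := Ideal.Quotient.mk_surjective y
  exact mq_eq.2 fun i hi => (co_mq hi p).symm.trans ((congrFun e ⟨i, hi⟩).trans (co_mq hi q))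

/-- **few solutions: the rows are independent** -/
theorem row_ind {ι κ : Type} [Fintype ι] [Fintype κ] {Q : Matrix ι κ PS} {d B : ℕ}
    (c : Fintype.card κ = Fintype.card ι + d)
    (h : Nat.card {v : κ → Rb (B + 1) | Q.map (mq _) *ᵥ v = 0} ≤ pp ^ (d * (B + 1) + B))
    {w : ι → PS} (e : w ᵥ* Q = 0) : w = 0 := by
  classical
  by_contra n
  obtain ⟨j, -⟩ := Function.ne_iff.1 n
  obtain ⟨i, -, hi⟩ := Finset.univ.exists_min_image (fun i => (w i).order) ⟨j, Finset.mem_univ j⟩
  have dv : ∀ j, w i ∣ w j := fun j => (ValuationRing.dvd_total (w i) (w j)).elim id fun ⟨y, hy⟩ => by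
    by_cases z : w j = 0
    · exact z ▸ dvd_zero _
    have := hi j (Finset.mem_univ j)
    rw [hy, order_mul] at this
    have y0 : y.order = 0 := le_antisymm ((ENat.add_le_add_iff_left (order_eq_top.not.2 z)).1
      (this.trans_eq (add_zero _).symm)) bot_le
    obtain ⟨u, rfl⟩ := isUnit_iff_constantCoeff.2 (isUnit_iff_ne_zero.2 fun a =>
      order_ne_zero_iff_constCoeff_eq_zero.2 a y0)
    exact hy ▸ (Units.mul_right_dvd.2 dvd_rfl)
  choose y hy using dv
  have w0 : w i ≠ 0 := fun a => n (funext fun j => by rw [hy j, a, zero_mul]; rfl)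
  have yi : y i = 1 := mul_left_cancel₀ w0 ((hy i).symm.trans (mul_one _).symm)
  have yq : y ᵥ* Q = 0 := (smul_eq_zero.1 (by
    rw [← smul_vecMul, show w i • y = w from funext fun j => (hy j).symm, e])).resolve_left w0
  have f : Finite (Rb (B + 1)) := Nat.finite_of_card_ne_zero (by
    rw [card_rb]; exact pow_ne_zero _ pp_ne)
  have z : ∀ v, (mq (B + 1) ∘ y) ⬝ᵥ (Q.map (mq _) *ᵥ v) = 0 := fun v => by
    rw [dotProduct_mulVec, show (mq (B + 1) ∘ y) ᵥ* Q.map (mq _) = 0 from funext fun t => by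
      rw [← RingHom.map_vecMul, yq]; exact map_zero _, zero_dotProduct]
  have := (cnt_le (Z := Set.univ) (Y := Set.univ)
    (W := {v : κ → Rb (B + 1) | Q.map (mq _) *ᵥ v = 0})
    (fun v (j : {j // j ≠ i}) => (Q.map (mq _) *ᵥ v) j) id (fun _ _ => trivial) (fun x _ s _ a => ?_)
    (fun x _ y _ s _ _ _ d => sub_left_injective d) inferInstance inferInstance).2.trans
      (Nat.mul_le_mul_left _ h)
  · simp only [Nat.card_univ, Nat.card_fun, card_rb, Nat.card_eq_fintype_card, c,
      Fintype.card_subtype_compl, Fintype.card_unique, ← pow_mul, ← pow_add] at this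
    have := (Nat.pow_le_pow_iff_right one_lt).1 this
    obtain ⟨m, hm⟩ := Nat.exists_eq_succ_of_ne_zero (Fintype.card_pos_iff.2 ⟨i⟩).ne'
    rw [hm] at this
    simp only [Nat.succ_eq_add_one, Nat.add_sub_cancel] at this
    nlinarith
  have b : ∀ j, j ≠ i → (Q.map (mq _) *ᵥ (x - s)) j = 0 := fun j m => by
    rw [mulVec_sub]; exact sub_eq_zero.2 (congrFun a ⟨j, m⟩)
  funext j
  by_cases m : j = i
  · have := z (x - s)
    rwa [dotProduct, Finset.sum_eq_single i (fun j _ m => by rw [b j m, mul_zero]) (by simp),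
      Function.comp, yi, map_one, one_mul, ← m] at this
  · exact b j m

end Vale.Agent.P014U.Mu
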