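import Vale.Agent.P014U.Mu.St
import Vale.Agent.P014T.Mu.Cnt

/-! # P014U, block MU: the filtration by the powers of `X` (helper21) -/

set_option linter.all false

noncomputable section

namespace Vale.Agent.P014U.Mu

open Matrix PowerSeries Module
open Vale.Agent.P022 (GQ)
open Vale.Agent.P022K.G2 (In)
open X4F (Rb)
open X4S (wp Pl)

export Vale.Agent.P014T.Mu (cnt_le)

variable [Pp] {ι : Type} [Fintype ι] {J : ℕ} {a : GQ → Matrix ι ι F} {χ : GQ → ℕ} {T : Finset ℕ}
  {k : GQ}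

theorem cf {i : ℕ} {p q : PS} (h : mq J p = mq J q) (hi : i < J) : coeff i p = coeff i q := by
  have := X_pow_dvd_iff.1 (Ideal.mem_span_singleton.1 (Ideal.Quotient.eq.1 h)) _ hi
  rwa [map_sub, sub_eq_zero] at this

theorem Zg.sub {x y : GQ → ι → Rb J} (h : Zg a T k J χ x) (h' : Zg a T k J χ y) :
    Zg a T k J χ (x - y) := by
  obtain ⟨U, o, u⟩ := h.opn
  obtain ⟨V, o', v⟩ := h'.opn
  refine ⟨fun g j => ?_, ⟨U ⊓ V, o.inter o', fun w m => ?_⟩, fun g m => ?_, ?_⟩
  · simp only [Pi.sub_apply, h.co, h'.co, mulVec_sub]; abel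
  · rw [Pi.sub_apply, u w m.1, v w m.2, sub_self]
  · rw [Pi.sub_apply, h.un g m, h'.un g m, sub_self]
  · rw [Pi.sub_apply, h.inf, h'.inf, sub_self]

theorem ag_mv (g : GQ) (p : ι → PS) (i : ι) : (ag a J χ g *ᵥ fun j => mq J (p j)) i =
    mq J ((1 + X) ^ χ g * ∑ j, C (a g i j) * p j) := by
  simp [ag, smul_mulVec, mulVec, dotProduct, Finset.mul_sum, mul_assoc]

/-- the coefficients -/
def co (J i : ℕ) (x : Rb J) : F := coeff i x.out

theorem co_mq {i : ℕ} (h : i < J) (p : PS) : co J i (mq J p) = coeff i p :=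
  cf (Quotient.out_eq _) h

theorem ex_mq {κ : Type} (x : κ → Rb J) : ∃ p : κ → PS, x = fun i => mq J (p i) :=
  ⟨fun i => (x i).out, funext fun i => (Quotient.out_eq _).symm⟩

theorem co_add {i : ℕ} (h : i < J) (x y : Rb J) : co J i (x + y) = co J i x + co J i y := by
  obtain ⟨p, rfl⟩ := Ideal.Quotient.mk_surjective x
  obtain ⟨q, rfl⟩ := Ideal.Quotient.mk_surjective y
  rw [← map_add, co_mq h, co_mq h, co_mq h, map_add]

theorem co_zero {i : ℕ} (h : i < J) : co J i 0 = 0 := by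
  rw [← map_zero (mq J), co_mq h, map_zero]

/-- division by `T` -/
def dn (J : ℕ) (x : Rb (J + 1)) : Rb J := mq J (mk fun n => co (J + 1) (n + 1) x)

theorem mq_eq {p q : PS} : mq J p = mq J q ↔ ∀ i < J, coeff i p = coeff i q := by
  rw [Ideal.Quotient.eq, Ideal.mem_span_singleton, X_pow_dvd_iff]
  simp only [map_sub, sub_eq_zero]

theorem dn_mq (p : PS) : dn J (mq (J + 1) (X * p)) = mq J p :=
  mq_eq.2 fun i h => by rw [coeff_mk, co_mq (by omega), coeff_succ_X_mul]

theorem ex_X {κ : Type} {x : κ → Rb (J + 1)} (h : ∀ i, co (J + 1) 0 (x i) = 0) :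
    ∃ p : κ → PS, x = fun i => mq (J + 1) (X * p i) := by
  obtain ⟨p, rfl⟩ := ex_mq x
  choose q e using fun i => X_dvd_iff.2 ((coeff_zero_eq_constantCoeff_apply (p i)).symm.trans
    ((co_mq J.succ_pos _).symm.trans (h i)))
  exact ⟨q, funext fun i => by rw [e]⟩

theorem mq_X {p q : PS} (h : mq J p = mq J q) : mq (J + 1) (X * p) = mq (J + 1) (X * q) :=
  mq_eq.2 fun i hi => by
    cases i with
    | zero => simp
    | succ i => rw [coeff_succ_X_mul, coeff_succ_X_mul, mq_eq.1 h i (by omega)]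

/-- the residual class -/
def c0 (J : ℕ) (x : GQ → ι → Rb J) (g : GQ) (i : ι) : F := co J 0 (x g i)

theorem co_sub {x y : Rb (J + 1)} (h : co (J + 1) 0 x = co (J + 1) 0 y) :
    co (J + 1) 0 (x - y) = 0 := by
  have := co_add J.succ_pos (x - y) y
  rwa [sub_add_cancel, h, right_eq_add] at this

theorem Zg.dn {x : GQ → ι → Rb (J + 1)} (h : Zg a T k (J + 1) χ x)
    (h0 : ∀ g i, Mu.co (J + 1) 0 (x g i) = 0) : Zg a T k J χ fun g i => Mu.dn J (x g i) := by
  have z : ∀ g, x g = 0 → (fun i => Mu.dn J (x g i)) = 0 := fun g e => funext fun i => by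
    have := dn_mq (J := J) 0
    rw [mul_zero, map_zero, map_zero] at this
    rw [e]; exact this
  refine ⟨fun g j => funext fun i => ?_, h.opn.imp fun U e => ⟨e.1, fun w m => z w (e.2 w m)⟩,
    fun g m => z g (h.un g m), z k h.inf⟩
  obtain ⟨p, hp⟩ := ex_X (h0 g)
  obtain ⟨q, hq⟩ := ex_X (h0 j)
  simp only [h.co, hp, hq, Pi.add_apply, dn_mq, ag_mv, ← map_add]
  rw [← dn_mq (p i + _)]
  simp only [Finset.mul_sum, mul_add, mul_left_comm X]

/-- one step -/
theorem cstep {Y : Set (GQ → ι → F)} (hY : Finite Y)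
    (h : ∀ x, Zg a T k (J + 1) χ x → c0 (J + 1) x ∈ Y) (f : Finite {x | Zg a T k J χ x}) :
    Finite {x | Zg a T k (J + 1) χ x} ∧
      Nat.card {x | Zg a T k (J + 1) χ x} ≤ Nat.card Y * Nat.card {x | Zg a T k J χ x} := by
  have e : ∀ {x s : GQ → ι → Rb (J + 1)}, c0 _ x = c0 _ s → ∀ g i, co (J + 1) 0 ((x - s) g i) = 0 :=
    fun e g i => co_sub (congrFun (congrFun e g) i)
  refine cnt_le (c0 _) (fun x g i => dn J (x g i)) h (fun x m s n b => (Zg.sub m n).dn (e b))
    (fun x _ y _ s _ b c d => sub_left_injective (b := s) (funext fun g => funext fun i => ?_)) hY f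
  obtain ⟨p, hp⟩ := ex_X (e b g)
  obtain ⟨q, hq⟩ := ex_X (e c g)
  have := congrFun (congrFun d g) i
  simp only [hp, hq, dn_mq] at this
  exact (congrFun hp i).trans ((mq_X this).trans (congrFun hq i).symm)

/-- **the count** -/
theorem count {Y Y' : Set (GQ → ι → F)} (hY : Finite Y) (hY' : Finite Y') {u v : ℕ} (N : ℕ)
    (h : ∀ J, ∀ x, Zg a T k (J + 1) χ x → c0 (J + 1) x ∈ Y ∧ (N ≤ J → c0 (J + 1) x ∈ Y'))
    (c : Nat.card Y ≤ pp ^ u) (c' : Nat.card Y' ≤ pp ^ v) (J : ℕ) :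
    Finite {x | Zg a T k J χ x} ∧ Nat.card {x | Zg a T k J χ x} ≤ pp ^ (v * J + N * u) := by
  suffices Finite {x | Zg a T k J χ x} ∧
      Nat.card {x | Zg a T k J χ x} ≤ pp ^ (v * J + min J N * u) from
    ⟨this.1, this.2.trans (Nat.pow_le_pow_right pp_pos (Nat.add_le_add_left
      (Nat.mul_le_mul_right _ (min_le_right _ _)) _))⟩
  induction J with
  | zero =>
    have : Subsingleton (Rb 0) := Ideal.Quotient.subsingleton_iff.2 (by simp)
    exact ⟨inferInstance, (Finite.card_le_one_iff_subsingleton.2 inferInstance).trans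
      (Nat.one_le_pow _ _ pp_pos)⟩
  | succ J ih =>
    obtain ⟨f, b⟩ := ih
    by_cases e : N ≤ J
    · refine (cstep hY' (fun x m => (h J x m).2 e) f).imp_right fun s =>
        s.trans ((Nat.mul_le_mul c' b).trans_eq ?_)
      rw [← pow_add, min_eq_right e, min_eq_right (by omega)]
      congr 1; ring
    · refine (cstep hY (fun x m => (h J x m).1) f).imp_right fun s =>
        s.trans ((Nat.mul_le_mul c b).trans ?_)
      rw [← pow_add, min_eq_left (by omega), min_eq_left (by omega)]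
      exact Nat.pow_le_pow_right pp_pos (by nlinarith)

theorem Zg.c0 {x : GQ → ι → Rb J} (h : Zg a T k J χ x) (hJ : 0 < J) :
    (∀ g j, c0 J x (g * j) = c0 J x g + a g *ᵥ c0 J x j) ∧ ∀ g, x g = 0 → c0 J x g = 0 := by
  refine ⟨fun g j => funext fun t => ?_, fun g e => funext fun t => ?_⟩
  · obtain ⟨q, hq⟩ := ex_mq (x j)
    simp only [Mu.c0, h.co, hq, Pi.add_apply, co_add hJ, ag_mv, co_mq hJ]
    simp [mulVec, dotProduct, Mu.c0, hq, co_mq hJ]
  · rw [Mu.c0, e]; exact co_zero hJ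

/-- the residual class is a framed cocycle -/
theorem Zg.z0 {x : GQ → ι → Rb J} (h : Zg a T k J χ x) (hJ : 0 < J) : Mu.c0 J x ∈ Z0 a T k :=
  have ⟨p, q⟩ := h.c0 hJ
  ⟨p, h.opn.imp fun U e => ⟨e.1, fun w m => q w (e.2 w m)⟩, fun g m => q g (h.un g m), q k h.inf⟩

theorem tr3 (n : ℕ) (p : PS) : coeff 1 ((1 + X) ^ n * p) = coeff 1 p + n * coeff 0 p ∧
    2 * coeff 2 ((1 + X) ^ n * p) = 2 * coeff 2 p + 2 * n * coeff 1 p + n * (n - 1) * coeff 0 p ∧
    coeff 0 ((1 + X) ^ n * p) = coeff 0 p := by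
  induction n with
  | zero => simp
  | succ n ih =>
    rw [pow_succ', mul_assoc]
    generalize (1 + X) ^ n * p = q at ih ⊢
    have e0 : coeff 1 (X * q) = coeff 0 q := coeff_succ_X_mul 0 q
    have e1 : coeff 2 (X * q) = coeff 1 q := coeff_succ_X_mul 1 q
    have e2 : coeff 0 (X * q) = 0 := by simp
    simp only [add_mul, one_mul, map_add, e0, e1, e2, Nat.cast_succ]
    exact ⟨by linear_combination ih.1 + ih.2.2, by linear_combination ih.2.1 + 2 * ih.1, by
      linear_combination ih.2.2⟩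

/-- the coefficients of a cochain -/
def ci (J i : ℕ) (x : GQ → ι → Rb J) (g : GQ) (j : ι) : F := co J i (x g j)

/-- a cocycle modulo `X ^ 3` -/
theorem Zg.l3 {x : GQ → ι → Rb J} (h : Zg a T k J χ x) (hJ : 3 ≤ J) (D : Subgroup GQ) :
    L3 a (fun g => χ g) D (Mu.c0 J x) (ci J 1 x) ((2 : F) • ci J 2 x + ci J 1 x) := by
  have h0 : 0 < J := by omega
  have h1 : 1 < J := by omega
  have h2 : 2 < J := by omega
  have e : ∀ g j t, ci J 1 x (g * j) t = ci J 1 x g t +
      (a g *ᵥ (ci J 1 x j + (χ g : F) • Mu.c0 J x j)) t ∧ 2 * ci J 2 x (g * j) t =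
      2 * ci J 2 x g t + (a g *ᵥ ((2 : F) • ci J 2 x j + (2 * χ g : F) • ci J 1 x j +
        (χ g * (χ g - 1) : F) • Mu.c0 J x j)) t := fun g j t => by
    obtain ⟨q, hq⟩ := ex_mq (x j)
    have := tr3 (χ g) (∑ i, C (a g t i) * q i)
    simp only [ci, Mu.c0, h.co, hq, Pi.add_apply, co_add h1, co_add h2, ag_mv, co_mq h1, co_mq h2,
      mul_add, this.1, this.2.1, mulVec_add, mulVec_smul, Pi.smul_apply, smul_eq_mul]
    simp [mulVec, dotProduct, ci, Mu.c0, hq, co_mq h0, co_mq h1, co_mq h2]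
  obtain ⟨U, o, z⟩ := h.opn
  refine ⟨fun g _ j _ => (h.c0 h0).1 g j, fun g _ j _ => funext fun t => (e g j t).1,
    fun g _ j _ => funext fun t => ?_, U, o, fun w _ m => ?_⟩
  · have := e g j t
    simp only [Pi.add_apply, Pi.smul_apply, smul_eq_mul, mulVec_add, mulVec_smul] at this ⊢
    linear_combination this.1 + this.2
  · have b : ∀ i < J, ci J i x w = 0 := fun i l => funext fun t => by
      rw [ci, z w m]; exact co_zero l
    exact ⟨b 0 h0, b 1 h1, by simp [b 1 h1, b 2 h2]⟩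

theorem card_sub {V : Type} [AddCommGroup V] [Module F V] (A : Submodule F V) [Module.Finite F A]
    {n : ℕ} (h : finrank F A ≤ n) : Finite A ∧ Nat.card A ≤ pp ^ n :=
  ⟨Module.finite_of_finite F, by
    rw [Module.natCard_eq_pow_finrank (K := F), Nat.card_zmod]; exact Nat.pow_le_pow_right pp_pos h⟩

/-- few classes lift -/
theorem bd_of {pl : Pl} {C : ℕ} [f : Module.Finite F (Z0 a T k)] (c : finrank F (Z0 a T k) ≤ C)
    (h : finrank F (Sl a (fun g => χ g) pl T T k) ≤ Fintype.card ι) : Bd a k T χ (2 * C) := by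
  have : Module.Finite F (Sl a (fun g => χ g) pl T T k) :=
    Submodule.finiteDimensional_of_le (S₂ := Z0 a T k) fun _ m => m.1
  exact count (Y := Z0 a T k) (Y' := Sl a (fun g => χ g) pl T T k) (card_sub _ c).1
    (card_sub _ h).1 2 (fun J x m => ⟨m.z0 J.succ_pos, fun e => And.intro (m.z0 J.succ_pos)
      fun v _ => ⟨_, _, m.l3 (by omega) _⟩⟩) (card_sub _ c).2 (card_sub _ h).2

theorem Bd.mono {B B' : ℕ} (h : Bd a k T χ B) (e : B ≤ B') : Bd a k T χ B' := fun J =>
  (h J).imp_right fun s => s.trans (Nat.pow_le_pow_right pp_pos (by omega))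

/-! ### reducible planes -/

theorem wp_mv {R : Type} [CommRing R] (A : Matrix (Fin 2) (Fin 2) R) (v x : Fin 2 → R) :
    wp (A *ᵥ v) (A *ᵥ x) = A.det * wp v x := by
  simp only [wp, mulVec, dotProduct, det_fin_two, Fin.sum_univ_two]
  ring

theorem wp_line {R : Type} [CommRing R] {v x : Fin 2 → R} {i : Fin 2} (h : v i = 1)
    (e : wp v x = 0) : x = x i • v := by
  rw [wp] at e
  funext j
  fin_cases i <;> fin_cases j <;> simp at h ⊢
  · rw [h, mul_one]
  · linear_combination e - x 1 * h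
  · linear_combination -e - x 0 * h
  · rw [h, mul_one]

theorem ag_ln (θ : GQ →* F) (g : GQ) (y : Unit → Rb J) :
    (ag (ln θ) J χ g *ᵥ y) () = mq J (1 + X) ^ χ g * (mq J (C (θ g)) * y ()) := by
  simp [ag, ln, smul_mulVec, mulVec, dotProduct, mul_assoc]

/-- the two steps of a reducible plane -/
theorem two_step {a : GQ → Matrix (Fin 2) (Fin 2) F} {θ θ' : GQ →* F} {v : Fin 2 → F} {i : Fin 2}
    (vi : v i = 1) (hv : ∀ g, a g *ᵥ v = θ g • v) (hw : ∀ g x, wp v (a g *ᵥ x) = θ' g * wp v x)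
    {B B' : ℕ} (f : Bd (ln θ) k T χ B) (f' : Bd (ln θ') k T χ B') : Bd a k T χ (B + B') := by
  intro J
  let φ : F →+* Rb J := (mq J).comp C
  let w : Fin 2 → Rb J := φ ∘ v
  have wi : w i = 1 := (congrArg φ vi).trans (map_one φ)
  have a1 : ∀ g, (a g).map φ *ᵥ w = φ (θ g) • w := fun g => funext fun j => by
    rw [← RingHom.map_mulVec, hv]; exact map_mul φ _ _
  have a2 : ∀ g x, wp w ((a g).map φ *ᵥ x) = φ (θ' g) * wp w x := fun g x => by
    have b0 := congrArg φ (hw g ![1, 0])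
    have b1 := congrArg φ (hw g ![0, 1])
    simp [wp, mulVec, dotProduct, w] at b0 b1 ⊢
    linear_combination x 0 * b0 + x 1 * b1
  have lin : ∀ {x s : GQ → Fin 2 → Rb J},
      ((fun g (_ : Unit) => wp w (x g)) = fun g _ => wp w (s g)) →
      ∀ g, (x - s) g = (x - s) g i • w := fun {x s} e g => wp_line wi (by
    have := congrFun (congrFun e g) ()
    simp only [wp, Pi.sub_apply] at this ⊢
    linear_combination this)
  have z : ∀ {x : GQ → Fin 2 → Rb J} {g}, x g = 0 → (fun _ : Unit => wp w (x g)) = 0 :=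
    fun e => funext fun _ => by rw [e]; simp [wp]
  refine (cnt_le (Y := {y | Zg (ln θ') T k J χ y}) (W := {y | Zg (ln θ) T k J χ y})
    (fun x g _ => wp w (x g)) (fun x g _ => x g i) (fun x m => ⟨fun g j =>
    funext fun _ => ?_, m.opn.imp fun U e => ⟨e.1, fun u a => z (e.2 u a)⟩, fun g a => z (m.un g a),
    z m.inf⟩) (fun x m s n e => ?_) (fun x _ y _ s _ b c d => sub_left_injective (b := s)
      (funext fun g => ?_)) (f' J).1 (f J).1).imp_right fun s =>
        s.trans ((Nat.mul_le_mul (f' J).2 (f J).2).trans_eq ?_)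
  · rw [m.co, Pi.add_apply, ag_ln, ag, smul_mulVec, ← mul_assoc, mul_right_comm, mul_assoc,
      mul_comm (wp w _)]
    refine Eq.trans ?_ (congrArg (fun t => _ + _ * t) (a2 g (x j)))
    simp only [wp, Pi.add_apply, Pi.smul_apply, smul_eq_mul]
    ring
  · have m := Zg.sub m n
    have e := lin e
    generalize x - s = x at m e
    have z : ∀ {g}, x g = 0 → (fun _ : Unit => x g i) = 0 := fun e => funext fun _ => congrFun e i
    refine ⟨fun g j => funext fun _ => ?_, m.opn.imp fun U e => ⟨e.1, fun u a => z (e.2 u a)⟩,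
      fun g a => z (m.un g a), z m.inf⟩
    rw [m.co, Pi.add_apply, Pi.add_apply, ag_ln, e j, ag, smul_mulVec, mulVec_smul, a1]
    simp only [Pi.smul_apply, smul_eq_mul, wi, mul_one]
    rw [mul_comm (x j i)]; rfl
  · exact (lin b g).trans ((congrArg (· • w) (congrFun (congrFun d g) ())).trans (lin c g).symm)
  · rw [← pow_add]; congr 1; simp; ring

end Vale.Agent.P014U.Mu
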