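import Vale.Agent.P014U.Mu.Step
import Vale.Agent.P014U.Mu.Top

/-! # P014U, block MU: the irreducible case (helper21) -/

set_option linter.all false

noncomputable section

namespace Vale.Agent.P014U.Mu

open NumberField Matrix Module
open Vale.Agent.P022 (Qb GQ IsConj)
open Vale.Agent.P022E.GW (Ov Fb)
open Vale.Agent.P004F (M2)
open X4S (Pl)
open Dr (Hm Ha)
open LinearMap (proj)

variable [Pp] {r : GQ →* M2 ℤ_[pp]} {S : Finset ℕ} {k : GQ} {a : GQ →* M2 F}

theorem uni_pow {A : M2 F} (h : (A - 1) ^ 2 = 0) : A ^ pp = 1 := by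
  have := add_pow_char_of_commute pp (Commute.one_right (A - 1))
  rwa [sub_add_cancel, pow_eq_zero_of_le pp_prime.two_le h, one_pow, zero_add] at this

theorem du_plane (d : ∀ g, (a g).det = wz g) : Du !![0, 1; -1, 0] a a :=
  ⟨(isUnit_iff_isUnit_det _).2 (by simp [det_fin_two]), fun g => by
    rw [← d, det_fin_two]
    ext i j
    fin_cases i <;> fin_cases j <;> simp [mul_apply, Fin.sum_univ_two] <;> ring⟩

theorem Ir.rel (i : Ir a) (d : ∀ g, (a g).det = wz g) (v : Fin 2 → F)
    (h : ∀ g, v ᵥ* a g = wz g • v) : v = 0 := by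
  have := i ![-v 1, v 0] fun g => ⟨1, by
    have b := congrArg (· ᵥ* (a g).adjugate) (h g)
    simp only [vecMul_vecMul, mul_adjugate, d, smul_vecMul, vecMul_smul, vecMul_one] at b
    have b := smul_right_injective _ (P022K.G2.oz_ne g : wz g ≠ 0) b
    have b0 := congrFun b 0
    have b1 := congrFun b 1
    ext j
    fin_cases j <;> simp [adjugate_fin_two, vecMul, mulVec, dotProduct] at b0 b1 ⊢
    · linear_combination b1
    · linear_combination -b0⟩
  ext j
  fin_cases j
  exacts [congrFun this 1, neg_eq_zero.1 (congrFun this 0)]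

theorem fx_plane (d : ∀ g, (a g).det = wz g) (hk : IsConj k) : finrank F (fx a k) ≤ 1 := by
  have := fx_le (du_plane d) hk
  rw [Fintype.card_fin] at this
  omega

/-- **the irreducible case** -/
theorem irr (R : Rw) (hC : CHB) (hS : SAH) (hT : TWO) : IRR := fun r S pl k h hk i => by
  obtain ⟨u, hu, u2, m, y⟩ := hC r S pl h
  replace y : Sy r pl u m := y
  have au : rb r (u ^ pp) = 1 := by rw [map_pow, uni_pow u2]
  have sah := hS.1 _ h.ga.opn h.rb_det i
  obtain ⟨C, hC⟩ := R.fin _ (rb r) S k h.ga h.two h.pr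
  refine ⟨max m (C + 3), 2 * (C + 2 * (C + 3)), fun n E hn => ?_⟩
  have n0 : n ≠ 0 := by omega
  have cx c : Cx !![0, 1; -1, 0] (rb r) (rb r) (S ∪ Nat.primeFactors c) k :=
    have ga := h.ga.mono Finset.subset_union_left
    ⟨du_plane h.rb_det, ga, ga, Finset.mem_union_left _ h.two, pr_T h.pr, hk⟩
  obtain ⟨c, e, s, b⟩ := R.first y hu h.two h.pr n0 E
  let μ (x : ℕ × (GQ → ZMod (pp ^ n))) := finrank F
    (Sl (rb r) (eb x.2) pl (S ∪ x.1.primeFactors) (S ∪ x.1.primeFactors) k)
  obtain ⟨⟨c', e'⟩, s', d, z⟩ := loop μ (·.1.primeFactors.card)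
    (G := fun x => Sg r S pl m n E x.1 x.2) (D := fun x => μ x ≤ 2) (by
      rintro ⟨c, e⟩ s d
      have f := R.fl (pl := pl) (ε := eb e) (cx c)
      obtain ⟨w, w1, w2⟩ := R.dual (cx c) y hu au sah (by simp) (s.tu.ad n0) (s.tu.good n0 h.pr)
        (i.rel h.rb_det) (by simpa using d)
      obtain ⟨x, x1, x', x2, x3⟩ := ex_two (B := LinearMap.range (cb (rb r))) ((rk_cb
        (inf_le_left.trans sl_le) fun _ p => cb_iff.1 p.2).trans (fx_plane h.rb_det hk))
        (not_le.1 d)
      obtain ⟨g, g1, g2, g3⟩ := hT (rb r) (Uu n (S ∪ c.primeFactors) ⊓ (rb r).ker) x x' w i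
        inferInstance (fun g p => p.2) x1.1.1 x2.1.1 w1.1.1 (fun s t p => x3 s t (cb_iff.2
          (sah n _ _ (cx c).pr (add_mem (Submodule.smul_mem _ s x1.1)
            (Submodule.smul_mem _ t x2.1)).1 fun g p' q => p g ⟨p', q⟩)))
        ((sah.ex (cx c).pr w1.1 w2 n).imp fun g p => ⟨⟨p.1, p.2.1⟩, p.2.2⟩)
      obtain ⟨l, l1, l2, l3, t, l4⟩ := y.nw (I := Fin 3) (a := fun _ => rb r) (x := ![x, x', w])
        hu (cx c).two (cx c).pr (fun _ => (cx c).ga) (fun _ => au)
        (fun j => by fin_cases j; exacts [x1.1, x2.1, w1.1]) g1.1 (fun _ => g1.2) E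
      obtain ⟨e', s', b1, b2, b3, b4⟩ := R.grow s h.pr n0 l1 l3
      refine ⟨(c * l, e'), s', ?_, b2⟩
      have st := R.step (cx c) (s.tu.ad n0) (s'.tu.ad n0)
        (fun p => l1.out (Finset.mem_union_right _ p)) (l2 0) (l2 0) b3 b4
      have a1 := one_le (A := (Sd (rb r) (eb e) pl _ _ k).map (proj (pl.σ l))) ⟨w, w1, rfl⟩
        (fun z => mv_ne t g3 ((l4 2).symm.trans z))
      have a2 : 2 ≤ finrank F ((Sl (rb r) (eb e) pl (S ∪ c.primeFactors)
          (S ∪ c.primeFactors) k).map (proj (pl.σ l) : _ →ₗ[F] Fin 2 → F)) := by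
        have li := g2.map' (rb r t).mulVecLin (LinearMap.ker_eq_bot'.2 fun v z =>
          by_contra fun q => mv_ne t q z)
        refine (finrank_span_eq_card li).symm.trans_le (Submodule.finrank_mono
          (Submodule.span_le.2 ?_))
        rintro _ ⟨j, rfl⟩
        fin_cases j
        exacts [⟨x, x1, l4 0⟩, ⟨x', x2, l4 1⟩]
      dsimp only at st b1
      dsimp only [μ]
      rw [Fintype.card_fin, ← b1] at st
      omega) (c, e) s
  have f := (hC c.primeFactors fun _ => Nat.prime_of_mem_primeFactors).1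
  have z2 := (Submodule.finrank_mono (sl_le (ε := eb e) (pl := pl) (T := S ∪ c.primeFactors))).trans
    (hC c.primeFactors fun _ => Nat.prime_of_mem_primeFactors).2
  simp only [μ, b, Fintype.card_fin] at z z2
  obtain ⟨f', z3⟩ := hC c'.primeFactors fun _ => Nat.prime_of_mem_primeFactors
  rw [Fintype.card_fin] at z3
  exact ⟨c', e', s'.tu.toTq, le_max_of_le_right (by omega), fun q a b =>
    ⟨(s'.gq q a b).1, fun p => (s'.gq q a b).2 ((pow_dvd_pow _ (le_max_left _ _)).trans p)⟩,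
    bd_of (pl := pl) (by omega) d⟩

end Vale.Agent.P014U.Mu
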