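import Mathlib

/-! # P014U, block MU: linear algebra (helper21) -/

set_option linter.all false

namespace Vale.Agent.P014U.Mu

open Module Matrix

variable {K V W : Type} [Field K] [AddCommGroup V] [Module K V] [AddCommGroup W] [Module K W]

theorem rk_map (A : Submodule K V) [Module.Finite K A] (f : V →ₗ[K] W) :
    finrank K (A.map f) + finrank K (A ⊓ LinearMap.ker f : Submodule K V) = finrank K A := by
  rw [← LinearMap.finrank_range_add_finrank_ker (f.domRestrict A), LinearMap.range_domRestrict,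
    LinearMap.ker_domRestrict, ← Submodule.finrank_map_subtype_eq A, Submodule.map_comap_subtype]

theorem orth0 [Module.Finite K V] (β : V →ₗ[K] Dual K V) (i : Function.Injective β)
    {A B : Submodule K V} (h : ∀ x ∈ A, ∀ y ∈ B, β x y = 0) :
    finrank K A + finrank K B ≤ finrank K V := by
  rw [← Subspace.finrank_add_finrank_dualCoannihilator_eq (A.map β),
    LinearEquiv.finrank_eq (Submodule.equivMapOfInjective β i A)]
  refine Nat.add_le_add_left (Submodule.finrank_mono fun y m => ?_) _
  rw [Submodule.mem_dualCoannihilator]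
  rintro _ ⟨x, a, rfl⟩
  exact h x a y m

/-- orthogonal subspaces -/
theorem orth {ι κ : Type} [Fintype ι] [DecidableEq ι] [Fintype κ] {J : Matrix ι ι K} (u : IsUnit J)
    {A B : Submodule K (κ → ι → K)} (h : ∀ x ∈ A, ∀ y ∈ B, ∑ l, x l ⬝ᵥ J *ᵥ y l = 0) :
    finrank K A + finrank K B ≤ Fintype.card ι * Fintype.card κ := by
  classical
  refine (orth0 (LinearMap.mk₂ K (fun x y : κ → ι → K => ∑ l, x l ⬝ᵥ J *ᵥ y l)
    (fun x x' y => by simp [Finset.sum_add_distrib]) (fun c x y => by simp [Finset.mul_sum])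
    (fun x y y' => by simp [Finset.sum_add_distrib, mulVec_add])
    fun c x y => by simp [Finset.mul_sum, mulVec_smul]) ((injective_iff_map_eq_zero _).2
      fun x e => funext fun l => ?_) h).trans_eq ?_
  · refine vecMul_injective_of_isUnit u (funext fun i => ?_)
    have := DFunLike.congr_fun e (Pi.single l (Pi.single i 1))
    rw [LinearMap.mk₂_apply, Finset.sum_eq_single l (fun b _ n => by simp [n]) (by simp),
      Pi.single_eq_same, dotProduct_mulVec, dotProduct_single_one] at this
    simpa using this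
  · simp [Module.finrank_pi_fintype, mul_comm]

theorem orth1 {ι : Type} [Fintype ι] [DecidableEq ι] {J : Matrix ι ι K} (u : IsUnit J)
    {A B : Submodule K (ι → K)} (h : ∀ x ∈ A, ∀ y ∈ B, x ⬝ᵥ J *ᵥ y = 0) :
    finrank K A + finrank K B ≤ Fintype.card ι := by
  let e := (LinearEquiv.funUnique Unit K (ι → K)).symm
  have := orth (κ := Unit) u (A := A.map e.toLinearMap) (B := B.map e.toLinearMap) (by
    rintro _ ⟨x, a, rfl⟩ _ ⟨y, b, rfl⟩
    simpa [e] using h x a y b)
  rwa [LinearEquiv.finrank_map_eq, LinearEquiv.finrank_map_eq, Fintype.card_unit, mul_one] at this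

/-- a potential which drops -/
theorem loop {σ : Type} (μ z : σ → ℕ) {G D : σ → Prop}
    (h : ∀ s, G s → ¬ D s → ∃ t, G t ∧ μ t < μ s ∧ z t ≤ z s + 1) (s : σ) (g : G s) :
    ∃ t, G t ∧ D t ∧ z t ≤ z s + μ s := by
  induction e : μ s using Nat.strong_induction_on generalizing s with
  | _ n ih =>
    by_cases d : D s
    · exact ⟨s, g, d, by omega⟩
    obtain ⟨t, a, b, c⟩ := h s g d
    obtain ⟨u, a', b', c'⟩ := ih _ (e ▸ b) t a rfl
    exact ⟨u, a', b', by omega⟩

theorem one_le {A : Submodule K V} [Module.Finite K V] {v : V} (m : v ∈ A) (h : v ≠ 0) :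
    1 ≤ finrank K A :=
  Submodule.one_le_finrank_iff.2 fun e => h (by simpa [e] using m)

/-- two vectors which are independent modulo a line -/
theorem ex_two {A B : Submodule K V} [Module.Finite K A] (b : finrank K (A ⊓ B : Submodule K V) ≤ 1)
    (a : 3 ≤ finrank K A) : ∃ x ∈ A, ∃ y ∈ A, ∀ s t : K, s • x + t • y ∈ B → s = 0 ∧ t = 0 := by
  have e := rk_map A B.mkQ
  rw [Submodule.ker_mkQ] at e
  obtain ⟨f, hf⟩ := exists_linearIndependent_of_le_finrank (R := K) (M := A.map B.mkQ) (n := 2)
    (by omega)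
  obtain ⟨x, x1, x2⟩ := (f 0).2
  obtain ⟨y, y1, y2⟩ := (f 1).2
  refine ⟨x, x1, y, y1, fun s t m => ?_⟩
  have := Fintype.linearIndependent_iff.1 hf ![s, t] (Subtype.ext (by
    rw [Fin.sum_univ_two]
    show s • (f 0).1 + t • (f 1).1 = 0
    rw [← x2, ← y2, ← map_smul, ← map_smul, ← map_add]
    exact (Submodule.Quotient.mk_eq_zero B).2 m))
  exact ⟨this 0, this 1⟩

end Vale.Agent.P014U.Mu
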