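import Mathlib

/-! # P014 U, block MU: cocycles which vanish on a small subgroup (group theory; helper46) -/

set_option autoImplicit false
set_option linter.all false

open Matrix

namespace Vale.Agent.P014U.Mu.Sa

variable {p : ℕ} [Fact p.Prime] {G : Type} [Group G]

/-! ### planes -/

section plane

variable (a : G →* Matrix (Fin 2) (Fin 2) (ZMod p))

/-- cocycles -/
def Z1 (x : G → Fin 2 → ZMod p) : Prop := ∀ g h, x (g * h) = x g + a g *ᵥ x h

/-- coboundaries -/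
def B1 (x : G → Fin 2 → ZMod p) : Prop := ∃ v, ∀ g, x g = a g *ᵥ v - v

/-- no stable line -/
def Irr : Prop := ∀ v ≠ 0, ∃ g, ∀ s : ZMod p, a g *ᵥ v ≠ s • v

variable {a} {x y : G → Fin 2 → ZMod p} {U : Subgroup G} {c : G}

theorem Z1.one (h : Z1 a x) : x 1 = 0 := by simpa using h 1 1

theorem Z1.cj (h : Z1 a x) {n : G} (e : a n = 1) (g : G) : x (g * n * g⁻¹) = a g *ᵥ x n := by
  have := h g g⁻¹
  rw [mul_inv_cancel, h.one] at this
  rw [h, h, map_mul, e, mul_one, add_right_comm, ← this, zero_add]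

theorem Z1.lin (h : Z1 a x) (k : Z1 a y) (s t : ZMod p) : Z1 a (s • x + t • y) := fun g g' => by
  simp only [Pi.add_apply, Pi.smul_apply, h g g', k g g', mulVec_add, mulVec_smul, smul_add]
  abel

theorem mv (g h : G) (v : Fin 2 → ZMod p) : a (g * h) *ᵥ v = a g *ᵥ a h *ᵥ v := by
  rw [map_mul, mulVec_mulVec]

theorem span2 {W : AddSubgroup (Fin 2 → ZMod p)} {v w : Fin 2 → ZMod p} (h : v ∈ W) (k : w ∈ W)
    (v0 : v ≠ 0) (n : ∀ s : ZMod p, w ≠ s • v) : W = ⊤ := by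
  have d : v 0 * w 1 - v 1 * w 0 ≠ 0 := fun d => by
    by_cases e : v 0 = 0
    · have e' : v 1 ≠ 0 := fun e' => v0 (funext fun i => by fin_cases i <;> assumption)
      refine n (w 1 / v 1) (funext fun i => ?_)
      fin_cases i
      · simpa [e, e'] using d
      · simp [e']
    · refine n (w 0 / v 0) (funext fun i => ?_)
      fin_cases i
      · simp [e]
      · simp only [Fin.mk_one, Pi.smul_apply, smul_eq_mul]
        field_simp
        linear_combination d
  refine top_unique fun u _ => ?_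
  have : u = ((u 0 * w 1 - u 1 * w 0) / (v 0 * w 1 - v 1 * w 0)) • v +
      ((v 0 * u 1 - v 1 * u 0) / (v 0 * w 1 - v 1 * w 0)) • w := funext fun i => by
    fin_cases i <;> simp only [Fin.zero_eta, Fin.mk_one, Pi.add_apply, Pi.smul_apply, smul_eq_mul] <;>
      rw [div_mul_eq_mul_div, div_mul_eq_mul_div, ← add_div, eq_div_iff d] <;> ring
  exact this ▸ add_mem (ZMod.smul_mem h _) (ZMod.smul_mem k _)

theorem Irr.top (i : Irr a) {W : AddSubgroup (Fin 2 → ZMod p)} (s : ∀ g, ∀ w ∈ W, a g *ᵥ w ∈ W)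
    {v} (m : v ∈ W) (v0 : v ≠ 0) : W = ⊤ :=
  (i v v0).elim fun g h => span2 m (s g v m) v0 h

/-- the fixed vectors -/
def fx (A : Matrix (Fin 2) (Fin 2) (ZMod p)) : AddSubgroup (Fin 2 → ZMod p) where
  carrier := {v | A *ᵥ v = v}
  add_mem' h k := by simp only [Set.mem_setOf_eq] at *; rw [mulVec_add, h, k]
  zero_mem' := mulVec_zero _
  neg_mem' h := by simp only [Set.mem_setOf_eq] at *; rw [mulVec_neg, h]

theorem fx_top {A : Matrix (Fin 2) (Fin 2) (ZMod p)} (h : fx A = ⊤) : A = 1 :=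
  Matrix.ext fun i j => by
    have : A *ᵥ Pi.single j 1 = Pi.single j 1 := show _ ∈ fx A from h ▸ trivial
    simpa [one_apply, Pi.single_apply] using congrFun this i

theorem neg_ne (p2 : p ≠ 2) : (-1 : ZMod p) ≠ 1 :=
  haveI : Fact (2 < p) := ⟨lt_of_le_of_ne (Fact.out : p.Prime).two_le p2.symm⟩
  ZMod.neg_one_ne_one

theorem line (p2 : p ≠ 2) {A : Matrix (Fin 2) (Fin 2) (ZMod p)} (h : A * A = 1) (d : A.det = -1) :
    ∃ e ≠ 0, A *ᵥ e = e ∧ ∀ v, A *ᵥ v = v → ∃ s : ZMod p, v = s • e := by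
  have : ∃ e ≠ 0, A *ᵥ e = e := by
    by_contra! k
    have : A = -1 := Matrix.ext fun i j => by
      have := not_not.1 (mt (k ((A + 1) *ᵥ Pi.single j 1)) (not_not.2 (by
        rw [mulVec_mulVec, mul_add, h, mul_one, add_comm])))
      simpa [one_apply, Pi.single_apply, add_eq_zero_iff_eq_neg] using congrFun this i
    rw [this] at d
    exact neg_ne p2 (by simpa [det_neg] using d.symm)
  obtain ⟨e, e0, he⟩ := this
  refine ⟨e, e0, he, fun v hv => ?_⟩
  by_contra! k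
  rw [fx_top (span2 (W := fx A) he hv e0 k), det_one] at d
  exact neg_ne p2 d.symm

theorem sah0 (h : Z1 a x) {z : G} {s : ZMod p} (e : a z = s • 1) (s1 : s ≠ 1)
    (k : ∀ g, x ((g * z)⁻¹ * (z * g)) = 0) : B1 a x := by
  refine ⟨(s - 1)⁻¹ • x z, fun g => ?_⟩
  have := h (g * z) ((g * z)⁻¹ * (z * g))
  rw [mul_inv_cancel_left, k, mulVec_zero, add_zero, h, h, e, smul_mulVec, one_mulVec] at this
  rw [mulVec_smul, ← smul_sub, eq_inv_smul_iff₀ (sub_ne_zero.2 s1), sub_smul, one_smul]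
  linear_combination (exp := 1) this

theorem ch2 {R : Type} [CommRing R] (A : Matrix (Fin 2) (Fin 2) R) :
    A * A = A.trace • A - A.det • 1 := by
  ext i j
  fin_cases i <;> fin_cases j <;> simp [trace_fin_two, det_fin_two, mul_apply] <;> ring

/-- two transvections give `-1` -/
theorem neg_one (i : Irr a) {t : G} (t1 : a t ≠ 1) (tp : a t ^ p = 1) : ∃ g, a g = -1 := by
  obtain ⟨n, hn⟩ : ∃ n, a t = 1 + n := ⟨a t - 1, by simp⟩
  have nil : IsNilpotent n := ⟨p, by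
    rw [show n = a t - 1 by simp [hn], sub_pow_char_of_commute _ (Commute.one_right _), tp]; simp⟩
  have tr : n.trace = 0 := (isNilpotent_trace_of_isNilpotent nil).eq_zero
  have dt : n.det = 0 := nil.elim fun k e => pow_eq_zero_iff (Fact.out : p.Prime).ne_zero |>.1 (by
    rw [← det_pow, show n = a t - 1 by simp [hn], sub_pow_char_of_commute _ (Commute.one_right _), tp]
    simp)
  have n2 : n * n = 0 := by rw [ch2, tr, dt]; simp
  have pw (k : ℕ) : a (t ^ k) = 1 + (k : ZMod p) • n := by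
    induction k with
    | zero => simp
    | succ k ih => rw [pow_succ, map_mul, ih, hn]; simp [add_mul, mul_add, n2, add_smul, add_assoc, add_comm n]
  obtain ⟨j, hj⟩ : ∃ j, n *ᵥ Pi.single j 1 ≠ 0 := by
    by_contra! k
    exact t1 (by rw [hn, show n = 0 from Matrix.ext fun i j => by simpa using congrFun (k j) i, add_zero])
  obtain ⟨g, hg⟩ := i _ hj
  obtain ⟨m, hm⟩ : ∃ m, m = a g * n * a g⁻¹ := ⟨_, rfl⟩
  have gi : a g⁻¹ * a g = 1 := by rw [← map_mul, inv_mul_cancel, map_one]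
  have ig : a g * a g⁻¹ = 1 := by rw [← map_mul, mul_inv_cancel, map_one]
  have mt : m.trace = 0 := by rw [hm, trace_mul_cycle, gi, one_mul, tr]
  have md : m.det = 0 := by rw [hm, det_mul, det_mul, dt, mul_zero, zero_mul]
  have m2 : m * m = 0 := by rw [ch2, mt, md]; simp
  have τ : (n * m).trace ≠ 0 := fun e => by
    have ac : n * m + m * n = 0 := by
      have := ch2 (n + m)
      have q : (n + m).det = 0 := by
        rw [det_fin_two] at dt md ⊢
        rw [trace_fin_two] at e tr mt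
        simp only [mul_apply, Fin.sum_univ_two, Matrix.add_apply] at e ⊢
        linear_combination dt + md - e + (m 0 0 + m 1 1) * tr
      rw [trace_add, tr, mt, q, add_mul, mul_add, mul_add, n2, m2] at this
      simpa using this
    generalize hv : n *ᵥ Pi.single j 1 = v at hg hj
    have v0 : n *ᵥ v = 0 := by rw [← hv, mulVec_mulVec, n2, zero_mulVec]
    have k {A : Matrix (Fin 2) (Fin 2) (ZMod p)} {w} (h1 : A *ᵥ v = 0) (h2 : A *ᵥ w = 0)
        (h3 : ∀ s : ZMod p, w ≠ s • v) : A = 0 := add_eq_left.1 (fx_top (span2 (W := fx (1 + A))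
      (show _ *ᵥ _ = _ by rw [add_mulVec, h1, one_mulVec, add_zero])
      (show _ *ᵥ _ = _ by rw [add_mulVec, h2, one_mulVec, add_zero]) hj h3))
    have n0 : n ≠ 0 := fun e => t1 (by rw [hn, e, add_zero])
    have w0 : m *ᵥ a g *ᵥ v = 0 := by
      rw [hm, ← mulVec_mulVec, ← mulVec_mulVec, mulVec_mulVec v, gi, one_mulVec, v0, mulVec_zero]
    obtain ⟨s, hs⟩ : ∃ s : ZMod p, n *ᵥ a g *ᵥ v = s • v := by
      by_contra! f
      exact n0 (k v0 (by rw [mulVec_mulVec, n2, zero_mulVec]) f)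
    have q := congrArg (· *ᵥ a g *ᵥ v) ac
    simp only [add_mulVec, ← mulVec_mulVec, w0, hs, mulVec_zero, zero_add, zero_mulVec, mulVec_smul,
      smul_eq_zero] at q
    refine q.elim (fun f => n0 (k v0 (by rw [hs, f, zero_smul]) hg)) fun f => n0 ?_
    have := congrArg (a g⁻¹ * · * a g) (hm.symm.trans (k f w0 hg))
    simpa [mul_assoc, gi, ← mul_assoc (a g⁻¹) (a g)] using this
  let k := (-(n * m).trace⁻¹).val
  have e : a (t ^ 2 * (g * t ^ k * g⁻¹)) = (1 + (2 : ZMod p) • n) * (1 + (-(n * m).trace⁻¹) • m) := by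
    rw [map_mul, map_mul, map_mul, pw, pw, ZMod.natCast_zmod_val, mul_add (a g), add_mul (a g * 1),
      mul_one, ig, mul_smul_comm, smul_mul_assoc, Nat.cast_ofNat, ← hm]
  have dn {A : Matrix (Fin 2) (Fin 2) (ZMod p)} (h1 : A.trace = 0) (h2 : A.det = 0) (s : ZMod p) :
      (1 + s • A).det = 1 := by
    rw [trace_fin_two] at h1
    rw [det_fin_two] at h2 ⊢
    simp only [Matrix.add_apply, Matrix.smul_apply, one_apply, smul_eq_mul]
    simp
    linear_combination s * h1 + s ^ 2 * h2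
  refine ⟨(t ^ 2 * (g * t ^ k * g⁻¹)) * (t ^ 2 * (g * t ^ k * g⁻¹)), ?_⟩
  rw [map_mul, ch2, e, det_mul, dn tr dt, dn mt md]
  simp only [mul_add, add_mul, one_mul, mul_one, trace_add, trace_smul, tr, mt, smul_mul_smul_comm,
    trace_one, smul_eq_mul, Fintype.card_fin]
  rw [mul_assoc, neg_mul _ (trace _), inv_mul_cancel₀ τ]
  simp

/-- averaging -/
theorem avg (h : Z1 a x) (k : ∀ g ∈ U, a g = 1 → x g = 0) (n : ∀ t, a t ^ p = 1 → a t = 1) :
    ∃ v, ∀ g ∈ U, x g = a g *ᵥ v - v := by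
  classical
  let A := U.map a.toHomUnits
  have := Fintype.ofFinite A
  have c0 : (Fintype.card A : ZMod p) ≠ 0 := fun e => by
    obtain ⟨⟨_, t, m, rfl⟩, o⟩ := exists_prime_orderOf_dvd_card (G := A) p
      ((ZMod.natCast_eq_zero_iff _ _).1 e)
    have e1 := congrArg (fun y : A => (y.1 : Matrix (Fin 2) (Fin 2) (ZMod p))) (pow_orderOf_eq_one
      (⟨_, t, m, rfl⟩ : A))
    rw [o] at e1
    rw [show (⟨_, t, m, rfl⟩ : A) = 1 from Subtype.ext (Units.ext (n t (by simpa using e1))),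
      orderOf_one] at o
    exact (Fact.out : p.Prime).one_lt.ne o
  choose s s1 s2 using fun y : A => y.2
  have w {g g'} (m : g ∈ U) (m' : g' ∈ U) (e : a.toHomUnits g = a.toHomUnits g') : x g = x g' := by
    have := h g' (g'⁻¹ * g)
    rw [mul_inv_cancel_left, k _ (mul_mem (inv_mem m') m) (congrArg Units.val (show a.toHomUnits _ = 1 by
      rw [map_mul, e, ← map_mul, inv_mul_cancel, map_one]))] at this
    simpa using this
  refine ⟨-(Fintype.card A : ZMod p)⁻¹ • ∑ y, x (s y), fun g m => ?_⟩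
  have := Equiv.sum_comp (Equiv.mulLeft (⟨_, g, m, rfl⟩ : A)) fun y => x (s y)
  rw [Finset.sum_congr rfl fun y _ => (w (s1 _) (mul_mem m (s1 y)) (by
    rw [s2, map_mul, s2]; rfl)).trans (h g (s y)), Finset.sum_add_distrib, ← mulVec_sum,
    Finset.sum_const, Finset.card_univ, ← Nat.cast_smul_eq_nsmul (ZMod p)] at this
  rw [mulVec_smul, ← smul_sub, neg_smul, ← smul_neg, eq_inv_smul_iff₀ c0]
  linear_combination (exp := 1) this

/-- the standing hypotheses -/
structure Ok (a : G →* Matrix (Fin 2) (Fin 2) (ZMod p)) (U : Subgroup G) (c : G) : Prop where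
  p2 : p ≠ 2
  irr : Irr a
  nrm : U.Normal
  pw : ∀ g, (a g).det = 1 → ∃ k : ℕ, g ^ p ^ k ∈ U
  cc : c * c = 1
  dc : (a c).det = -1

/-- **the lemma of Sah for planes** -/
theorem Ok.sah (o : Ok a U c) (h : Z1 a x) (k : ∀ g ∈ U, a g = 1 → x g = 0) : B1 a x := by
  have N := o.nrm
  by_cases n : ∀ t, a t ^ p = 1 → a t = 1
  swap
  · push Not at n
    obtain ⟨t, t1, t2⟩ := n
    obtain ⟨g, hg⟩ := neg_one o.irr t2 t1
    obtain ⟨j, m⟩ := o.pw g (by simp [hg, det_neg])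
    have e : a (g ^ p ^ j) = (-1 : ZMod p) • 1 := by
      rw [map_pow, hg, (((Fact.out : p.Prime).odd_of_ne_two o.p2).pow).neg_one_pow]; simp
    refine sah0 h e (neg_ne o.p2) fun y => k _ ?_ ?_
    · rw [_root_.mul_inv_rev, mul_assoc, ← mul_assoc y⁻¹]
      exact mul_mem (inv_mem m) (N.conj_mem' _ m y)
    · rw [map_mul, map_mul, show a (g ^ p ^ j) * a y = a (y * g ^ p ^ j) by simp [e], ← map_mul,
        inv_mul_cancel, map_one]
  obtain ⟨v, hv⟩ := avg h k n
  refine ⟨v, fun g => ?_⟩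
  by_contra e
  obtain ⟨y, hy⟩ : ∃ y : G → Fin 2 → ZMod p, ∀ g, y g = x g - (a g *ᵥ v - v) := ⟨_, fun _ => rfl⟩
  have z : Z1 a y := fun g g' => by rw [hy, hy, hy, h, mv, mulVec_sub, mulVec_sub]; abel
  have z0 (u) (m : u ∈ U) : y u = 0 := by rw [hy, hv u m, sub_self]
  have t := o.irr.top (W := ⨅ u : U, fx (a u)) (fun g w m => AddSubgroup.mem_iInf.2 fun u => by
      have := AddSubgroup.mem_iInf.1 m ⟨_, N.conj_mem' _ u.2 g⟩
      show _ *ᵥ _ = _
      rw [← mv, show u * g = g * (g⁻¹ * u * g) by group, mv]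
      exact congrArg _ this) (v := y g)
    (AddSubgroup.mem_iInf.2 fun u => by
      have := z u g
      rw [show u * g = g * (g⁻¹ * u * g) by group, z, z0 _ (N.conj_mem' _ u.2 g), z0 _ u.2,
        mulVec_zero, add_zero, zero_add] at this
      exact this.symm) (fun f => e (sub_eq_zero.1 (hy g ▸ f)))
  have a1 (g) (d : (a g).det = 1) : a g = 1 := by
    obtain ⟨j, m⟩ := o.pw g d
    have : a (g ^ p ^ j) = 1 := fx_top (top_unique (t.ge.trans (iInf_le (fun u : U => fx (a u)) ⟨_, m⟩)))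
    clear m
    induction j with
    | zero => simpa using this
    | succ j ih => exact ih (n _ (by rw [← map_pow, ← pow_mul, ← pow_succ, this]))
  obtain ⟨e, e0, e1, e2⟩ := line o.p2 (by rw [← map_mul, o.cc, map_one]) o.dc
  obtain ⟨g, hg⟩ := o.irr e e0
  obtain ⟨s, hs⟩ := e2 (a g *ᵥ e) (by
    have := a1 ((g * c)⁻¹ * (c * g)) (by
      rw [map_mul, det_mul, map_mul, det_mul, mul_comm (a c).det, ← det_mul, ← map_mul, ← det_mul,
        ← map_mul, inv_mul_cancel, map_one, det_one])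
    rw [← mv, ← mul_inv_cancel_left (g * c) (c * g), map_mul, this, mul_one, mv, e1])
  exact hg s hs

/-- the values on `U ⊓ ker a` -/
def vl (h : Z1 a x) (k : Z1 a y) (U : Subgroup G) : AddSubgroup ((Fin 2 → ZMod p) × (Fin 2 → ZMod p)) where
  carrier := {w | ∃ g ∈ U, a g = 1 ∧ (x g, y g) = w}
  add_mem' := by
    rintro _ _ ⟨g, m, e, rfl⟩ ⟨g', m', e', rfl⟩
    exact ⟨g * g', mul_mem m m', by rw [map_mul, e, e', mul_one], by simp [h g g', k g g', e]⟩
  zero_mem' := ⟨1, one_mem _, map_one _, by simp [h.one, k.one]⟩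
  neg_mem' := by
    rintro _ ⟨g, m, e, rfl⟩
    have e' : a g⁻¹ = 1 := by rw [← one_mul (a _), ← e, ← map_mul, mul_inv_cancel, map_one, e]
    have h1 := h g g⁻¹
    have h2 := k g g⁻¹
    rw [mul_inv_cancel, e, one_mulVec] at h1 h2
    exact ⟨g⁻¹, inv_mem m, e', Prod.ext (eq_neg_of_add_eq_zero_right (h1.symm.trans h.one))
      (eq_neg_of_add_eq_zero_right (h2.symm.trans k.one))⟩

theorem vl_st (h : Z1 a x) (k : Z1 a y) [N : U.Normal] (g : G) {v w} (m : (v, w) ∈ vl h k U) :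
    (a g *ᵥ v, a g *ᵥ w) ∈ vl h k U := by
  obtain ⟨n, m, e, f⟩ := m
  obtain ⟨rfl, rfl⟩ := Prod.mk.inj f
  exact ⟨_, N.conj_mem _ m g, by rw [map_mul, map_mul, e, mul_one, ← map_mul, mul_inv_cancel, map_one],
    by rw [h.cj e, k.cj e]⟩

/-- one class takes all values -/
theorem Ok.one (o : Ok a U c) (h : Z1 a x) (n : ¬ B1 a x) (v : Fin 2 → ZMod p) :
    ∃ g ∈ U, a g = 1 ∧ x g = v := by
  have N := o.nrm
  by_contra k
  refine n (o.sah h fun g m e => by_contra fun f => k ?_)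
  have := o.irr.top (W := (vl h h U).map (AddMonoidHom.fst _ _)) (by
    rintro g _ ⟨w, m, rfl⟩; exact ⟨_, vl_st h h g m, rfl⟩) ⟨_, ⟨g, m, e, rfl⟩, rfl⟩ f
  obtain ⟨_, ⟨g, m, e, rfl⟩, f⟩ : v ∈ (vl h h U).map (AddMonoidHom.fst _ _) := this ▸ trivial
  exact ⟨g, m, e, f⟩

/-- **two independent classes take all pairs of values** -/
theorem Ok.two (o : Ok a U c) (h : Z1 a x) (k : Z1 a y) (n : ¬ B1 a x)
    (n' : ∀ s : ZMod p, ¬ B1 a (y - s • x)) (v w : Fin 2 → ZMod p) :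
    ∃ g ∈ U, a g = 1 ∧ x g = v ∧ y g = w := by
  have N := o.nrm
  let W := (vl h k U).comap (AddMonoidHom.inr _ _)
  have st : ∀ g, ∀ w ∈ W, a g *ᵥ w ∈ W := fun g w m => by
    simpa [W] using vl_st h k g (v := 0) m
  by_cases t : W = ⊤
  · obtain ⟨g, m, e, f⟩ := o.one h n v
    obtain ⟨g', m', e', f'⟩ := add_mem (show (x g, y g) ∈ vl h k U from ⟨g, m, e, rfl⟩)
      (show w - y g ∈ W from t ▸ trivial)
    exact ⟨g', m', e', by simpa [f] using f'⟩
  have b {w} (m : (0, w) ∈ vl h k U) : w = 0 := by_contra fun f => t (o.irr.top st m f)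
  obtain ⟨e, e0, e1, e2⟩ := line o.p2 (by rw [← map_mul, o.cc, map_one]) o.dc
  obtain ⟨g, m, f, q⟩ := o.one h n e
  have m1 : (e, y g) ∈ vl h k U := ⟨g, m, f, by rw [q]⟩
  obtain ⟨s, hs⟩ := e2 (y g) (sub_eq_zero.1 (b (by simpa [e1] using sub_mem (vl_st h k c m1) m1)))
  have := o.irr.top (W := (vl h k U).comap ((AddMonoidHom.id _).prod
    (DistribSMul.toAddMonoidHom _ s))) (fun g w m => by
      simpa [mulVec_smul] using vl_st h k g (v := w) (w := s • w) m) (v := e) (by simpa [hs] using m1) e0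
  refine (n' s (o.sah (by simpa [sub_eq_add_neg] using k.lin h 1 (-s)) fun g m e => b ?_)).elim
  have m2 : (x g, s • x g) ∈ vl h k U := this.ge (AddSubgroup.mem_top (x g))
  simpa using sub_mem (show (x g, y g) ∈ vl h k U from ⟨g, m, e, rfl⟩) m2

end plane

/-! ### lines -/

section line

variable {χ : G →* ZMod p} {ω x : G → ZMod p} {U U₁ : Subgroup G}

/-- the standing hypotheses -/
structure Ol (ω : G → ZMod p) (U U₁ : Subgroup G) : Prop where
  nrm : U.Normal
  le : U ≤ U₁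
  cm : ∀ g h, (g * h)⁻¹ * (h * g) ∈ U₁
  pw : ∀ g ∈ U₁, ∃ k : ℕ, g ^ p ^ k ∈ U
  kum : ∀ g, ∀ n ∈ U₁, ∃ e : ℕ, (e : ZMod p) = ω g ∧ (n ^ e)⁻¹ * (g * n * g⁻¹) ∈ U

theorem sah1 (h : ∀ g g', x (g * g') = x g + χ g * x g') {z : G} (s1 : χ z ≠ 1)
    (k : ∀ g, x ((g * z)⁻¹ * (z * g)) = 0) : ∃ v, ∀ g, x g = χ g * v - v := by
  refine ⟨(χ z - 1)⁻¹ * x z, fun g => ?_⟩
  have := h (g * z) ((g * z)⁻¹ * (z * g))
  rw [mul_inv_cancel_left, k, mul_zero, add_zero, h, h] at this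
  have := sub_ne_zero.2 s1
  field_simp
  linear_combination ‹x z + _ = _›

/-- **the lemma of Sah for lines** -/
theorem Ol.sah (o : Ol ω U U₁) (n1 : ∃ z, χ z ≠ 1) (n2 : ∃ z, χ z ≠ ω z)
    (h : ∀ g g', x (g * g') = x g + χ g * x g')
    (k : ∀ g ∈ U, χ g = 1 → x g = 0) : ∃ v, ∀ g, x g = χ g * v - v := by
  have N := o.nrm
  by_cases t : ∀ z ∈ U, χ z = 1
  swap
  · push Not at t
    obtain ⟨z, m, e⟩ := t
    refine sah1 h e fun y => k _ ?_ ?_
    · rw [_root_.mul_inv_rev, mul_assoc, ← mul_assoc y⁻¹]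
      exact mul_mem (inv_mem m) (N.conj_mem' _ m y)
    · rw [map_mul, map_mul, mul_comm (χ z), ← map_mul, ← map_mul, inv_mul_cancel, map_one]
  obtain ⟨z, e⟩ := n1
  obtain ⟨g, e'⟩ := n2
  refine sah1 h e fun y => ?_
  generalize (y * z)⁻¹ * (z * y) = n, o.cm y z = m
  obtain ⟨j, hj⟩ := o.pw n m
  have c1 : χ n = 1 := by rw [← ZMod.pow_card_pow (n := j) (x := χ n), ← map_pow, t _ hj]
  have x1 : x 1 = 0 := by simpa using h 1 1
  have pw (i : ℕ) : x (n ^ i) = i * x n := by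
    induction i with
    | zero => simpa using x1
    | succ i ih => rw [pow_succ, h, ih, map_pow, c1]; simp [add_mul]
  obtain ⟨i, i1, i2⟩ := o.kum g n m
  have q := h (n ^ i) ((n ^ i)⁻¹ * (g * n * g⁻¹))
  have q' := h g g⁻¹
  rw [mul_inv_cancel, x1] at q'
  rw [mul_inv_cancel_left, k _ i2 (t _ i2), pw, i1, h, h, map_mul, c1] at q
  exact (mul_eq_zero.1 (show (χ g - ω g) * x n = 0 by linear_combination q + q')).resolve_left
    (sub_ne_zero.2 e')

/-- two homomorphisms which are not zero have a common point -/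
theorem both {A B : Type} [AddGroup A] [AddGroup B] {H : Subgroup G} {x : G → A} {y : G → B}
    (hx : ∀ g ∈ H, ∀ h ∈ H, x (g * h) = x g + x h) (hy : ∀ g ∈ H, ∀ h ∈ H, y (g * h) = y g + y h)
    (n : ∃ g ∈ H, x g ≠ 0) (n' : ∃ g ∈ H, y g ≠ 0) : ∃ g ∈ H, x g ≠ 0 ∧ y g ≠ 0 := by
  obtain ⟨g, m, e⟩ := n
  obtain ⟨h, m', e'⟩ := n'
  by_cases a : y g = 0
  · by_cases b : x h = 0
    · exact ⟨g * h, mul_mem m m', by simpa [hx g m h m', b] using e, by simpa [hy g m h m', a] using e'⟩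
    · exact ⟨h, m', b, e'⟩
  · exact ⟨g, m, e, a⟩

end line

end Vale.Agent.P014U.Mu.Sa
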