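import Vale.Agent.P014U.X4S.St
import Vale.Agent.P014U.X4S.A.Defs
import Vale.Agent.P014U.X4F.St
import Vale.Agent.P014U.Dr.St
import Vale.Agent.P014U.Mu.Wd
import Vale.Agent.P004R.Chb

/-! # P014U, block MU: tame towers without `μ`-invariant (words and rows; helper21) -/

set_option linter.all false

noncomputable section

namespace Vale.Agent.P014U.Mu

open NumberField Matrix PowerSeries Module
open Vale.Agent.P022 (Qb GQ IsConj)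
open Vale.Agent.P027M.S (Inert)
open Vale.Agent.P022D.W (dec)
open Vale.Agent.P022E.GW (Ov Fb)
open Vale.Agent.P022K.G2 (In ka oz om0 B2 ch om)
open Vale.Agent.P004R (Fx)
open Vale.Agent.P004R.Cb (fxg)
open Vale.Agent.P004F (M2)
open X4S (Pl)
open X4S.Aq (cz)
open X4F (Rb)
open Dr (Hm Ha)

variable [Pp]

abbrev F : Type := ZMod pp

abbrev PS : Type := PowerSeries F

abbrev mq (J : ℕ) : PS →+* Rb J := Ideal.Quotient.mk _

/-- the residue of a logarithm -/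
def eb {n : ℕ} (e : GQ → ZMod (pp ^ n)) (g : GQ) : F := (e g).val

/-- the primes of `S` are inert -/
structure Tu (S : Finset ℕ) (n c : ℕ) (e : GQ → ZMod (pp ^ n)) : Prop extends Tq S n c e where
  uni : ∀ p ∈ S, ∀ P φ, Ov p P → Fb p P φ → eb e φ ≠ 0

/-- the representation -/
structure Rep (r : GQ →* M2 ℤ_[pp]) (S : Finset ℕ) : Prop where
  lc : ∀ n, IsOpen {g | (r g).map (PadicInt.toZModPow n) = 1}
  det : ∀ g, (r g).det = cz g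
  two : pp ∈ S
  pr : ∀ p ∈ S, p.Prime
  unr : ∀ l P i, Ov l P → l ∉ S → Inert P i → r i = 1
  big : ∀ k : ℕ, ∃ u ∈ Ha, (r u).det = 1 ∧ ((pp : ℤ_[pp]) ^ 2) ^ k ∣ 2 - (r u).trace ∧
    (r u).trace ≠ 2

/-- bounded local factor -/
def Gq (r : GQ →* M2 ℤ_[pp]) (m : ℕ) (g : GQ) : Prop := ¬ (pp : ℤ_[pp]) ^ m ∣ (r g - 1).det

/-- the residual representation -/
def rb (r : GQ →* M2 ℤ_[pp]) : GQ →* M2 F := PadicInt.toZMod.mapMatrix.toMonoidHom.comp r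

/-- the cyclotomic character modulo `pp` -/
def wz : GQ →* F := (Units.coeHom F).comp (om0 pp)

/-- the line of a character -/
def ln (χ : GQ →* F) : GQ →* Matrix Unit Unit F := (scalar Unit).toMonoidHom.comp χ

variable {ι : Type} [Fintype ι]

/-- the action on `V ⊗ 𝔽_p[X] / X ^ J` -/
def ag (a : GQ → Matrix ι ι F) (J : ℕ) (χ : GQ → ℕ) (g : GQ) : Matrix ι ι (Rb J) :=
  mq J (1 + X) ^ χ g • (a g).map ((mq J).comp C : F →+* Rb J)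

/-- the framed cocycles -/
structure Zg (a : GQ → Matrix ι ι F) (T : Finset ℕ) (k : GQ) (J : ℕ) (χ : GQ → ℕ)
    (x : GQ → ι → Rb J) : Prop where
  co : ∀ g h, x (g * h) = x g + ag a J χ g *ᵥ x h
  opn : ∃ U : Subgroup GQ, IsOpen (U : Set GQ) ∧ ∀ w ∈ U, x w = 0
  un : ∀ g ∈ In T, x g = 0
  inf : x k = 0

/-- the bound -/
def Bd (a : GQ → Matrix ι ι F) (k : GQ) (T : Finset ℕ) (χ : GQ → ℕ) (B : ℕ) : Prop :=
  ∀ J, Finite {x | Zg a T k J χ x} ∧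
    Nat.card {x | Zg a T k J χ x} ≤ pp ^ (Fintype.card ι * J + B)

/-- towers with the property `P` -/
def Out (r : GQ →* M2 ℤ_[pp]) (S : Finset ℕ) (pl : Pl)
    (P : Finset ℕ → (GQ → ℕ) → ℕ → Prop) : Prop :=
  ∃ m B : ℕ, ∀ (n : ℕ) (E : Finset ℕ), 3 ≤ n → ∃ (c : ℕ) (e : GQ → ZMod (pp ^ n)), Tq S n c e ∧
    c.primeFactors.card ≤ m ∧ (∀ q : ℕ, q.Prime → q ∣ c → q ∉ E ∧ Gq r m (pl.σ q)) ∧
    P (S ∪ c.primeFactors) (fun g => (e g).val) B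

/-- **the export** -/
def MUQ : Prop := ∀ r S pl k, Rep r S → IsConj k → Out r S pl (Bd (rb r) k)

/-! ### residual words -/

/-- framed cocycles, unramified outside `T` -/
def Z0 (a : GQ → Matrix ι ι F) (T : Finset ℕ) (k : GQ) : Submodule F (GQ → ι → F) where
  carrier := {x | (∀ g h, x (g * h) = x g + a g *ᵥ x h) ∧
    (∃ U : Subgroup GQ, IsOpen (U : Set GQ) ∧ ∀ w ∈ U, x w = 0) ∧ (∀ g ∈ In T, x g = 0) ∧ x k = 0}
  add_mem' := by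
    rintro x y ⟨a1, ⟨U, o, a2⟩, a3, a4⟩ ⟨b1, ⟨V, o', b2⟩, b3, b4⟩
    exact ⟨fun g h => by simp only [Pi.add_apply, a1, b1, mulVec_add]; abel,
      ⟨U ⊓ V, o.inter o', fun w m => by simp [a2 w m.1, b2 w m.2]⟩,
      fun g m => by simp [a3 g m, b3 g m], by simp [a4, b4]⟩
  zero_mem' := ⟨fun _ _ => by simp, ⟨⊤, isOpen_univ, fun _ _ => rfl⟩, fun _ _ => rfl, rfl⟩
  smul_mem' := by
    rintro c x ⟨a1, ⟨U, o, a2⟩, a3, a4⟩
    exact ⟨fun g h => by simp only [Pi.smul_apply, a1, mulVec_smul, smul_add],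
      ⟨U, o, fun w m => by simp [a2 w m]⟩, fun g m => by simp [a3 g m], by simp [a4]⟩

/-- coboundaries -/
def Cb (a : GQ → Matrix ι ι F) (x : GQ → ι → F) : Prop := ∃ m, ∀ g, x g = a g *ᵥ m - m

/-- `x + y Y + z Y ^ 2 / 2` is a cocycle of `D` for the action `a ⊗ exp (ε Y)` modulo `Y ^ 3` -/
structure L3 (a : GQ → Matrix ι ι F) (ε : GQ → F) (D : Subgroup GQ) (x y z : GQ → ι → F) :
    Prop where
  c0 : ∀ g ∈ D, ∀ h ∈ D, x (g * h) = x g + a g *ᵥ x h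
  c1 : ∀ g ∈ D, ∀ h ∈ D, y (g * h) = y g + a g *ᵥ (y h + ε g • x h)
  c2 : ∀ g ∈ D, ∀ h ∈ D, z (g * h) = z g + a g *ᵥ (z h + (2 * ε g) • y h + ε g ^ 2 • x h)
  opn : ∃ U : Subgroup GQ, IsOpen (U : Set GQ) ∧ ∀ w ∈ D, w ∈ U → x w = 0 ∧ y w = 0 ∧ z w = 0

/-- `y Y ^ 2 / 2` is a coboundary on `D` for the action `a ⊗ exp (- ε Y)` -/
def Ls (a : GQ → Matrix ι ι F) (ε : GQ → F) (D : Subgroup GQ) (y : GQ → ι → F) : Prop :=
  ∃ u v w : ι → F, ∀ g ∈ D, a g *ᵥ u = u ∧ a g *ᵥ (v - ε g • u) = v ∧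
    y g = a g *ᵥ (w - (2 * ε g) • v + ε g ^ 2 • u) - w

/-- the classes which lift locally at `T`, unramified outside `T'` -/
def Sl (a : GQ → Matrix ι ι F) (ε : GQ → F) (pl : Pl) (T T' : Finset ℕ) (k : GQ) :
    Submodule F (GQ → ι → F) where
  carrier := {x | x ∈ Z0 a T' k ∧ ∀ v ∈ T, ∃ y z, L3 a ε (dec (pl.P v)) x y z}
  add_mem' {x x'} h h' := ⟨add_mem h.1 h'.1, fun v m => by
    obtain ⟨y, z, a0, a1, a2, U, o, a3⟩ := h.2 v m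
    obtain ⟨y', z', b0, b1, b2, V, o', b3⟩ := h'.2 v m
    refine ⟨y + y', z + z', fun g s j t => ?_, fun g s j t => ?_, fun g s j t => ?_,
      U ⊓ V, o.inter o', fun w s t => by simp [a3 w s t.1, b3 w s t.2]⟩ <;>
    simp only [Pi.add_apply, a0 g s j t, b0 g s j t, a1 g s j t, b1 g s j t, a2 g s j t,
      b2 g s j t, mulVec_add, smul_add] <;> abel⟩
  zero_mem' := ⟨zero_mem _, fun _ _ => ⟨0, 0, by simp, by simp, by simp,
    ⊤, isOpen_univ, by simp⟩⟩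
  smul_mem' c x h := ⟨Submodule.smul_mem _ c h.1, fun v m => by
    obtain ⟨y, z, a0, a1, a2, U, o, a3⟩ := h.2 v m
    refine ⟨c • y, c • z, fun g s j t => ?_, fun g s j t => ?_, fun g s j t => ?_,
      U, o, fun w s t => by simp [a3 w s t]⟩ <;>
    simp only [Pi.smul_apply, a0 g s j t, a1 g s j t, a2 g s j t, mulVec_add, mulVec_smul,
      smul_add, smul_comm c]⟩

/-- the dual classes -/
def Sd (a : GQ → Matrix ι ι F) (ε : GQ → F) (pl : Pl) (T T' : Finset ℕ) (k : GQ) :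
    Submodule F (GQ → ι → F) where
  carrier := {y | y ∈ Z0 a T' k ∧ ∀ v ∈ T, Ls a ε (dec (pl.P v)) y}
  add_mem' {x x'} h h' := ⟨add_mem h.1 h'.1, fun v m => by
    obtain ⟨u, y, z, a0⟩ := h.2 v m
    obtain ⟨u', y', z', b0⟩ := h'.2 v m
    refine ⟨u + u', y + y', z + z', fun g s => ?_⟩
    obtain ⟨a1, a2, a3⟩ := a0 g s
    obtain ⟨b1, b2, b3⟩ := b0 g s
    refine ⟨by rw [mulVec_add, a1, b1], ?_, ?_⟩
    · rw [smul_add, add_sub_add_comm, mulVec_add, a2, b2]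
    · simp only [Pi.add_apply, a3, b3, mulVec_add, mulVec_sub, smul_add]; abel⟩
  zero_mem' := ⟨zero_mem _, fun _ _ => ⟨0, 0, 0, by simp⟩⟩
  smul_mem' c x h := ⟨Submodule.smul_mem _ c h.1, fun v m => by
    obtain ⟨u, y, z, a0⟩ := h.2 v m
    refine ⟨c • u, c • y, c • z, fun g s => ?_⟩
    obtain ⟨a1, a2, a3⟩ := a0 g s
    refine ⟨by rw [mulVec_smul, a1], ?_, ?_⟩
    · rw [smul_comm, ← smul_sub, mulVec_smul, a2]
    · simp only [Pi.smul_apply, a3, mulVec_add, mulVec_sub, mulVec_smul, smul_add, smul_sub,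
        smul_comm c]⟩

variable [DecidableEq ι]

/-- a residual representation which is unramified outside `S` -/
structure Ga (a : GQ →* Matrix ι ι F) (S : Finset ℕ) : Prop where
  opn : IsOpen (a.ker : Set GQ)
  unr : ∀ g ∈ In S, a g = 1

/-- dual representations -/
structure Du (J : Matrix ι ι F) (a a' : GQ →* Matrix ι ι F) : Prop where
  un : IsUnit J
  eq : ∀ g, (a g)ᵀ * J * a' g = wz g • J

/-- a locally constant additive function -/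
structure Ad (ε : GQ → F) : Prop where
  add : ∀ g h, ε (g * h) = ε g + ε h
  opn : ∃ U : Subgroup GQ, IsOpen (U : Set GQ) ∧ ∀ w ∈ U, ε w = 0

/-- split primes -/
structure Sp (a : GQ →* Matrix ι ι F) (pl : Pl) (l : ℕ) : Prop where
  pr : l.Prime
  md : l % pp = 1
  one : ∀ g ∈ dec (pl.P l), a g = 1

/-- the cup product -/
def Cu (J : Matrix ι ι F) (a' : GQ →* Matrix ι ι F) (x y : GQ → ι → F) (g h : GQ) : F :=
  x g ⬝ᵥ J *ᵥ (a' g *ᵥ y h)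

/-- the group of `ℚ(ζ, T ^ (1 / p))` -/
def Uu (n : ℕ) (T : Finset ℕ) : Subgroup GQ := Hm (pp ^ (n + 1)) ⊓ fxg (Nat.cast '' (T : Set ℕ)) pp

/-- no invisible classes -/
def Sah (a : GQ →* Matrix ι ι F) : Prop := ∀ n T (x : GQ → ι → F), (∀ l ∈ T, l.Prime) →
  (∀ g h, x (g * h) = x g + a g *ᵥ x h) → (∀ g ∈ Uu n T, a g = 1 → x g = 0) → Cb a x

/-- no stable line -/
def Ir (a : GQ →* M2 F) : Prop := ∀ v : Fin 2 → F, (∀ g, ∃ t : F, a g *ᵥ v = t • v) → v = 0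

/-- the layer of prime conductor -/
structure Lq (l n : ℕ) (e : GQ → ZMod (pp ^ n)) : Prop where
  add : ∀ g h, e (g * h) = e g + e h
  ker : ∀ g, Fx {1} l g → e g = 0
  ram : ∀ P t, Ov l P → Gn l P t → eb e t ≠ 0
  fro : ∀ v P φ Q ψ, Ov v P → Fb v P φ → Ov l Q → Fb l Q ψ → v ≠ l → (eb e φ = 0 ↔ ka pp v ψ = 0)

/-! ### rows -/

/-- layers of prime conductor -/
def TOW : Prop := ∀ l n : ℕ, l.Prime → l % pp ^ (n + 1) = 1 → 0 < n → ∃ e, Lq l n e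

/-- all primes of `S` can be inert -/
def FST : Prop := ∀ (S : Finset ℕ) n, (∀ l ∈ S, l.Prime) →
  ∃ g ∈ Hm (pp ^ (n + 1)), ∀ v ∈ S, ka pp v g ≠ 0

/-- the supply of primes -/
def CHB : Prop := ∀ r S (pl : Pl), Rep r S → ∃ u ∈ Ha, (rb r u - 1) ^ 2 = 0 ∧ ∃ m, ∀ n (E : Finset ℕ)
  (W : Subgroup GQ), W.Normal → IsOpen (W : Set GQ) → In E ⊆ W → ∀ g ∈ Hm (pp ^ (n + 1)),
  ∃ l : ℕ, l.Prime ∧ l ∉ E ∧ l % pp ^ (n + 1) = 1 ∧ Gq r m (pl.σ l) ∧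
    ∃ s i, ∃ w ∈ W, pl.σ l = s * (g * (u ^ pp ^ 2) ^ (i : ℕ)) * s⁻¹ * w

/-- the lemma of Sah -/
def SAH : Prop := (∀ a : GQ →* M2 F, IsOpen (a.ker : Set GQ) → (∀ g, (a g).det = wz g) → Ir a →
  Sah a) ∧ ∀ χ : GQ →* F, IsOpen (χ.ker : Set GQ) → χ ≠ 1 → χ ≠ wz → Sah (ln χ)

/-- two independent classes and a third one -/
def TWO : Prop := ∀ (a : GQ →* M2 F) (H : Subgroup GQ) (x x' y : GQ → Fin 2 → F), Ir a → H.Normal →
  (∀ g ∈ H, a g = 1) → (∀ g h, x (g * h) = x g + a g *ᵥ x h) →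
  (∀ g h, x' (g * h) = x' g + a g *ᵥ x' h) → (∀ g h, y (g * h) = y g + a g *ᵥ y h) →
  (∀ s t : F, (∀ g ∈ H, s • x g + t • x' g = 0) → s = 0 ∧ t = 0) → (∃ g ∈ H, y g ≠ 0) →
  ∃ g ∈ H, LinearIndependent F ![x g, x' g] ∧ y g ≠ 0

/-- local orthogonality -/
def ORT : Prop := ∀ (ι : Type) [Fintype ι] [DecidableEq ι] (J : Matrix ι ι F) a a' ε D x y z w,
  Du J a a' → IsOpen (a'.ker : Set GQ) → Ad ε → L3 a ε D x y z → Ls a' ε D w →
  Cu J a' x w ∈ B2 ∅ D (ch (om pp F)) ∧ Cu Jᵀ a w x ∈ B2 ∅ D (ch (om pp F))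

/-- reciprocity -/
def RCP : Prop := ∀ (ι : Type) [Fintype ι] [DecidableEq ι] (J : Matrix ι ι F) a a' (pl : Pl)
  (T L : Finset ℕ) k, Du J a a' → Ga a T → Ga a' T → pp ∈ T → (∀ l ∈ T, l.Prime) → IsConj k →
  (∀ l ∈ L, l ∉ T ∧ Sp a pl l ∧ Sp a' pl l) → ∀ x ∈ Z0 a T k, ∀ y ∈ Z0 a' (T ∪ L) k,
  (∀ v ∈ T, Cu J a' x y ∈ B2 ∅ (dec (pl.P v)) (ch (om pp F))) →
  ∑ l ∈ L, x (pl.σ l) ⬝ᵥ J *ᵥ y (pl.τ l) = 0

/-- the lower bound -/
def LBD : Prop := ∀ (ι : Type) [Fintype ι] [DecidableEq ι] (a : GQ →* Matrix ι ι F) ε (pl : Pl)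
  (T L : Finset ℕ) k, Fintype.card ι ≤ 2 → Ga a T → pp ∈ T → (∀ l ∈ T, l.Prime) → IsConj k → Ad ε →
  (∀ v ∈ T, ∃ g ∈ dec (pl.P v), ε g ≠ 0) → (∀ l ∈ L, l ∉ T ∧ Sp a pl l) →
  (∀ v : ι → F, (∀ g, v ᵥ* a g = wz g • v) → v = 0) →
  Fintype.card ι * L.card ≤ finrank F (Sd a ε pl T (T ∪ L) k)

/-- the new prime of the tower -/
def TWS : Prop := ∀ (ι : Type) [Fintype ι] [DecidableEq ι] (a : GQ →* Matrix ι ι F) ε (pl : Pl)
  (T T' : Finset ℕ) l k, Ga a T → pp ∈ T → l ∉ T → Sp a pl l → ∀ x ∈ Z0 a (insert l T') k,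
  x (pl.τ l) = 0 → x ∈ Z0 a T' k ∧ ∀ y z, Ad ε → ε (pl.τ l) ≠ 0 → L3 a ε (dec (pl.P l)) x y z →
    x (pl.σ l) = 0

/-- the number of residual cocycles -/
def FIN : Prop := ∀ (ι : Type) [Fintype ι] [DecidableEq ι] (a : GQ →* Matrix ι ι F) S k,
  Ga a S → pp ∈ S → (∀ l ∈ S, l.Prime) → ∃ C, ∀ T : Finset ℕ, (∀ l ∈ T, l.Prime) →
    Module.Finite F (Z0 a (S ∪ T) k) ∧ finrank F (Z0 a (S ∪ T) k) ≤ C + Fintype.card ι * T.card

/-- the irreducible case -/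
def IRR : Prop := ∀ r S pl k, Rep r S → IsConj k → Ir (rb r) → Out r S pl (Bd (rb r) k)

/-- two characters -/
def RED : Prop := ∀ r S pl k (χ χ' : GQ →* F), Rep r S → IsConj k → χ * χ' = wz →
  Ga (ln χ) S → (∀ u, (rb r u - 1) ^ 2 = 0 → χ u = 1) → χ ≠ 1 → χ' ≠ 1 →
  Out r S pl fun T e B => Bd (ln χ) k T e B ∧ Bd (ln χ') k T e B

/-- the case of Eisenstein -/
def EIS : Prop := ∀ r S pl k, Rep r S → IsConj k →
  Out r S pl fun T e B => Bd (ln 1) k T e B ∧ Bd (ln wz) k T e B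

end Vale.Agent.P014U.Mu
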