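import Vale.Agent.P014U.Mu.Bas
import Vale.Agent.P014U.Mu.Lin
import Vale.Agent.P014U.Mu.Ort

/-! # P014U, block MU: the effect of a new prime (helper21) -/

set_option linter.all false

noncomputable section

namespace Vale.Agent.P014U.Mu

open NumberField Matrix Module
open Vale.Agent.P022 (Qb GQ IsConj)
open Vale.Agent.P027M.S (Inert)
open Vale.Agent.P022D.W (dec)
open Vale.Agent.P022E.GW (Ov Fb)
open Vale.Agent.P022K.G2 (In ka oz Gz ka_add)
open Vale.Agent.P004F (M2)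
open X4S (Pl)
open Dr (Hm Ha)
open LinearMap (proj)

variable [Pp] {ι : Type} [Fintype ι] [DecidableEq ι] {n c l m : ℕ} {S T T' E L : Finset ℕ}
  {g k u : GQ} {pl : Pl} {r : GQ →* M2 ℤ_[pp]} {e : GQ → ZMod (pp ^ n)} {ε ε' : GQ → F}
  {J : Matrix ι ι F} {a a' : GQ →* Matrix ι ι F}

/-- the arithmetic rows -/
structure Rw : Prop where
  tow : TOW
  fst : FST
  rcp : RCP
  lbd : LBD
  tws : TWS
  fin : FIN

/-- a stage -/
structure Sg (r : GQ →* M2 ℤ_[pp]) (S : Finset ℕ) (pl : Pl) (m n : ℕ) (E : Finset ℕ) (c : ℕ)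
    (e : GQ → ZMod (pp ^ n)) : Prop where
  tu : Tu S n c e
  gq : ∀ q : ℕ, q.Prime → q ∣ c → q ∉ E ∧ Gq r m (pl.σ q)

theorem pr_T (pr : ∀ l ∈ S, l.Prime) : ∀ l ∈ S ∪ c.primeFactors, l.Prime := fun l h =>
  (Finset.mem_union.1 h).elim (pr l) Nat.prime_of_mem_primeFactors

/-- the first stage -/
theorem Rw.first (R : Rw) (y : Sy r pl u m) (hu : u ∈ Ha) (h2 : pp ∈ S) (pr : ∀ l ∈ S, l.Prime)
    (h : n ≠ 0) (E : Finset ℕ) : ∃ l e, Sg r S pl m n E l e ∧ l.primeFactors.card = 1 := by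
  obtain ⟨g, g1, g2⟩ := R.fst S n pr
  obtain ⟨l, l1, l2, l3, l4, s, j, w, w1, b⟩ := y n (E ∪ S) (Uu n S) uu_nrm uu_open
    (fun w p => uu_in h2 pr (in_mono Finset.subset_union_right p)) g g1
  rw [Finset.mem_union, not_or] at l2
  obtain ⟨e, q⟩ := R.tow l n l1 l3 (Nat.pos_of_ne_zero h)
  refine ⟨l, e, ⟨q.tu (pl := pl) h l1 l3 l2.2 fun v p => ?_, fun x a d =>
    (Nat.prime_dvd_prime_iff_eq a l1).1 d ▸ ⟨l2.1, l4⟩⟩, by simp [l1.primeFactors]⟩
  have v0 := (pr v p).ne_zero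
  have t : (u ^ pp ^ 2) ^ j ∈ Uu n S := by
    rw [pow_two, pow_mul]; exact pow_mem (pow_mem (uu_ha hu) _) _
  have z := hm_gz (mul_mem g1 t.1)
  rw [b, (Ei.co_ka v0).co, uu_ka w1 p v0, mul_zero, add_zero, Ei.ka_cj v0 s z, (Ei.co_ka v0).co,
    uu_ka t p v0, mul_zero, add_zero]
  exact mul_ne_zero (P022K.G2.oz_ne s) (g2 v p)

/-- the next stage -/
theorem Rw.grow (R : Rw) (s : Sg r S pl m n E c e) (pr : ∀ l ∈ S, l.Prime) (h : n ≠ 0)
    (w : Nw r pl m n (E ∪ (S ∪ c.primeFactors)) l) (b : pl.σ l ∈ Uu n (S ∪ c.primeFactors)) :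
    ∃ e', Sg r S pl m n E (c * l) e' ∧
      S ∪ (c * l).primeFactors = insert l (S ∪ c.primeFactors) ∧
      (c * l).primeFactors.card ≤ c.primeFactors.card + 1 ∧ eb e' (pl.τ l) ≠ 0 ∧
      ∀ v ∈ S ∪ c.primeFactors, ∀ g ∈ dec (pl.P v), eb e' g = eb e g := by
  obtain ⟨e', q⟩ := R.tow l n w.pr w.md (Nat.pos_of_ne_zero h)
  have o := not_or.1 (mt Finset.mem_union.2 w.out)
  have z v (p : v ∈ S ∪ c.primeFactors) := uu_ka b p (pr_T pr v p).ne_zero
  obtain ⟨t, t'⟩ := s.tu.step (pl := pl) q h w.pr w.md o.2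
    fun v p => z v (Finset.mem_union_left _ p)
  have pf : (c * l).primeFactors = insert l c.primeFactors := by
    rw [Nat.primeFactors_mul s.tu.sq.ne_zero w.pr.ne_zero, w.pr.primeFactors, Finset.union_comm]; rfl
  refine ⟨_, ⟨t, fun x a d => (a.dvd_mul.1 d).elim (s.gq x a) fun d =>
    (Nat.prime_dvd_prime_iff_eq a w.pr).1 d ▸ ⟨o.1, w.gq⟩⟩, by rw [pf, Finset.union_insert],
    pf ▸ Finset.card_insert_le _ _, t', fun v p g i => ?_⟩
  rw [eb_add h, q.dec0 h w.pr (pl.ov v (pr_T pr v p)) (fun c => o.2 (c ▸ p)) (z v p) i, add_zero]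

/-- the data at one stage -/
structure Cx (J : Matrix ι ι F) (a a' : GQ →* Matrix ι ι F) (T : Finset ℕ) (k : GQ) : Prop where
  du : Du J a a'
  ga : Ga a T
  ga' : Ga a' T
  two : pp ∈ T
  pr : ∀ l ∈ T, l.Prime
  cj : IsConj k

theorem Du.symm (d : Du J a a') : Du Jᵀ a' a :=
  ⟨(isUnit_transpose J).2 d.un, fun g => by
    rw [← transpose_smul, ← d.eq g, transpose_mul, transpose_mul, transpose_transpose, mul_assoc]⟩

theorem Cx.symm (x : Cx J a a' T k) : Cx Jᵀ a' a T k := ⟨x.du.symm, x.ga', x.ga, x.two, x.pr, x.cj⟩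

theorem Rw.fz (R : Rw) (ga : Ga a S) (h2 : pp ∈ S) (pr : ∀ l ∈ S, l.Prime)
    (pr' : ∀ l ∈ T, l.Prime) : Module.Finite F (Z0 a (S ∪ T) k) :=
  ((R.fin ι a S k ga h2 pr).choose_spec T pr').1

theorem sl_le : Sl a ε pl T T' k ≤ Z0 a T' k := fun _ h => h.1

theorem sd_le : Sd a ε pl T T' k ≤ Z0 a T' k := fun _ h => h.1

theorem Rw.fl (R : Rw) (x : Cx J a a' T k) : Module.Finite F (Sl a ε pl T T k) :=
  have := R.fz (k := k) x.ga x.two x.pr x.pr
  Submodule.finiteDimensional_of_le (sl_le.trans (z0_mono (T := T ∪ T) Finset.subset_union_left))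

theorem L3.congr {D : Subgroup GQ} {a : GQ → Matrix ι ι F} {x y z : GQ → ι → F}
    (h : L3 a ε D x y z) (e : ∀ g ∈ D, ε' g = ε g) : L3 a ε' D x y z :=
  ⟨h.c0, fun g s j t => e g s ▸ h.c1 g s j t, fun g s j t => e g s ▸ h.c2 g s j t, h.opn⟩

/-- **the step** -/
theorem Rw.step (R : Rw) (x : Cx J a a' T k) (ad : Ad ε) (ad' : Ad ε') (lT : l ∉ T)
    (sp : Sp a pl l) (sp' : Sp a' pl l) (rm : ε' (pl.τ l) ≠ 0)
    (eq : ∀ v ∈ T, ∀ g ∈ dec (pl.P v), ε' g = ε g) :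
    finrank F (Sl a ε' pl (insert l T) (insert l T) k) +
      finrank F ((Sl a ε pl T T k).map (proj (pl.σ l))) +
      finrank F ((Sd a' ε pl T T k).map (proj (pl.σ l))) ≤
        finrank F (Sl a ε pl T T k) + Fintype.card ι := by
  have iu : insert l T = T ∪ {l} := by rw [Finset.union_comm]; rfl
  have f0 := R.fl (pl := pl) (ε := ε) x
  have f1 := R.fz (T := {l}) (k := k) x.ga x.two x.pr (by simpa using sp.pr)
  have f2 : Module.Finite F (Sl a ε' pl (insert l T) (insert l T) k) :=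
    Submodule.finiteDimensional_of_le (sl_le.trans (z0_mono iu.le))
  have lo : ∀ z ∈ Sl a ε' pl (insert l T) (insert l T) k, ∀ v ∈ T,
      ∃ p q, L3 a ε (dec (pl.P v)) z p q := fun z h v i =>
    (h.2 v (Finset.mem_insert_of_mem i)).imp fun p => Exists.imp fun q b =>
      b.congr fun g j => (eq v i g j).symm
  have e1 := rk_map (Sl a ε' pl (insert l T) (insert l T) k) (proj (pl.τ l) : _ →ₗ[F] ι → F)
  have e2 := rk_map (Sl a ε pl T T k) (proj (pl.σ l) : _ →ₗ[F] ι → F)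
  have e3 := Submodule.finrank_mono (s := Sl a ε' pl (insert l T) (insert l T) k ⊓
      LinearMap.ker (proj (pl.τ l) : _ →ₗ[F] ι → F))
    (t := Sl a ε pl T T k ⊓ LinearMap.ker (proj (pl.σ l) : _ →ₗ[F] ι → F)) fun z h => by
      obtain ⟨b1, b2⟩ := R.tws ι a ε' pl T T l k x.ga x.two lT sp z h.1.1 h.2
      obtain ⟨p, q, b⟩ := h.1.2 l (Finset.mem_insert_self _ _)
      exact ⟨⟨b1, lo z h.1⟩, b2 p q ad' rm b⟩
  have e4 := orth1 x.symm.du.un (A := (Sd a' ε pl T T k).map (proj (pl.σ l)))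
    (B := (Sl a ε' pl (insert l T) (insert l T) k).map (proj (pl.τ l))) (by
      rintro _ ⟨y, hy, rfl⟩ _ ⟨z, hz, rfl⟩
      simpa using R.rcp ι Jᵀ a' a pl T {l} k x.du.symm x.ga' x.ga x.two x.pr x.cj
        (by simpa using ⟨lT, sp', sp⟩) y hy.1 z (iu ▸ hz.1) fun v i => by
          obtain ⟨p, q, b⟩ := lo z hz v i
          exact (ort ι J a a' ε _ z p q y x.du x.ga'.opn ad b (hy.2 v i)).2)
  omega

/-- the coboundaries -/
def cb (a : GQ →* Matrix ι ι F) : (ι → F) →ₗ[F] GQ → ι → F :=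
  LinearMap.pi fun g => (a g).mulVecLin - LinearMap.id

theorem cb_iff {x : GQ → ι → F} : x ∈ LinearMap.range (cb a) ↔ Cb a x :=
  exists_congr fun _ => ⟨fun e g => (congrFun e g).symm, fun e => funext fun g => (e g).symm⟩

/-- the fixed vectors of `k` -/
def fx (a : GQ →* Matrix ι ι F) (k : GQ) : Submodule F (ι → F) :=
  LinearMap.ker ((a k).mulVecLin - LinearMap.id)

theorem mem_fx {v : ι → F} : v ∈ fx a k ↔ a k *ᵥ v = v := sub_eq_zero

theorem rk_cb {A : Submodule F (GQ → ι → F)} (h : A ≤ Z0 a T k) (b : ∀ x ∈ A, Cb a x) :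
    finrank F A ≤ finrank F (fx a k) :=
  (Submodule.finrank_mono (t := (fx a k).map (cb a)) fun x i => by
    obtain ⟨v, hv⟩ := b x i
    exact ⟨v, (hv k).symm.trans (h i).2.2.2, funext fun g => (hv g).symm⟩).trans
      (Submodule.finrank_map_le _ _)

theorem fx_le (d : Du J a a') (hk : IsConj k) :
    finrank F (fx a k) + finrank F (fx a' k) ≤ Fintype.card ι :=
  orth1 d.un fun v p w q => by
    have := d.pair k v w
    rw [mem_fx.1 p, mem_fx.1 q, show wz k = -1 from Ei.oz_k hk] at this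
    exact (mul_eq_zero.1 (show 2 * (v ⬝ᵥ J *ᵥ w) = 0 by linear_combination this)).resolve_left two_ne

theorem Rw.unr (R : Rw) (ga : Ga a T) (h2 : pp ∈ T) (hL : ∀ l ∈ L, l ∉ T ∧ Sp a pl l)
    {x : GQ → ι → F} (h : x ∈ Z0 a (T ∪ L) k) (z : ∀ l ∈ L, x (pl.τ l) = 0) : x ∈ Z0 a T k := by
  induction L using Finset.induction_on with
  | empty => simpa using h
  | insert l L _ ih =>
    have i := Finset.mem_insert_self l L
    exact ih (fun j p => hL j (Finset.mem_insert_of_mem p)) (R.tws ι a 0 pl T _ l k ga h2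
      (hL l i).1 (hL l i).2 x (Finset.union_insert l T L ▸ h) (z l i)).1
      fun j p => z j (Finset.mem_insert_of_mem p)

/-- values at finitely many elements -/
def evs (f : ℕ → GQ) (L : Finset ℕ) : (GQ → ι → F) →ₗ[F] L → ι → F :=
  LinearMap.pi fun l => proj (f l)

theorem Sah.ex (s : Sah a) (pr : ∀ l ∈ T, l.Prime) {x : GQ → ι → F} (h : x ∈ Z0 a T' k)
    (b : ¬ Cb a x) (n : ℕ) : ∃ g ∈ Uu n T, a g = 1 ∧ x g ≠ 0 := by
  by_contra! c
  exact b (s n T x pr h.1 c)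

theorem Du.one (d : Du J a a') (z : g ∈ Gz pp) (h : a g = 1) : a' g = 1 := by
  have := d.eq g
  rw [h, transpose_one, one_mul, show wz g = 1 from P022K.G2.mem_Gz.1 z, one_smul] at this
  exact d.un.mul_left_cancel (this.trans (mul_one J).symm)

theorem mv_ne (s : GQ) {v : ι → F} (h : v ≠ 0) : a s *ᵥ v ≠ 0 := fun e => h (by
  rw [← one_mulVec v, ← map_one a, ← inv_mul_cancel s, map_mul, ← mulVec_mulVec, e, mulVec_zero])

/-- **a large group has a dual class** -/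
theorem Rw.dual (R : Rw) (x : Cx J a a' T k) (y : Sy r pl u m) (hu : u ∈ Ha)
    (au : a (u ^ pp) = 1) (s : Sah a) (c2 : Fintype.card ι ≤ 2) (ad : Ad ε)
    (gd : ∀ v ∈ T, ∃ g ∈ dec (pl.P v), ε g ≠ 0)
    (rel : ∀ v : ι → F, (∀ g, v ᵥ* a' g = wz g • v) → v = 0)
    (big : Fintype.card ι < finrank F (Sl a ε pl T T k)) : ∃ z ∈ Sd a' ε pl T T k, ¬ Cb a' z := by
  have f0 := R.fl (pl := pl) (ε := ε) x
  obtain ⟨L, hL, mn⟩ := (measure fun L : Finset ℕ => finrank F (Sl a ε pl T T k ⊓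
    LinearMap.ker (evs pl.σ L) : Submodule F _)).wf.has_min
    {L | ∀ l ∈ L, l ∉ T ∧ Sp a pl l ∧ Sp a' pl l} ⟨∅, by simp⟩
  have e0 := rk_cb (A := Sl a ε pl T T k ⊓ LinearMap.ker (evs pl.σ L)) (inf_le_left.trans sl_le)
    fun z hz => by_contra fun b => by
      obtain ⟨g, g1, g2, g3⟩ := s.ex x.pr hz.1.1 b 0
      obtain ⟨l, w, sp, -, t, ht⟩ := y.nw (I := Bool) (a := fun i => cond i a a')
        (x := fun i => cond i z 0) (k := k) hu x.two x.pr (fun i => by cases i; exacts [x.ga', x.ga])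
        (fun i => by cases i; exacts [x.du.one (hm_gz (uu_ha (n := 0) (T := ∅) hu).1) au, au])
        (fun i => by cases i; exacts [zero_mem _, hz.1.1]) g1
        (fun i => by cases i; exacts [x.du.one (hm_gz g1.1) g2, g2]) ∅
      refine mn (insert l L) (fun j p => (Finset.mem_insert.1 p).elim (fun e => e ▸
        ⟨by simpa using w.out, sp true, sp false⟩) (hL j)) (Submodule.finrank_lt_finrank_of_lt
          (SetLike.lt_iff_le_and_exists.2 ⟨fun v p => ⟨p.1, funext fun j =>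
            congrFun p.2 ⟨j, Finset.mem_insert_of_mem j.2⟩⟩, z, hz, fun p => ?_⟩))
      exact mv_ne t g3 ((ht true).symm.trans (congrFun p.2 ⟨l, Finset.mem_insert_self _ _⟩))
  by_contra! nb
  have f1 := R.fz (T := L) (k := k) x.ga' x.two x.pr fun l p => (hL l p).2.1.pr
  have f2 : Module.Finite F (Sd a' ε pl T (T ∪ L) k) := Submodule.finiteDimensional_of_le sd_le
  have e1 := rk_map (Sl a ε pl T T k) (evs pl.σ L)
  have e2 := rk_map (Sd a' ε pl T (T ∪ L) k) (evs pl.τ L)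
  have e3 := R.lbd ι a' ε pl T L k c2 x.ga' x.two x.pr x.cj ad gd
    (fun l p => ⟨(hL l p).1, (hL l p).2.2⟩) rel
  have e4 := rk_cb (A := Sd a' ε pl T (T ∪ L) k ⊓ LinearMap.ker (evs pl.τ L))
    (inf_le_left.trans sd_le) fun z hz => nb z ⟨R.unr x.ga' x.two
      (fun l p => ⟨(hL l p).1, (hL l p).2.2⟩) hz.1.1 fun l p => congrFun hz.2 ⟨l, p⟩, hz.1.2⟩
  have e5 := orth x.du.un (A := (Sl a ε pl T T k).map (evs pl.σ L))
    (B := (Sd a' ε pl T (T ∪ L) k).map (evs pl.τ L)) (by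
      rintro _ ⟨z, hz, rfl⟩ _ ⟨w, hw, rfl⟩
      refine (Finset.sum_coe_sort L fun l => z (pl.σ l) ⬝ᵥ J *ᵥ w (pl.τ l)).trans
        (R.rcp ι J a a' pl T L k x.du x.ga x.ga' x.two x.pr x.cj hL z hz.1 w hw.1 fun v i => ?_)
      obtain ⟨p, q, b⟩ := hz.2 v i
      exact (ort ι J a a' ε _ z p q w x.du x.ga'.opn ad b (hw.2 v i)).1)
  have e6 := fx_le x.du x.cj
  rw [Fintype.card_coe] at e5
  omega

end Vale.Agent.P014U.Mu
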